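import Crest.Agent.R2.Crt

/-! Row 2: high moments along a progression. -/

set_option autoImplicit false

namespace Crest.Agent.R2

open Finset

namespace A2

open CR

theorem card_le_two_pow (P : Finset Pr) (L : ℕ) (h : ∀ p ∈ P, p.1 ≤ 2 ^ L) : P.card ≤ 2 ^ L := by
  have : P.card ≤ (Icc 1 (2 ^ L)).card := by
    refine card_le_card_of_injOn (fun p => p.1) ?_ ?_
    · intro p hp
      exact mem_coe.2 (mem_Icc.2 ⟨p.2.one_le, h p hp⟩)
    · intro p _ p' _ hh
      exact Subtype.ext hh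
  simpa using this

theorem sum_periodic_le (f : ℕ → ℝ) (N n : ℕ) (hN : 0 < N) (hper : ∀ a b, f (a + N * b) = f a)
    (h0 : ∑ a ∈ range N, f a = 0) (h1 : ∀ a, f a ≤ 1) : ∑ i ∈ range n, f i ≤ N := by
  have hn : n = N * (n / N) + n % N := (Nat.div_add_mod n N).symm
  rw [hn, sum_range_add, sum_range_mul']
  have e1 : ∑ b ∈ range (n / N), ∑ a ∈ range N, f (a + N * b) = 0 := by
    refine sum_eq_zero (fun b _ => ?_)
    rw [← h0]
    exact sum_congr rfl (fun a _ => hper a b)
  rw [e1, zero_add]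
  refine (sum_le_sum (fun i _ => h1 _)).trans ?_
  rw [sum_const, card_range, nsmul_eq_mul, mul_one]
  exact_mod_cast (Nat.mod_lt n hN).le

/-- A tuple with a prime of multiplicity one. -/
theorem tuple_single (h : CrtStmt) (P : Finset Pr) (ρ : Res) (g : (p : Pr) → ZMod p.1 → ℝ)
    (hg0 : ∀ p ∈ P, ∑ c, g p c = 0) (hg1 : ∀ p ∈ P, ∀ c, |g p c| ≤ 1) (L m n : ℕ)
    (hL : ∀ p ∈ P, p.1 ≤ 2 ^ L) (x v : V) (hv : ∀ p ∈ P, ρ p v ≠ 0) (τ : Fin m → Pr)
    (hτ : ∀ l, τ l ∈ P) (p₀ : Pr) (hp₀ : (univ.filter (fun l => τ l = p₀)).card = 1) :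
    ∑ i ∈ range n, ∏ l, g (τ l) (ρ (τ l) (x + i • v)) ≤ 2 ^ (m * L) := by
  classical
  set K := univ.image τ with hK
  have hKP : ∀ p ∈ K, p ∈ P := by
    intro p hp
    obtain ⟨l, _, rfl⟩ := mem_image.1 hp
    exact hτ l
  have hp₀K : p₀ ∈ K := by
    obtain ⟨l, hl⟩ := card_pos.1 (hp₀ ▸ Nat.one_pos)
    exact mem_image.2 ⟨l, mem_univ _, (mem_filter.1 hl).2⟩
  let F : (p : Pr) → ZMod p.1 → ℝ := fun p c => g p c ^ (univ.filter (fun l => τ l = p)).card
  have hF : ∀ y : V, ∏ l, g (τ l) (ρ (τ l) y) = ∏ p ∈ K, F p (ρ p y) := by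
    intro y
    exact prod_comp (fun p => g p (ρ p y)) τ
  have hN : 0 < ∏ p ∈ K, p.1 := prod_pos (fun p _ => p.2.pos)
  have hle : ∑ i ∈ range n, ∏ p ∈ K, F p (ρ p (x + i • v)) ≤ (∏ p ∈ K, p.1 : ℕ) := by
    refine sum_periodic_le _ _ _ hN ?_ ?_ ?_
    · intro a b
      exact prod_congr rfl (fun q hq => by rw [rho_period K ρ x v q hq])
    · rw [h K ρ F x v (fun p hp => hv p (hKP p hp))]
      refine prod_eq_zero hp₀K ?_
      simp only [F, hp₀, pow_one]
      exact hg0 p₀ (hKP _ hp₀K)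
    · intro a
      refine (le_abs_self _).trans ?_
      rw [abs_prod]
      refine prod_le_one (fun _ _ => abs_nonneg _) (fun p hp => ?_)
      simp only [F, abs_pow]
      exact pow_le_one₀ (abs_nonneg _) (hg1 p (hKP p hp) _)
  have hN2 : ∏ p ∈ K, p.1 ≤ 2 ^ (m * L) := by
    refine (prod_le_pow_card K _ (2 ^ L) (fun p hp => hL p (hKP p hp))).trans ?_
    rw [mul_comm m, pow_mul]
    refine Nat.pow_le_pow_right (by positivity) ?_
    exact card_image_le.trans (by simp)
  simp only [hF]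
  refine hle.trans ?_
  exact_mod_cast hN2

open Classical in
/-- Tuples in which every value is repeated. -/
theorem card_double (P : Finset Pr) (q : ℕ) (hq : 1 ≤ q) :
    ((Fintype.piFinset (fun _ : Fin (2 * q) => P)).filter
      (fun τ => ¬ ∃ p₀, (univ.filter (fun l => τ l = p₀)).card = 1)).card
      ≤ P.card ^ q * q ^ (2 * q) := by
  classical
  have hsub : (Fintype.piFinset (fun _ : Fin (2 * q) => P)).filter
      (fun τ => ¬ ∃ p₀, (univ.filter (fun l => τ l = p₀)).card = 1) ⊆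
      ((Fintype.piFinset (fun _ : Fin q => P)) ×ˢ (univ : Finset (Fin (2 * q) → Fin q))).image
        (fun es => es.1 ∘ es.2) := by
    intro τ hτ
    obtain ⟨hτP, hτ2⟩ := mem_filter.1 hτ
    rw [Fintype.mem_piFinset] at hτP
    push Not at hτ2
    set K := univ.image τ with hK
    have hcard : K.card ≤ q := by
      have h1 : (univ : Finset (Fin (2 * q))).card =
          ∑ p ∈ K, (univ.filter (fun l => τ l = p)).card :=
        card_eq_sum_card_fiberwise (fun l _ => mem_coe.2 (mem_image_of_mem τ (mem_univ l)))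
      have h2 : ∀ p ∈ K, 2 ≤ (univ.filter (fun l => τ l = p)).card := by
        intro p hp
        obtain ⟨l, _, rfl⟩ := mem_image.1 hp
        have h3 : 0 < (univ.filter (fun l' => τ l' = τ l)).card :=
          card_pos.2 ⟨l, mem_filter.2 ⟨mem_univ _, rfl⟩⟩
        have h4 := hτ2 (τ l)
        omega
      have h5 := card_nsmul_le_sum K _ 2 h2
      rw [← h1, card_univ, Fintype.card_fin, smul_eq_mul] at h5
      omega
    have hmem : ∀ l, τ l ∈ K := fun l => mem_image_of_mem τ (mem_univ l)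
    let s : Fin (2 * q) → Fin q := fun l => Fin.castLE hcard (K.equivFin ⟨τ l, hmem l⟩)
    let e : Fin q → Pr := fun j =>
      if h : j.1 < K.card then (K.equivFin.symm ⟨j.1, h⟩).1 else τ ⟨0, by omega⟩
    refine mem_image.2 ⟨(e, s), mem_product.2 ⟨?_, mem_univ _⟩, ?_⟩
    · rw [Fintype.mem_piFinset]
      intro j
      simp only [e]
      split_ifs with h
      · obtain ⟨l, _, hl⟩ := mem_image.1 (K.equivFin.symm ⟨j.1, h⟩).2
        rw [← hl]
        exact hτP l
      · exact hτP _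
    · funext l
      have hlt : (s l).1 < K.card := (K.equivFin ⟨τ l, hmem l⟩).2
      simp only [Function.comp, e, hlt, dif_pos]
      have : (⟨(s l).1, hlt⟩ : Fin K.card) = K.equivFin ⟨τ l, hmem l⟩ := rfl
      rw [this, Equiv.symm_apply_apply]
  refine (card_le_card hsub).trans (card_image_le.trans (le_of_eq ?_))
  simp [card_product, Fintype.card_piFinset]

/-- The moment bound when all primes are good. -/
theorem good (h : CrtStmt) (P : Finset Pr) (ρ : Res) (g : (p : Pr) → ZMod p.1 → ℝ)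
    (hg0 : ∀ p ∈ P, ∑ c, g p c = 0) (hg1 : ∀ p ∈ P, ∀ c, |g p c| ≤ 1) (L q n : ℕ) (W : ℝ)
    (hL : ∀ p ∈ P, p.1 ≤ 2 ^ L) (hq : 1 ≤ q) (hn : 2 ^ (4 * q * L) ≤ n)
    (hW : (P.card : ℝ) ≤ W ^ 2) (x v : V) (hv : ∀ p ∈ P, ρ p v ≠ 0) :
    ∑ i ∈ range n, (∑ p ∈ P, g p (ρ p (x + i • v))) ^ (2 * q) ≤
      n * ((W * q) ^ (2 * q) + 1) := by
  classical
  simp only [sum_pow']
  rw [sum_comm, ← sum_filter_add_sum_filter_not _
    (fun τ : Fin (2 * q) → Pr => ∃ p₀, (univ.filter (fun l => τ l = p₀)).card = 1), mul_add,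
    add_comm]
  refine add_le_add ?_ ?_
  · refine (sum_le_card_nsmul _ _ (n : ℝ) ?_).trans ?_
    · intro τ hτ
      have hτP := Fintype.mem_piFinset.1 (mem_filter.1 hτ).1
      have : ∀ i ∈ range n, ∏ l, g (τ l) (ρ (τ l) (x + i • v)) ≤ 1 := by
        intro i _
        refine (le_abs_self _).trans ?_
        rw [abs_prod]
        exact prod_le_one (fun _ _ => abs_nonneg _) (fun l _ => hg1 _ (hτP l) _)
      refine (sum_le_sum this).trans ?_
      simp
    · rw [nsmul_eq_mul, mul_comm]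
      refine mul_le_mul_of_nonneg_left ?_ (Nat.cast_nonneg _)
      have h1 : (((Fintype.piFinset (fun _ : Fin (2 * q) => P)).filter
          (fun τ => ¬ ∃ p₀, (univ.filter (fun l => τ l = p₀)).card = 1)).card : ℝ)
          ≤ (P.card : ℝ) ^ q * (q : ℝ) ^ (2 * q) := by
        exact_mod_cast card_double P q hq
      refine h1.trans ?_
      rw [mul_pow, pow_mul W]
      exact mul_le_mul_of_nonneg_right (pow_le_pow_left₀ (Nat.cast_nonneg _) hW _) (by positivity)
  · refine (sum_le_card_nsmul _ _ ((2 : ℝ) ^ (2 * q * L)) ?_).trans ?_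
    · intro τ hτ
      obtain ⟨hτP, p₀, hp₀⟩ := mem_filter.1 hτ
      exact tuple_single h P ρ g hg0 hg1 L (2 * q) n hL x v hv τ
        (Fintype.mem_piFinset.1 hτP) p₀ hp₀
    · have h1 : ((Fintype.piFinset (fun _ : Fin (2 * q) => P)).filter
          (fun τ => ∃ p₀, (univ.filter (fun l => τ l = p₀)).card = 1)).card ≤ 2 ^ (2 * q * L) := by
        refine (card_filter_le _ _).trans ?_
        rw [Fintype.card_piFinset, prod_const, card_univ, Fintype.card_fin, mul_comm (2 * q),
          pow_mul 2 L]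
        exact Nat.pow_le_pow_left (card_le_two_pow P L hL) _
      have h2 : ((Fintype.piFinset (fun _ : Fin (2 * q) => P)).filter
          (fun τ => ∃ p₀, (univ.filter (fun l => τ l = p₀)).card = 1)).card * 2 ^ (2 * q * L)
          ≤ n := by
        refine (Nat.mul_le_mul_right _ h1).trans (le_trans (le_of_eq ?_) hn)
        rw [← pow_add]
        congr 1
        ring
      rw [nsmul_eq_mul, mul_one]
      exact_mod_cast h2

end A2

open A2

theorem ap2 (h : CrtStmt) : AP2Stmt := by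
  intro P ρ g hg0 hg1 L q n W β hL hq hn hW0 hW x v hβ
  classical
  set Pg := P.filter (fun p => ¬ ρ p v = 0) with hPg
  set Pb := P.filter (fun p => ρ p v = 0) with hPb
  have hβ0 : 0 ≤ β := le_trans (Nat.cast_nonneg _) hβ
  have hG := good h Pg ρ g (fun p hp => hg0 p (mem_filter.1 hp).1)
    (fun p hp => hg1 p (mem_filter.1 hp).1) L q n W (fun p hp => hL p (mem_filter.1 hp).1) hq hn
    (le_trans (by exact_mod_cast card_filter_le _ _) hW) x v (fun p hp => (mem_filter.1 hp).2)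
  have hev : Even (2 * q) := even_two_mul q
  have h1 : ∀ i ∈ range n, (∑ p ∈ P, g p (ρ p (x + i • v))) ^ (2 * q) ≤
      2 ^ (2 * q) * ((∑ p ∈ Pg, g p (ρ p (x + i • v))) ^ (2 * q) + β ^ (2 * q)) := by
    intro i _
    rw [← sum_filter_add_sum_filter_not P (fun p => ρ p v = 0), add_comm]
    refine (hev.add_pow_le).trans ?_
    have hb : |∑ p ∈ Pb, g p (ρ p (x + i • v))| ≤ β := by
      refine (abs_sum_le_sum_abs _ _).trans (le_trans ?_ hβ)
      refine (sum_le_card_nsmul _ _ 1 (fun p hp => hg1 p (mem_filter.1 hp).1 _)).trans ?_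
      rw [nsmul_eq_mul, mul_one]
    have hb2 : (∑ p ∈ Pb, g p (ρ p (x + i • v))) ^ (2 * q) ≤ β ^ (2 * q) := by
      rw [← hev.pow_abs]
      exact pow_le_pow_left₀ (abs_nonneg _) hb _
    refine mul_le_mul (pow_le_pow_right₀ (by norm_num) (Nat.sub_le _ _)) (by linarith) ?_
      (by positivity)
    exact add_nonneg (hev.pow_nonneg _) (hev.pow_nonneg _)
  refine (sum_le_sum h1).trans ?_
  rw [← mul_sum, sum_add_distrib, sum_const, card_range, nsmul_eq_mul, mul_pow, mul_left_comm]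
  refine mul_le_mul_of_nonneg_left ?_ (by positivity)
  have hq0 : 2 * q ≠ 0 := by omega
  have hWq : 0 ≤ W * q := by positivity
  have h2 : (W * q) ^ (2 * q) + 1 + β ^ (2 * q) ≤ (W * q + 1 + β) ^ (2 * q) := by
    refine le_trans ?_ (pow_add_pow_le (by positivity) hβ0 hq0)
    have := pow_add_pow_le hWq zero_le_one hq0
    rw [one_pow] at this
    linarith
  have h3 := mul_le_mul_of_nonneg_left h2 (Nat.cast_nonneg (α := ℝ) n)
  nlinarith

end Crest.Agent.R2
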