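import Crest.Agent.R2.Stmts

/-!
Row 2: elementary facts on codes and scores.
-/

set_option autoImplicit false

namespace Crest.Agent.R2

open Finset

namespace Api

theorem S_nonempty (O : Obj) : O.S.Nonempty := (O.hS 0).exists

theorem neg_log_nonneg {ι : Type} {s : Finset ι} {q : ι → ℝ} (h0 : ∀ x, 0 < q x)
    (h1 : ∑ x ∈ s, q x ≤ 1) {x : ι} (hx : x ∈ s) : 0 ≤ -Real.log (q x) := by
  have := (single_le_sum (fun y _ => (h0 y).le) hx).trans h1
  have := Real.log_nonpos (h0 x).le this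
  linarith

theorem cost_unif (O : Obj) (ν : Ex ℕ) : O.Cost ν (Real.log O.S.card) := by
  have hp : (0 : ℝ) < O.S.card := by exact_mod_cast (S_nonempty O).card_pos
  refine ⟨fun _ => (O.S.card : ℝ)⁻¹, ⟨fun _ => by positivity, ?_⟩, ?_⟩
  · simp [hp.ne']
  · simp

theorem cost_nonneg (O : Obj) (ν : Ex ℕ) (h : ℝ) (hc : O.Cost ν h) : 0 ≤ h := by
  obtain ⟨q, ⟨h0, h1⟩, h2⟩ := hc
  exact le_trans (ν.pos _ fun a => O.hS a _ fun x hx => neg_log_nonneg h0 h1 hx) h2

theorem cost2_nonneg (S : Sys) (O : Obj) (i : ℕ) (ν' : Ex ℕ) (h : ℝ) (hc : S.Cost2 O i ν' h) :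
    0 ≤ h := by
  obtain ⟨q, h0, h1, h2⟩ := hc
  refine le_trans (ν'.pos _ fun a => Ex.pos _ _ fun st : ℕ × ℕ =>
    Ex.AS_prod (O.hS st.1) (O.hS st.2) _ fun x hx => ?_) h2
  exact neg_log_nonneg (h0 _) (h1 _) (mem_product.2 hx)

/-- The mean of `f` at both children is twice the mean at a random child. -/
theorem pair_E (S : Sys) (O : Obj) (i : ℕ) (ν' : Ex ℕ) (f : ℕ → O.Δ → ℝ) :
    ν'.E (fun a => (S.St i a).E fun st => ((O.L st.1).prod (O.L st.2)).E
      fun x => f st.1 x.1 + f st.2 x.2) =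
    2 * (ν'.bind (S.child i)).E (fun s => (O.L s).E (f s)) := by
  rw [Ex.bind_E, ← Ex.E_mul_left]
  congr 1
  funext a
  rw [Sys.child_E, ← Ex.E_mul_left]
  congr 1
  funext st
  simp only [Ex.prod_E, Ex.E_add, Ex.E_const]
  ring

theorem gain_zero (S : Sys) (O : Obj) (i : ℕ) (ν' : Ex ℕ) : S.Gain O i ν' 0 := by
  rintro h ⟨q, ⟨h0, h1⟩, h2⟩
  refine ⟨fun _ x => q x.1 * q x.2, fun _ x => mul_pos (h0 _) (h0 _), fun _ => ?_, ?_⟩
  · rw [sum_product, ← sum_mul_sum]
    exact mul_le_one₀ h1 (sum_nonneg fun x _ => (h0 x).le) h1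
  · have e : ∀ x : O.Δ × O.Δ, -Real.log (q x.1 * q x.2) = -Real.log (q x.1) + -Real.log (q x.2) :=
      fun x => by rw [Real.log_mul (h0 _).ne' (h0 _).ne']; ring
    simp only [e]
    rw [pair_E S O i ν' (fun _ x => -Real.log (q x))]
    linarith

theorem cost_merge (S : Sys) (O : Obj) (i b : ℕ) (ν' : Ex ℕ) (h : ℝ) (hc : S.Cost2 O i ν' h) :
    (S.merge O i b).Cost ν' (b * h + 30 * S.r (i + 1)) := by
  obtain ⟨q, h0, h1, h2⟩ := hc
  obtain ⟨N, hN⟩ : ∃ N : ℝ, N = ((box (S.rad (i + 1))).card : ℝ) := ⟨_, rfl⟩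
  have hNp : 0 < N := by rw [hN, card_box]; positivity
  refine ⟨fun x : V × V × (Fin b → O.Δ × O.Δ) => N⁻¹ * (N⁻¹ * ∏ k, q x.2.1 (x.2.2 k)),
    ⟨fun x => mul_pos (inv_pos.2 hNp) (mul_pos (inv_pos.2 hNp)
      (prod_pos fun k _ => h0 x.2.1 (x.2.2 k))), ?_⟩, ?_⟩
  · show ∑ x ∈ box (S.rad (i + 1)) ×ˢ box (S.rad (i + 1)) ×ˢ
      Fintype.piFinset (fun _ : Fin b => O.S ×ˢ O.S), N⁻¹ * (N⁻¹ * ∏ k, q x.2.1 (x.2.2 k)) ≤ 1
    rw [sum_product]
    have h3 : ∑ y ∈ box (S.rad (i + 1)) ×ˢ Fintype.piFinset (fun _ : Fin b => O.S ×ˢ O.S),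
        N⁻¹ * (N⁻¹ * ∏ k, q y.1 (y.2 k)) ≤ N⁻¹ := by
      rw [← mul_sum, sum_product]
      refine mul_le_of_le_one_right (by positivity) ?_
      have h4 : ∀ d ∈ box (S.rad (i + 1)),
          ∑ w ∈ Fintype.piFinset (fun _ : Fin b => O.S ×ˢ O.S), N⁻¹ * ∏ k, q d (w k) ≤ N⁻¹ := by
        intro d _
        rw [← mul_sum, ← prod_univ_sum]
        refine mul_le_of_le_one_right (by positivity) ?_
        exact prod_le_one (fun _ _ => sum_nonneg fun x _ => (h0 d x).le) (fun _ _ => h1 d)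
      refine (sum_le_sum h4).trans ?_
      simp [← hN, hNp.ne']
    refine (sum_le_sum fun _ _ => h3).trans ?_
    simp [← hN, hNp.ne']
  · have hl : Real.log N ≤ 15 * S.r (i + 1) := hN ▸ S.log_card_box_rad_le (i + 1)
    have e : ∀ (d : V) (w : Fin b → O.Δ × O.Δ), -Real.log (N⁻¹ * (N⁻¹ * ∏ k, q d (w k))) =
        2 * Real.log N + ∑ k, -Real.log (q d (w k)) := by
      intro d w
      have := fun k => h0 d (w k)
      have hpr : 0 < ∏ k, q d (w k) := prod_pos fun k _ => this k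
      rw [Real.log_mul (by positivity) (by positivity), Real.log_mul (by positivity)
        (by positivity), Real.log_prod (fun k _ => (this k).ne'), Real.log_inv, sum_neg_distrib]
      ring
    have e2 : ∀ a, ((S.merge O i b).L a).E (fun x : V × V × (Fin b → O.Δ × O.Δ) =>
        -Real.log (N⁻¹ * (N⁻¹ * ∏ k, q x.2.1 (x.2.2 k)))) = 2 * Real.log N +
        b * (S.St i a).E fun st => ((O.L st.1).prod (O.L st.2)).E
          fun x => -Real.log (q (S.X st.2 - S.X st.1) x) := by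
      intro a
      refine (S.merge_E O i b a _).trans ?_
      simp only [e, Ex.E_add, Ex.E_const]
      rw [← Ex.E_mul_left]
      congr 2
      funext st
      exact Ex.pow_E_sum _ b (fun x => -Real.log (q (S.X st.2 - S.X st.1) x))
    refine le_trans (le_of_eq (congrArg ν'.E (funext e2))) ?_
    rw [Ex.E_add, Ex.E_const, Ex.E_mul_left]
    have := mul_le_mul_of_nonneg_left h2 (Nat.cast_nonneg (α := ℝ) b)
    linarith

theorem score_le (S : Sys) (ρ : Res) (P : Finset Pr) (O : Obj) (ν : Ex ℕ) (e : ℝ) (L : ℕ)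
    (hP : P.Nonempty) (hL : ∀ p ∈ P, p.1 ≤ 2 ^ L) (h : S.Score ρ P O ν e) : e ≤ L := by
  obtain ⟨ψ, h0, h1, h2⟩ := h
  have h3 : ∀ p ∈ P, ν.E (fun a => (O.L a).E fun x => Real.log (ψ p x (ρ p (S.X a)))) ≤ L := by
    intro p hp
    refine Ex.le_const _ fun a => Ex.le_const _ fun x => ?_
    have h4 := (single_le_sum (fun c _ => (h0 p x c).le) (mem_univ (ρ p (S.X a)))).trans (h1 p x)
    have h5 : (p.1 : ℝ) ≤ 2 ^ L := by exact_mod_cast hL p hp
    have h6 := Real.log_le_log (h0 p x _) (h4.trans h5)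
    rw [Real.log_pow] at h6
    have h7 : Real.log 2 ≤ 1 := by linarith [Real.log_two_lt_d9]
    nlinarith [Nat.cast_nonneg (α := ℝ) L]
  have h4 := h2.trans (sum_le_sum h3)
  rw [sum_const, nsmul_eq_mul, mul_comm (P.card : ℝ)] at h4
  have hp : (0 : ℝ) < P.card := by exact_mod_cast hP.card_pos
  exact le_of_mul_le_mul_right h4 hp

theorem sum_shift {p : Pr} (f : ZMod p.1 → ℝ) (w : ZMod p.1) : ∑ c, f (c + w) = ∑ c, f c :=
  Fintype.sum_equiv (Equiv.addRight w) _ _ (fun _ => rfl)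

theorem score_pass (S : Sys) (ρ : Res) (P : Finset Pr) (O : Obj) (i b : ℕ) (ν' : Ex ℕ) (e : ℝ)
    (hb : 1 ≤ b) (h : S.Score ρ P O (ν'.bind (S.child i)) e) :
    S.Score ρ P (S.merge O i b) ν' e := by
  obtain ⟨ψ, h0, h1, h2⟩ := h
  refine ⟨fun p (x : V × V × (Fin b → O.Δ × O.Δ)) c =>
    (ψ p (x.2.2 ⟨0, hb⟩).1 (c + ρ p x.1) + ψ p (x.2.2 ⟨0, hb⟩).2 (c + (ρ p x.1 + ρ p x.2.1))) / 2,
    fun p x c => half_pos (add_pos (h0 _ _ _) (h0 _ _ _)), fun p x => ?_,
    h2.trans (sum_le_sum fun p _ => ?_)⟩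
  · rw [← sum_div, sum_add_distrib, sum_shift, sum_shift]
    linarith [h1 p (x.2.2 ⟨0, hb⟩).1, h1 p (x.2.2 ⟨0, hb⟩).2]
  · have h3 := pair_E S O i ν' (fun s x => Real.log (ψ p x (ρ p (S.X s))) / 2)
    simp only [Ex.E_div] at h3
    rw [mul_div_cancel₀ _ (two_ne_zero)] at h3
    rw [← h3]
    refine Ex.mono _ fun a => le_trans (Ex.mono _ fun st => ?_) (S.merge_E O i b a _).ge
    rw [← Ex.pow_E_coord _ b ⟨0, hb⟩]
    refine Ex.mono _ fun w => ?_
    simp only [map_sub]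
    rw [show ρ p (S.X a) + (ρ p (S.X st.1) - ρ p (S.X a)) = ρ p (S.X st.1) by ring,
      show ρ p (S.X a) + (ρ p (S.X st.1) - ρ p (S.X a) + (ρ p (S.X st.2) - ρ p (S.X st.1))) =
        ρ p (S.X st.2) by ring]
    set u := ψ p (w ⟨0, hb⟩).1 (ρ p (S.X st.1))
    set v := ψ p (w ⟨0, hb⟩).2 (ρ p (S.X st.2))
    have hu : 0 < u := h0 _ _ _
    have hv : 0 < v := h0 _ _ _
    have h4 : Real.log (u * v) ≤ Real.log (((u + v) / 2) ^ 2) :=
      Real.log_le_log (by positivity) (by nlinarith [sq_nonneg (u - v)])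
    rw [Real.log_mul hu.ne' hv.ne', Real.log_pow] at h4
    push_cast at h4
    linarith

theorem set_score (S : Sys) (ρ : Res) (P : Finset Pr) (O : Obj) (ν : Ex ℕ)
    (U : (p : Pr) → O.Δ → Finset (ZMod p.1)) (π ε θ : ℝ) (h0 : 0 < θ) (h1 : θ ≤ 1)
    (h2 : π * P.card ≤ ∑ p ∈ P, ν.E (fun a => (O.L a).E fun x =>
      if ρ p (S.X a) ∈ U p x then 1 else 0))
    (h3 : ∑ p ∈ P, ν.E (fun a => (O.L a).E fun x => ((U p x).card : ℝ) / p.1) ≤ ε * P.card) :
    S.Score ρ P O ν ((π - ε / θ) * Real.log (1 / θ) - Real.log 2) := by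
  have hl : 0 ≤ Real.log (1 / θ) := Real.log_nonneg (by rw [le_div_iff₀ h0]; linarith)
  refine ⟨fun p x c => 1 / 2 + (if c ∈ U p x ∧ ((U p x).card : ℝ) / p.1 ≤ θ then 1 / (2 * θ) else 0),
    fun p x c => by dsimp only; split_ifs <;> positivity, fun p x => ?_, ?_⟩
  · have hp : (0 : ℝ) < p.1 := by exact_mod_cast p.2.pos
    rw [sum_add_distrib, sum_const, card_univ, ZMod.card, nsmul_eq_mul]
    by_cases h : ((U p x).card : ℝ) / p.1 ≤ θ
    · simp only [h, and_true]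
      rw [← sum_filter, filter_mem_eq_inter, univ_inter, sum_const, nsmul_eq_mul]
      rw [div_le_iff₀ hp] at h
      have : ((U p x).card : ℝ) * (1 / (2 * θ)) ≤ p.1 / 2 := by
        rw [mul_one_div, div_le_div_iff₀ (by positivity) (by norm_num)]; nlinarith
      linarith
    · simp only [h, and_false, if_false, sum_const_zero]
      linarith
  · have key : ∀ p ∈ P, Real.log (1 / θ) * ν.E (fun a => (O.L a).E fun x =>
          if ρ p (S.X a) ∈ U p x then 1 else 0) -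
        Real.log (1 / θ) / θ * ν.E (fun a => (O.L a).E fun x => ((U p x).card : ℝ) / p.1) -
        Real.log 2 ≤ ν.E (fun a => (O.L a).E fun x => Real.log (1 / 2 +
          (if ρ p (S.X a) ∈ U p x ∧ ((U p x).card : ℝ) / p.1 ≤ θ then 1 / (2 * θ) else 0))) := by
      intro p _
      rw [← Ex.E_mul_left, ← Ex.E_mul_left, ← Ex.E_sub, ← ν.E_const (Real.log 2), ← Ex.E_sub]
      refine Ex.mono _ fun a => ?_
      rw [← Ex.E_mul_left, ← Ex.E_mul_left, ← Ex.E_sub, ← (O.L a).E_const (Real.log 2), ← Ex.E_sub]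
      refine Ex.mono _ fun x => ?_
      set d : ℝ := ((U p x).card : ℝ) / p.1
      have hd : 0 ≤ d := by positivity
      have hd' : 0 ≤ Real.log (1 / θ) / θ * d := by positivity
      have hh : Real.log (1 / 2) = -Real.log 2 := by rw [one_div, Real.log_inv]
      by_cases hc : ρ p (S.X a) ∈ U p x
      · by_cases hθ : d ≤ θ
        · simp only [hc, hθ, and_self, if_true]
          have h4 : Real.log (1 / (2 * θ)) ≤ Real.log (1 / 2 + 1 / (2 * θ)) :=
            Real.log_le_log (by positivity) (by linarith)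
          have h5 : Real.log (1 / (2 * θ)) = Real.log (1 / θ) - Real.log 2 := by
            rw [← Real.log_div (by positivity) (by norm_num)]; congr 1; field_simp
          linarith
        · simp only [hc, hθ, and_false, if_true, if_false, add_zero, hh]
          have h4 : Real.log (1 / θ) / θ * θ ≤ Real.log (1 / θ) / θ * d :=
            mul_le_mul_of_nonneg_left (not_le.1 hθ).le (by positivity)
          rw [div_mul_cancel₀ _ h0.ne'] at h4
          linarith
      · simp only [hc, false_and, if_false, add_zero, hh]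
        linarith
    refine le_trans ?_ (sum_le_sum key)
    rw [sum_sub_distrib, sum_sub_distrib, ← mul_sum, ← mul_sum, sum_const, nsmul_eq_mul]
    have h4 := mul_le_mul_of_nonneg_left h2 hl
    have h5 := mul_le_mul_of_nonneg_left h3 (by positivity : 0 ≤ Real.log (1 / θ) / θ)
    have e : ((π - ε / θ) * Real.log (1 / θ) - Real.log 2) * P.card =
        Real.log (1 / θ) * (π * P.card) - Real.log (1 / θ) / θ * (ε * P.card) -
          P.card * Real.log 2 := by ring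
    rw [e]
    linarith

end Api

theorem codeAPI : CodeAPI where
  cost_unif := Api.cost_unif
  cost_mono := fun _ _ _ _ h ⟨q, h1, h2⟩ => ⟨q, h1, h2.trans h⟩
  cost_nonneg := Api.cost_nonneg
  cost2_nonneg := Api.cost2_nonneg
  gain_zero := Api.gain_zero
  gain_mono := fun _ _ _ _ _ _ h hg c hc => by
    obtain ⟨q, h1, h2, h3⟩ := hg c hc
    exact ⟨q, h1, h2, h3.trans (by linarith)⟩
  cost_merge := Api.cost_merge
  score_mono := fun _ _ P _ _ _ _ h ⟨ψ, h1, h2, h3⟩ =>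
    ⟨ψ, h1, h2, (mul_le_mul_of_nonneg_right h (Nat.cast_nonneg P.card)).trans h3⟩
  score_le := Api.score_le
  score_pass := Api.score_pass
  set_score := Api.set_score

end Crest.Agent.R2
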