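import Crest.Agent.R2.FLem

set_option autoImplicit false

namespace Crest.Agent.R2

open Finset

namespace BL

open FL

/-- centred normalised indicator -/
noncomputable def φ {p : Pr} (B : Finset (ZMod p.1)) (c : ZMod p.1) : ℝ :=
  (p.1 / B.card) * (if c ∈ B then 1 else 0) - 1

theorem φ_ge {p : Pr} (B : Finset (ZMod p.1)) (c : ZMod p.1) : -1 ≤ φ B c := by
  have : (0 : ℝ) ≤ (p.1 / B.card) * (if c ∈ B then 1 else 0) := by split_ifs <;> positivity
  simp only [φ]; linarith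

theorem sum_ind {p : Pr} (B : Finset (ZMod p.1)) :
    ∑ c, (if c ∈ B then (1 : ℝ) else 0) = B.card := by
  simp

theorem φ_sum {p : Pr} {B : Finset (ZMod p.1)} (hB : (0 : ℝ) < B.card) : ∑ c, φ B c = 0 := by
  simp only [φ, sum_sub_distrib, ← mul_sum, sum_ind, sum_const, card_univ, ZMod.card,
    nsmul_eq_mul]
  field_simp
  ring

theorem φ_sq {p : Pr} {B : Finset (ZMod p.1)} (hB : (0 : ℝ) < B.card) {s : ℝ}
    (hs : (p.1 : ℝ) ≤ s * B.card) : ∑ c, φ B c ^ 2 ≤ s * p.1 := by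
  have e : ∀ c, φ B c ^ 2 = ((p.1 / B.card) ^ 2 - 2 * (p.1 / B.card)) *
      (if c ∈ B then 1 else 0) + 1 := by
    intro c
    simp only [φ]
    split_ifs <;> ring
  simp only [e, sum_add_distrib, ← mul_sum, sum_ind, sum_const, card_univ, ZMod.card,
    nsmul_eq_mul]
  have hp := p_pos p
  have h1 : (p.1 : ℝ) / B.card ≤ s := (div_le_iff₀ hB).2 hs
  have h2 : ((p.1 / B.card : ℝ) ^ 2 - 2 * (p.1 / B.card)) * B.card =
      (p.1 / B.card) * p.1 - 2 * p.1 := by
    field_simp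
  rw [h2]
  nlinarith

theorem φ_E {p : Pr} {B : Finset (ZMod p.1)} (hB : (0 : ℝ) < B.card) (μ : Ex ℕ)
    (y : ℕ → ZMod p.1)
    (h : ∀ c ∈ B, (μ.E fun u => if y u = c then 1 else 0) < 1 / (2 * (p.1 : ℝ))) :
    (μ.E fun u => φ B (y u)) ≤ -1 / 2 := by
  have e : ∀ u, (if y u ∈ B then (1 : ℝ) else 0) = ∑ c ∈ B, if y u = c then 1 else 0 := by
    intro u; rw [sum_ite_eq]
  simp only [φ, e]
  rw [Ex.E_sub, Ex.E_mul_left, Ex.E_sum, Ex.E_const]
  have h1 := sum_le_sum fun c hc => (h c hc).le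
  rw [sum_const, nsmul_eq_mul] at h1
  have hp := p_pos p
  have h2 := mul_le_mul_of_nonneg_left h1 (show (0 : ℝ) ≤ p.1 / B.card by positivity)
  have h3 : (p.1 / B.card : ℝ) * (B.card * (1 / (2 * p.1))) = 1 / 2 := by field_simp
  linarith

/-- the base object: `n` independent leaves, relative to the anchor -/
noncomputable def base (S : Sys) (i n : ℕ) : Obj where
  Δ := Fin n → V
  S := Fintype.piFinset fun _ => box (S.rad i)
  L s := ((S.mu i s).map fun u => S.X u - S.X s).pow n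
  hS s := (Ex.AS_pow (Ex.AS_map (S.mu_box i s)) n).mono fun _ h => Fintype.mem_piFinset.2 h

theorem base_E (S : Sys) (i n s : ℕ) (F : (Fin n → V) → ℝ) :
    ((base S i n).L s).E F = (((S.mu i s).map fun u => S.X u - S.X s).pow n).E F := rfl

/-- the tower of merges with one pair -/
noncomputable def tower (S : Sys) (O : Obj) (i : ℕ) : ℕ → Obj
  | 0 => O
  | k + 1 => S.merge (tower S O i k) (i + k) 1

theorem base_score (h1 : CodeAPI) (h3 : FStmt) (S : Sys) (ρ : Res) (P : Finset Pr)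
    (hP : NormDiv ρ P) (t i : ℕ) (ht : S.j0 ≤ t) (hi : S.j0 + i = 4 * t)
    (hp : ∀ p ∈ P, p.1 ≤ 2 ^ (1601 * t)) (hc : 2 ^ (400 * t) ≤ P.card)
    (f : (p : Pr) → ZMod p.1 → ℝ) (f0 : ∀ p c, -1 ≤ f p c) (f1 : ∀ p ∈ P, ∑ c, f p c = 0)
    (f2 : ∀ p ∈ P, ∑ c, f p c ^ 2 ≤ 2 ^ t * p.1) (ν : Ex ℕ)
    (f3 : ∀ p ∈ P, (ν.bind (S.mu i)).E (fun u => f p (ρ p (S.X u))) ≤ -1 / 2) :
    S.Score ρ P (base S i (4 ^ t)) ν (t / 10) := by
  classical
  have hj := S.hj0
  have hn : (0 : ℝ) < ((4 ^ t : ℕ) : ℝ) := by positivity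
  let emp : (p : Pr) → (Fin (4 ^ t) → V) → ZMod p.1 → ℝ := fun p x c =>
    (∑ l, f p (c + ρ p (x l))) / ((4 ^ t : ℕ) : ℝ)
  have emp_ge : ∀ p x c, -1 ≤ emp p x c := by
    intro p x c
    rw [le_div_iff₀ hn]
    have := sum_le_sum fun l (_ : l ∈ univ) => f0 p (c + ρ p (x l))
    simpa using this
  have key := h1.set_score S ρ P (base S i (4 ^ t)) ν
    (fun p x => univ.filter fun c => emp p x c ≤ -1 / 8) (3 / 7) (192 / 2 ^ t) (2 ^ 12 / 2 ^ t)
    (by positivity)
    ((div_le_one (by positivity)).2 (pow_le_pow_right₀ (by norm_num) (by omega))) ?_ ?_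
  · refine h1.score_mono _ _ _ _ _ _ _ ?_ key
    have e1 : (192 : ℝ) / 2 ^ t / (2 ^ 12 / 2 ^ t) = 3 / 64 := by field_simp; norm_num
    have e2 : Real.log (1 / (2 ^ 12 / 2 ^ t)) = (t - 12) * Real.log 2 := by
      rw [one_div_div, Real.log_div (by positivity) (by positivity), Real.log_pow, Real.log_pow]
      push_cast; ring
    rw [e1, e2]
    have ht' : (100 : ℝ) ≤ t := by exact_mod_cast (by omega : 100 ≤ t)
    nlinarith [Real.log_two_gt_d9, Real.log_two_lt_d9]
  · rw [mul_comm, ← nsmul_eq_mul, ← sum_const]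
    refine sum_le_sum fun p hp => ?_
    have a1 : ∀ s, -(8 / 7) * ((S.mu i s).E fun u => f p (ρ p (S.X u))) - 1 / 7 ≤
        ((base S i (4 ^ t)).L s).E fun x =>
          if ρ p (S.X s) ∈ univ.filter (fun c => emp p x c ≤ -1 / 8) then 1 else 0 := by
      intro s
      have b1 : ((base S i (4 ^ t)).L s).E (fun x => emp p x (ρ p (S.X s))) =
          (S.mu i s).E fun u => f p (ρ p (S.X u)) := by
        refine (base_E S i (4 ^ t) s (fun x => emp p x (ρ p (S.X s)))).trans ?_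
        simp only [emp]
        rw [Ex.E_div, Ex.pow_E_sum _ _ (fun z => f p (ρ p (S.X s) + ρ p z)), Ex.map_E,
          mul_div_cancel_left₀ _ hn.ne']
        simp only [map_sub, add_sub_cancel]
      rw [← b1, ← Ex.E_mul_left, ← ((base S i (4 ^ t)).L s).E_const (1 / 7), ← Ex.E_sub]
      refine Ex.mono _ fun x => ?_
      have := emp_ge p x (ρ p (S.X s))
      simp only [mem_filter, mem_univ, true_and]
      split_ifs with h <;> linarith
    refine le_trans ?_ (ν.mono a1)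
    rw [Ex.E_sub, Ex.E_mul_left, Ex.E_const]
    have := f3 p hp
    rw [Ex.bind_E] at this
    linarith
  · rw [← Ex.E_sum]
    refine Ex.le_const _ fun s => ?_
    have hF := h3 S ρ P hP t i ht hi hp hc f (2 ^ t) (by positivity) f1 f2 s
    have a1 : ∀ p ∈ P, ((base S i (4 ^ t)).L s).E (fun x =>
        ((univ.filter fun c => emp p x c ≤ -1 / 8).card : ℝ) / p.1) ≤
        64 * (2 ^ t / 4 ^ t +
          (∑ c, ((S.mu i s).E fun u => f p (ρ p (S.X u) + c)) ^ 2) / p.1) := by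
      intro p hp
      have hp0 := p_pos p
      have b1 : ∀ x, ((univ.filter fun c => emp p x c ≤ -1 / 8).card : ℝ) ≤
          64 * ∑ c, emp p x c ^ 2 := by
        intro x
        rw [card_eq_sum_ones, Nat.cast_sum, sum_filter, mul_sum]
        refine sum_le_sum fun c _ => ?_
        split_ifs with h
        · push_cast; nlinarith
        · positivity
      have b2 : ∀ c, ((base S i (4 ^ t)).L s).E (fun x => emp p x c ^ 2) ≤
          ((S.mu i s).E fun u => f p (c + ρ p (S.X u - S.X s)) ^ 2) / 4 ^ t +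
            ((S.mu i s).E fun u => f p (ρ p (S.X u) + (c + -ρ p (S.X s)))) ^ 2 := by
        intro c
        refine (base_E S i (4 ^ t) s (fun x => emp p x c ^ 2)).trans_le ?_
        simp only [emp, div_pow]
        rw [Ex.E_div, Ex.pow_E_sq_sum _ _ (fun z => f p (c + ρ p z)), Ex.map_E, Ex.map_E]
        have e : ∀ u, c + ρ p (S.X u - S.X s) = ρ p (S.X u) + (c + -ρ p (S.X s)) := by
          intro u; rw [map_sub]; ring
        simp only [← e]
        push_cast
        rw [div_le_iff₀ (by positivity)]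
        have e4 : ∀ A : ℝ, A / 4 ^ t * (4 ^ t) ^ 2 = 4 ^ t * A := fun A => by field_simp
        rw [add_mul, e4]
        have h4 : (0 : ℝ) < 4 ^ t := by positivity
        nlinarith [mul_nonneg h4.le
          (sq_nonneg ((S.mu i s).E fun u => f p (c + ρ p (S.X u - S.X s))))]
      have b3 : ∑ c, ((S.mu i s).E fun u => f p (c + ρ p (S.X u - S.X s)) ^ 2) ≤ 2 ^ t * p.1 := by
        rw [← Ex.E_sum]
        refine Ex.le_const _ fun u => ?_
        rw [sum_shift' (fun c => f p c ^ 2)]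
        exact f2 p hp
      rw [Ex.E_div, div_le_iff₀ hp0]
      refine (Ex.mono _ b1).trans ?_
      rw [Ex.E_mul_left, Ex.E_sum]
      have b4 := sum_le_sum fun c (_ : c ∈ univ) => b2 c
      rw [sum_add_distrib, ← sum_div,
        sum_shift' (fun c => ((S.mu i s).E fun u => f p (ρ p (S.X u) + c)) ^ 2)] at b4
      have b5 := div_le_div_of_nonneg_right b3 (show (0 : ℝ) ≤ 4 ^ t by positivity)
      have e5 : ∀ A : ℝ, 64 * (2 ^ t / 4 ^ t + A / p.1) * p.1 = 64 * (2 ^ t * p.1 / 4 ^ t + A) :=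
        fun A => by field_simp
      rw [e5]
      exact mul_le_mul_of_nonneg_left (b4.trans (add_le_add b5 le_rfl)) (by norm_num)
    refine (sum_le_sum a1).trans ?_
    rw [← mul_sum, sum_add_distrib, sum_const, nsmul_eq_mul]
    have e4 : (4 : ℝ) ^ t = 2 ^ t * 2 ^ t := by rw [← mul_pow]; norm_num
    have e6 : (2 : ℝ) * 2 ^ t * P.card / 4 ^ t = 2 * (P.card / 2 ^ t) := by
      rw [e4]; field_simp
    have e7 : (P.card : ℝ) * (2 ^ t / 4 ^ t) = P.card / 2 ^ t := by
      rw [e4]; field_simp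
    have e8 : (192 : ℝ) / 2 ^ t * P.card = 192 * (P.card / 2 ^ t) := by ring
    rw [e7, e8]
    rw [e6] at hF
    linarith

theorem tower_score (h1 : CodeAPI) (S : Sys) (ρ : Res) (P : Finset Pr) (O : Obj) {ν : ℕ → Ex ℕ}
    {J : ℕ} (hν : S.Chain ν J) (i : ℕ) (e : ℝ) (h : S.Score ρ P O (ν i) e) (k : ℕ) :
    i + k ≤ J → S.Score ρ P (tower S O i k) (ν (i + k)) e := by
  induction k with
  | zero => intro _; exact h
  | succ k ih =>
    intro hk
    have := ih (by omega)
    rw [hν (i + k) (by omega)] at this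
    exact h1.score_pass S ρ P _ (i + k) 1 _ e le_rfl this

theorem tower_cost (h1 : CodeAPI) (S : Sys) {ν : ℕ → Ex ℕ} {J : ℕ} (hν : S.Chain ν J)
    (i n k : ℕ) : i + k ≤ J → (tower S (base S i n) i k).Cost (ν (i + k))
      (15 * (2 ^ k * n * S.r i) + 60 * S.r (i + k)) := by
  induction k with
  | zero =>
    intro _
    refine h1.cost_mono _ _ _ _ ?_ (h1.cost_unif _ _)
    have e : (tower S (base S i n) i 0).S.card = (box (S.rad i)).card ^ n := by
      simp [tower, base]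
    rw [e, Nat.cast_pow, Real.log_pow]
    have := mul_le_mul_of_nonneg_left (S.log_card_box_rad_le i) (Nat.cast_nonneg (α := ℝ) n)
    have : (0 : ℝ) ≤ S.r (i + 0) := by positivity
    simp only [pow_zero]
    linarith
  | succ k ih =>
    intro hk
    have a1 := ih (by omega)
    rw [hν (i + k) (by omega)] at a1
    have a2 := h1.cost_merge S _ (i + k) 1 _ _ (h1.gain_zero S _ (i + k) _ _ a1)
    refine h1.cost_mono _ _ _ _ ?_ a2
    have a3 : (S.r (i + k + 1) : ℝ) = 2 ^ 40 * S.r (i + k) := by exact_mod_cast S.r_succ (i + k)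
    have : (0 : ℝ) ≤ S.r (i + k) := by positivity
    rw [← add_assoc, a3, pow_succ 2 k]
    push_cast
    linarith

end BL

open FL BL in
theorem blem (h1 : CodeAPI) (h2 : BlockStmt) (h3 : FStmt) : BStmt := by
  classical
  intro S ρ P hP t i ht hi hp hc a
  have hj := S.hj0
  let P₁ := P.filter fun p => p.1 ≤ 2 ^ t * (S.rare (ρ p) i a).card
  by_cases hcase : 2 ^ t * P₁.card ≤ P.card
  · have a1 : ∀ p ∈ P, ((S.rare (ρ p) i a).card : ℝ) / p.1 ≤
        (if p.1 ≤ 2 ^ t * (S.rare (ρ p) i a).card then 1 else 0) + 1 / 2 ^ t := by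
      intro p _
      have hp0 := p_pos p
      split_ifs with h
      · have : (S.rare (ρ p) i a).card ≤ p.1 := by
          simpa [ZMod.card] using card_le_univ (S.rare (ρ p) i a)
        have : ((S.rare (ρ p) i a).card : ℝ) / p.1 ≤ 1 :=
          (div_le_one hp0).2 (by exact_mod_cast this)
        have : (0 : ℝ) ≤ 1 / 2 ^ t := by positivity
        linarith
      · rw [zero_add, div_le_div_iff₀ hp0 (by positivity), one_mul, mul_comm]
        exact_mod_cast (not_le.1 h).le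
    refine (sum_le_sum a1).trans ?_
    rw [sum_add_distrib, sum_const, nsmul_eq_mul, ← sum_filter, sum_const, nsmul_eq_mul, mul_one]
    have a2 : (P₁.card : ℝ) ≤ P.card / 2 ^ t := by
      rw [le_div_iff₀ (by positivity), mul_comm]; exact_mod_cast hcase
    have e : (2 : ℝ) * P.card / 2 ^ t = P.card / 2 ^ t + P.card * (1 / 2 ^ t) := by ring
    rw [e]
    exact add_le_add a2 le_rfl
  exfalso
  have hc1 : 2 ^ (400 * t) ≤ P₁.card := by
    have : 2 ^ t * 2 ^ (400 * t) ≤ 2 ^ t * P₁.card := by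
      rw [← pow_add, show t + 400 * t = 401 * t by ring]; omega
    exact Nat.le_of_mul_le_mul_left this (by positivity)
  have hP1 : NormDiv ρ P₁ := hP.mono (filter_subset _ _)
  have hp1 : ∀ p ∈ P₁, p.1 ≤ 2 ^ (1601 * t) := fun p h => hp p (mem_filter.1 h).1
  have hB : ∀ p ∈ P₁, (0 : ℝ) < (S.rare (ρ p) i a).card := by
    intro p h
    have a1 := (mem_filter.1 h).2
    have a2 := p.2.pos
    have : 0 < (S.rare (ρ p) i a).card := by
      by_contra hc
      rw [show (S.rare (ρ p) i a).card = 0 by omega] at a1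
      omega
    exact_mod_cast this
  obtain ⟨iF, hF⟩ : ∃ iF, S.j0 + iF = 4 * t := ⟨4 * t - S.j0, by omega⟩
  obtain ⟨ν, hν1, hν⟩ := S.exists_chain i a
  have sc := base_score h1 h3 S ρ P₁ hP1 t iF ht hF hp1 hc1 (fun p => φ (S.rare (ρ p) i a))
    (fun p c => φ_ge _ c) (fun p h => φ_sum (hB p h))
    (fun p h => φ_sq (hB p h) (by exact_mod_cast (mem_filter.1 h).2)) (ν iF)
    (fun p h => by
      rw [hν.bind_mu (by omega), hν1, Ex.pure_bind]
      exact φ_E (hB p h) _ _ fun c hc => (mem_filter.1 hc).2)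
  obtain ⟨k₁, hk₁⟩ : ∃ k₁, k₁ + 16 = 2 * t := ⟨2 * t - 16, by omega⟩
  have sc2 := tower_score h1 S ρ P₁ _ hν iF _ sc k₁ (by omega)
  obtain ⟨j, j1, j2, hg⟩ := h2 S ρ P₁ hP1 t (iF + k₁) ht (by omega) hp1
    (by
      rw [S.r_eq]
      calc 120 * 2 ^ (40 * (S.j0 + (iF + k₁ + 16))) ≤ 2 ^ 7 * 2 ^ (40 * (S.j0 + (iF + k₁ + 16))) :=
            Nat.mul_le_mul_right _ (by norm_num)
        _ ≤ 2 ^ (400 * t) := by
            rw [← pow_add]; exact Nat.pow_le_pow_right (by norm_num) (by omega)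
        _ ≤ 1 * P₁.card := by rw [one_mul]; exact hc1
        _ ≤ t * P₁.card := Nat.mul_le_mul_right _ (by omega))
    (fun j => tower S (base S iF (4 ^ t)) iF (j - iF)) (fun _ => 1) ν
    (fun j j1 j2 => by
      obtain ⟨k, rfl⟩ : ∃ k, j = iF + k := ⟨j - iF, by omega⟩
      refine ⟨le_rfl, ?_, hν _ (by omega)⟩
      rw [show iF + k + 1 - iF = k + 1 by omega, Nat.add_sub_cancel_left]
      rfl)
    (by rw [Nat.add_sub_cancel_left]; exact sc2)
  obtain ⟨k, rfl⟩ : ∃ k, j = iF + k := ⟨j - iF, by omega⟩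
  rw [Nat.add_sub_cancel_left] at hg
  have co := tower_cost h1 S hν iF (4 ^ t) k (by omega)
  rw [hν _ (by omega)] at co
  have z := h1.cost2_nonneg _ _ _ _ _ (hg _ co)
  have a3 : (S.r (iF + k + 1) : ℝ) = 2 ^ 40 * S.r (iF + k) := by exact_mod_cast S.r_succ (iF + k)
  have a4 : 2 ^ k * 4 ^ t * S.r iF ≤ S.r (iF + k) := by
    rw [S.r_add, show 4 = 2 ^ 2 by norm_num, ← pow_mul, ← pow_add]
    exact Nat.mul_le_mul_right _ (Nat.pow_le_pow_right (by norm_num) (by omega))
  have a5 : (2 : ℝ) ^ k * ((4 ^ t : ℕ) : ℝ) * S.r iF ≤ S.r (iF + k) := by exact_mod_cast a4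
  have a6 : (0 : ℝ) < S.r (iF + k) := by exact_mod_cast S.r_pos (iF + k)
  rw [a3] at z
  linarith

end Crest.Agent.R2
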