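import Crest.Agent.R2.Stmts

/-!
Row 2: sixteen levels without a gain are impossible.
-/

set_option autoImplicit false

namespace Crest.Agent.R2

open Finset

theorem block (api : CodeAPI) (mg : MergeStmt) : BlockStmt := by
  intro S ρ P hP t i₁ h1 h2 h3 h4 O bs ν hO hs
  by_contra hne
  have hj0 := S.hj0
  have hPne : P.Nonempty := by
    rw [← card_pos]
    have := S.r_pos (i₁ + 16)
    rcases Nat.eq_zero_or_pos P.card with h | h
    · rw [h] at h4; omega
    · exact h
  have ht : (100 : ℝ) ≤ t := by exact_mod_cast hj0.trans h1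
  have key : ∀ m ≤ 16, S.Score ρ P (O (i₁ + m)) (ν (i₁ + m)) (t / 20 + 2 ^ m * (t / 20)) := by
    intro m hm
    induction m with
    | zero => exact api.score_mono S ρ P _ _ _ _ (by simp; linarith) hs
    | succ m ih =>
      have c1 := ih (by omega)
      obtain ⟨hb, hO1, hν⟩ := hO (i₁ + m) (by omega) (by omega)
      rw [hν] at c1
      set r := S.r (i₁ + m + 1) with hr
      have hr1 : 120 * r ≤ t * P.card :=
        le_trans (Nat.mul_le_mul_left _ (S.r_mono (by omega))) h4
      have hr2 : 2 ^ 30 * t ≤ r :=
        le_trans (Nat.mul_le_mul_left _ (by omega)) (S.lin_le_r (i₁ + m + 1))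
      have hL : 0 < 1601 * t := by omega
      set k := r / (1601 * t) with hk
      have hk1 : k * (1601 * t) ≤ r := Nat.div_mul_le_self _ _
      have hk2 : r < (k + 1) * (1601 * t) := by
        rw [mul_comm]; exact Nat.lt_mul_div_succ r hL
      have hk3 : k ≤ P.card := by
        have : t * k ≤ t * P.card := by nlinarith
        exact Nat.le_of_mul_le_mul_left this (by omega)
      rcases mg S ρ P hP (1601 * t) k h3 hPne hk3 (O (i₁ + m)) (i₁ + m) (bs (i₁ + m))
        (ν (i₁ + m + 1)) _ (t / 20) hb hk1 c1 with h | h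
      · rw [← hO1] at h
        exact api.score_mono S ρ P _ _ _ _ (le_of_eq (by ring)) h
      · refine absurd ⟨i₁ + m, by omega, by omega, api.gain_mono S _ _ _ _ _ ?_ h⟩ hne
        rw [← hr]
        have hp : (0 : ℝ) < P.card := by exact_mod_cast hPne.card_pos
        have e1 : (120 : ℝ) * r ≤ t * P.card := by exact_mod_cast hr1
        have e2 : (2 : ℝ) ^ 30 * t ≤ r := by exact_mod_cast hr2
        have e3 : (r : ℝ) ≤ (k + 1) * (1601 * t) := by exact_mod_cast hk2.le
        have hk0 : (0 : ℝ) ≤ k := Nat.cast_nonneg k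
        have e4 : (k : ℝ) * (3 * r) / P.card ≤ k * t / 40 := by
          rw [div_le_div_iff₀ hp (by norm_num)]
          nlinarith
        have e5 : Real.log (2 * S.K) ≤ t + 1 := by
          have hK := S.hK
          have hK1 := S.hK1
          have h5 : 2 * S.K ≤ 2 ^ (S.j0 + 1) := by rw [pow_succ]; linarith
          have h6 := Real.log_le_log (by positivity) h5
          rw [Real.log_pow] at h6
          have h7 : Real.log 2 ≤ 1 := by linarith [Real.log_two_lt_d9]
          have h8 : (S.j0 : ℝ) ≤ t := by exact_mod_cast h1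
          push_cast at h6
          nlinarith [Nat.cast_nonneg (α := ℝ) S.j0]
        nlinarith
  have fin := api.score_le S ρ P _ _ _ (1601 * t) hPne h3 (key 16 le_rfl)
  push_cast at fin
  linarith

end Crest.Agent.R2
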