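import Crest.Agent.R2.Defs

set_option autoImplicit false

namespace Crest.Agent.R2

open Finset

theorem chord (h : CrossStmt) : ChordStmt := by
  intro A N L Q θ hN hL hQ hA h1 h2
  let P : ℕ → ℤ := fun n => (A (n % N)).1 + (n / N : ℕ) * Q
  let Y : ℕ → ℤ := fun n => (A (n % N)).2
  have hstep : ∀ n, |P (n + 1) - P n| ≤ L ∧ |Y (n + 1) - Y n| ≤ L := by
    intro n
    have hlt : n % N < N := Nat.mod_lt _ hN
    have hd := Nat.div_add_mod n N
    have key := hA _ hlt
    by_cases hc : n % N + 1 < N
    · have e : (n + 1) / N = n / N ∧ (n + 1) % N = n % N + 1 :=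
        (Nat.div_mod_unique hN).2 ⟨by omega, hc⟩
      simp only [P, Y, e.1, e.2]
      refine ⟨?_, key.2⟩
      convert key.1 using 2
      ring
    · have e : (n + 1) / N = n / N + 1 ∧ (n + 1) % N = 0 :=
        (Nat.div_mod_unique hN).2 ⟨by rw [mul_add]; omega, hN⟩
      have e2 : n % N + 1 = N := by omega
      rw [e2, h1, h2] at key
      simp only [P, Y, e.1, e.2]
      refine ⟨?_, key.2⟩
      convert key.1 using 2
      push_cast
      ring
  have hne : (range N).Nonempty := ⟨0, mem_range.2 hN⟩
  obtain ⟨nlo, hlo, hlo'⟩ := exists_min_image (range N) (fun n => (A n).2) hne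
  obtain ⟨nhi, hhi, hhi'⟩ := exists_max_image (range N) (fun n => (A n).2) hne
  rw [mem_range] at hlo hhi
  have Ylo : ∀ n, Y nlo ≤ Y n := by
    intro n
    simp only [Y, Nat.mod_eq_of_lt hlo]
    exact hlo' _ (mem_range.2 (Nat.mod_lt _ hN))
  have Yhi : ∀ n, Y n ≤ Y (N + nhi) := by
    intro n
    simp only [Y, Nat.add_mod_left, Nat.mod_eq_of_lt hhi]
    exact hhi' _ (mem_range.2 (Nat.mod_lt _ hN))
  obtain ⟨J, hJ⟩ : ∃ J, nlo + J = N + nhi := ⟨N + nhi - nlo, by omega⟩
  let T : ℤ := ∑ j ∈ range (J + 1), |P (nlo + j)|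
  have hT : ∀ j, |P (nlo + min j J)| ≤ T := fun j =>
    single_le_sum (f := fun j => |P (nlo + j)|) (fun _ _ => abs_nonneg _)
      (mem_range.2 (by omega))
  obtain ⟨k₀, hk₀⟩ : ∃ k₀ : ℕ, |(A 0).1| + T + |θ| < k₀ := exists_nat_gt _
  have hkQ : (k₀ : ℤ) ≤ k₀ * Q := by nlinarith
  have P0 : P 0 = (A 0).1 := by simp [P]
  have PI : P (2 * k₀ * N) = (A 0).1 + 2 * (k₀ * Q) := by
    simp only [P, Nat.mul_mod_left, Nat.mul_div_cancel _ hN]
    push_cast
    ring
  obtain ⟨i, -, j, hj, g1, g2⟩ := h
    (fun i j => (P i - P (nlo + min j J) - θ - k₀ * Q,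
      Y i - Y (nlo + min j J) - if j ≤ J then 0 else L)) (2 * k₀ * N) (J + 1) L
    (fun i _ j _ => by
      have := hstep i
      constructor
      · convert this.1 using 2; ring
      · convert this.2 using 2; ring)
    (fun i _ j hj => by
      by_cases hc : j < J
      · have := hstep (nlo + j)
        rw [abs_sub_comm, abs_sub_comm (Y _)] at this
        have hc' : j + 1 ≤ J := hc
        simp only [min_eq_left hc.le, min_eq_left hc', if_pos hc.le, if_pos hc', ← add_assoc]
        constructor
        · convert this.1 using 2; ring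
        · convert this.2 using 2; ring
      · obtain rfl : j = J := by omega
        simp only [min_self, min_eq_right (Nat.le_succ j), le_refl, if_true,
          if_neg (Nat.not_succ_le_self j), abs_le]
        omega)
    (fun i _ => by
      have := Ylo i
      simp only [zero_le, min_eq_left, add_zero, if_true]
      omega)
    (fun i _ => by
      have := Yhi i
      simp only [min_eq_right (Nat.le_succ J), if_neg (Nat.not_succ_le_self J), hJ]
      omega)
    (fun j _ => by
      have := hT j
      have := le_abs_self (A 0).1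
      have := neg_abs_le θ
      have := neg_abs_le (P (nlo + min j J))
      simp only [P0]
      omega)
    (fun j _ => by
      have := hT j
      have := neg_abs_le (A 0).1
      have := le_abs_self θ
      have := le_abs_self (P (nlo + min j J))
      simp only [PI]
      omega)
  refine ⟨(nlo + min j J) % N, (Nat.mod_lt _ hN).le, i % N, (Nat.mod_lt _ hN).le,
    k₀ - (i / N : ℕ) + ((nlo + min j J) / N : ℕ), ?_, ?_⟩
  · convert g1 using 2
    simp only [P]
    ring
  · change |Y i - Y (nlo + min j J)| ≤ 2 * L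
    by_cases hc : j ≤ J
    · simpa [hc] using g2
    · have := Yhi i
      simp only [if_neg hc, min_eq_right (not_le.1 hc).le, hJ, abs_le] at g2 ⊢
      omega

end Crest.Agent.R2
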