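import Crest.Agent.R2.Stmts

/-!
Row 2 (Gaussian moat): coverage.
-/

set_option autoImplicit false

namespace Crest.Agent.R2

open Finset

theorem Sys.miss_down (S : Sys) (i₀ k : ℕ) : ∃ N : ℕ, N * S.nn i₀ = S.nn (i₀ + k) ∧
    ∀ a, ∃ ν : Ex ℕ, ∀ (p : Pr) (ρ : V →+ ZMod p.1) (c : ZMod p.1) (M : ℕ),
      S.miss ρ (i₀ + k) a c ^ M ≤ ν.E fun s => S.miss ρ i₀ s c ^ (N * M) := by
  induction k with
  | zero => exact ⟨1, by simp, fun a => ⟨Ex.pure a, fun p ρ c M => by simp⟩⟩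
  | succ k ih =>
    obtain ⟨N, h1, h2⟩ := ih
    choose ν hν using h2
    refine ⟨N * (2 * S.b (i₀ + k)), by rw [← add_assoc, S.nn_succ, ← h1]; ring, fun a =>
      ⟨(S.child (i₀ + k) a).bind ν, fun p ρ c M => ?_⟩⟩
    rw [← add_assoc, S.miss_succ, Ex.bind_E, S.child_E]
    refine (Ex.pow_E_le _ (fun st => pow_nonneg (mul_nonneg (S.miss_nonneg _ _ _ _)
      (S.miss_nonneg _ _ _ _)) _) M).trans (Ex.mono _ fun st => ?_)
    have e1 := hν st.1 p ρ c (2 * S.b (i₀ + k) * M)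
    have e2 := hν st.2 p ρ c (2 * S.b (i₀ + k) * M)
    rw [← mul_assoc] at e1 e2
    rw [mul_assoc 2, mul_comm 2 (S.b (i₀ + k) * M), pow_mul _ _ 2] at e1 e2
    rw [← pow_mul, mul_pow]
    nlinarith [sq_nonneg (S.miss ρ (i₀ + k) st.1 c ^ (S.b (i₀ + k) * M) -
      S.miss ρ (i₀ + k) st.2 c ^ (S.b (i₀ + k) * M))]

theorem Sys.miss_pow_le (S : Sys) {p : Pr} (ρ : V →+ ZMod p.1) (i a N t : ℕ) (c : ZMod p.1)
    (hd : 0 ≤ S.defi ρ i a c) (hN : 4 * p.1 * t ≤ N * S.nn i) :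
    S.miss ρ i a c ^ N ≤ 1 / 2 ^ t + (if c ∈ S.rare ρ i a then 1 else 0) +
      (4 * p.1 / S.nn i) * S.defi ρ i a c := by
  have hp : (0 : ℝ) < p.1 := by exact_mod_cast p.2.pos
  have hn : (0 : ℝ) < S.nn i := by exact_mod_cast S.nn_pos i
  have h0 := S.miss_nonneg ρ i a c
  have h1 : S.miss ρ i a c ^ N ≤ 1 := pow_le_one₀ h0 (S.miss_le_one ρ i a c)
  have h2 : 0 ≤ (4 * p.1 / S.nn i) * S.defi ρ i a c := by positivity
  have h3 : (0 : ℝ) ≤ 1 / 2 ^ t := by positivity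
  split_ifs with hc
  · linarith
  rcases le_total (S.defi ρ i a c) (S.nn i / (4 * p.1)) with hle | hle
  · have hμ : 1 / (2 * (p.1 : ℝ)) ≤ (S.mu i a).E fun u => if ρ (S.X u) = c then 1 else 0 := by
      simpa [Sys.rare] using hc
    have h4 : S.miss ρ i a c ≤ 1 - S.nn i / (4 * p.1) := by
      have e1 := mul_le_mul_of_nonneg_left hμ hn.le
      have e2 : (S.nn i : ℝ) * (1 / (2 * p.1)) = 2 * (S.nn i / (4 * p.1)) := by
        field_simp; ring
      unfold Sys.defi at hle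
      linarith
    have h5 : S.miss ρ i a c ^ N ≤ Real.exp (-(S.nn i / (4 * p.1))) ^ N :=
      pow_le_pow_left₀ h0 (h4.trans (by linarith [Real.add_one_le_exp (-(S.nn i / (4 * p.1) : ℝ))])) N
    have h6 : Real.exp (-(S.nn i / (4 * p.1))) ^ N ≤ Real.exp (-1) ^ t := by
      rw [← Real.exp_nat_mul, ← Real.exp_nat_mul]
      refine Real.exp_le_exp.2 ?_
      have : (4 * p.1 * t : ℝ) ≤ N * S.nn i := by exact_mod_cast hN
      have e : (t : ℝ) ≤ N * (S.nn i / (4 * p.1)) := by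
        rw [← mul_div_assoc, le_div_iff₀ (by positivity)]; linarith
      linarith
    have h7 : Real.exp (-1) ^ t ≤ 1 / 2 ^ t := by
      rw [← one_div_pow]
      refine pow_le_pow_left₀ (Real.exp_pos _).le ?_ t
      linarith [Real.exp_neg_one_lt_d9]
    linarith
  · have : 1 ≤ (4 * p.1 / S.nn i) * S.defi ρ i a c := by
      have e := mul_le_mul_of_nonneg_left hle (show (0 : ℝ) ≤ 4 * p.1 / S.nn i by positivity)
      rwa [show (4 * p.1 / S.nn i : ℝ) * (S.nn i / (4 * p.1)) = 1 by field_simp] at e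
    linarith

theorem cov (h1 : BStmt) (h2 : DefStmt) : CovStmt := by
  intro S ρ P hP t i ht ht' hi hp hc a
  have hj := S.hj0
  have hγ := S.hγ
  obtain ⟨i₀, hi₀⟩ : ∃ i₀, S.j0 + i₀ = 6 * t := ⟨6 * t - S.j0, by omega⟩
  obtain ⟨k, rfl⟩ : ∃ k, i = i₀ + k := ⟨i - i₀, by omega⟩
  obtain ⟨N, hN, hν⟩ := S.miss_down i₀ k
  obtain ⟨ν, hν⟩ := hν a
  have hn : (0 : ℝ) < S.nn i₀ := by exact_mod_cast S.nn_pos i₀
  have hbig : ∀ p ∈ P, 4 * p.1 * t ≤ N * S.nn i₀ := by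
    intro p hpP
    rw [hN, S.nn_eq, S.r_eq]
    have e1 := S.le_two_pow_clog (i₀ + k)
    have e2 : 2 ^ (682 + S.γ) * 2 ^ (40 * (S.j0 + (i₀ + k))) = 4 * 2 ^ (1600 * t + S.γ) := by
      rw [← pow_add, show 682 + S.γ + 40 * (S.j0 + (i₀ + k)) = 2 + (1600 * t + S.γ) by omega,
        pow_add]
      norm_num
    rw [mul_right_comm _ (2 ^ Nat.clog 2 (S.j0 + (i₀ + k))), e2]
    exact Nat.mul_le_mul (Nat.mul_le_mul_left _ (hp p hpP)) (by omega)
  have hB := fun s => h1 S ρ P hP t i₀ ht hi₀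
    (fun p hpP => (hp p hpP).trans (Nat.pow_le_pow_right (by norm_num) (by omega)))
    ((Nat.pow_le_pow_right (by norm_num) (by omega)).trans hc) s
  have hD := fun s => h2.2 S ρ P hP t i₀ ht ht' hi₀.le hc s
  calc ∑ p ∈ P, (∑ c, S.miss (ρ p) (i₀ + k) a c) / p.1
      ≤ ∑ p ∈ P, (∑ c, ν.E fun s => S.miss (ρ p) i₀ s c ^ N) / p.1 := by
        refine sum_le_sum fun p _ => div_le_div_of_nonneg_right (sum_le_sum fun c _ => ?_)
          (by positivity)
        simpa using hν p (ρ p) c 1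
    _ = ν.E fun s => ∑ p ∈ P, (∑ c, S.miss (ρ p) i₀ s c ^ N) / p.1 := by
        simp only [Ex.E_sum, Ex.E_div]
    _ ≤ _ := by
        refine Ex.le_const _ fun s => ?_
        have e1 : ∑ p ∈ P, (∑ c, S.miss (ρ p) i₀ s c ^ N) / p.1 ≤
            ∑ p ∈ P, (1 / 2 ^ t + ((S.rare (ρ p) i₀ s).card : ℝ) / p.1 +
              4 / S.nn i₀ * ∑ c, S.defi (ρ p) i₀ s c) := by
          refine sum_le_sum fun p hpP => ?_
          have hp0 : (0 : ℝ) < p.1 := by exact_mod_cast p.2.pos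
          rw [div_le_iff₀ hp0]
          refine (sum_le_sum fun c _ => S.miss_pow_le (ρ p) i₀ s N t c (h2.1 _ _ _ _ _ _)
            (hbig p hpP)).trans (le_of_eq ?_)
          simp only [sum_add_distrib, ← mul_sum, sum_const, card_univ, ZMod.card, nsmul_eq_mul,
            sum_ite_mem, univ_inter, mul_one]
          field_simp
        refine e1.trans ?_
        simp only [sum_add_distrib, ← mul_sum, sum_const, nsmul_eq_mul]
        have e2 := mul_le_mul_of_nonneg_left (hD s) (show (0 : ℝ) ≤ 4 / S.nn i₀ by positivity)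
        have e3 : (4 / S.nn i₀ : ℝ) * (S.nn i₀ * P.card / (4 * 2 ^ t)) = P.card / 2 ^ t := by
          field_simp
        have e4 : (4 * P.card / 2 ^ t : ℝ) =
            P.card * (1 / 2 ^ t) + 2 * P.card / 2 ^ t + P.card / 2 ^ t := by ring
        have := hB s
        linarith

end Crest.Agent.R2
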