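import Crest.Agent.R2.Defs

set_option autoImplicit false

namespace Crest.Agent.R2

open Finset

namespace CR

/-- upper half plane indicator -/
def H (w : V) : ℤ := if 0 ≤ w.2 then 1 else 0

/-- signed crossing of the positive half axis -/
def c (w w' : V) : ℤ := (H w' - H w) * (if 0 < w.1 + w'.1 then 1 else 0)

theorem c_of_pos {w w' : V} (h : 0 < w.1 + w'.1) : c w w' = H w' - H w := by simp [c, h]

theorem c_of_neg {w w' : V} (h : w.1 + w'.1 ≤ 0) : c w w' = 0 := by simp [c, not_lt.2 h]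

theorem c_of_eq {w w' : V} (h : H w = H w') : c w w' = 0 := by simp [c, h]

theorem square {L : ℤ} {w₁ w₂ w₃ w₄ : V}
    (h12 : |w₂.1 - w₁.1| ≤ L ∧ |w₂.2 - w₁.2| ≤ L) (h43 : |w₃.1 - w₄.1| ≤ L ∧ |w₃.2 - w₄.2| ≤ L)
    (h14 : |w₄.1 - w₁.1| ≤ L ∧ |w₄.2 - w₁.2| ≤ L) (h23 : |w₃.1 - w₂.1| ≤ L ∧ |w₃.2 - w₂.2| ≤ L)
    (g1 : ¬ (|w₁.1| ≤ 2 * L ∧ |w₁.2| ≤ 2 * L)) (g2 : ¬ (|w₂.1| ≤ 2 * L ∧ |w₂.2| ≤ 2 * L))
    (g3 : ¬ (|w₃.1| ≤ 2 * L ∧ |w₃.2| ≤ 2 * L)) (g4 : ¬ (|w₄.1| ≤ 2 * L ∧ |w₄.2| ≤ 2 * L)) :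
    c w₁ w₂ + c w₂ w₃ = c w₁ w₄ + c w₄ w₃ := by
  simp only [abs_le] at *
  by_cases hc : (0 ≤ w₁.2 ∧ 0 ≤ w₂.2 ∧ 0 ≤ w₃.2 ∧ 0 ≤ w₄.2) ∨
      (w₁.2 < 0 ∧ w₂.2 < 0 ∧ w₃.2 < 0 ∧ w₄.2 < 0)
  · rcases hc with ⟨a, b, d, e⟩ | ⟨a, b, d, e⟩
    · simp [c, H, a, b, d, e]
    · simp [c, H, not_le.2 a, not_le.2 b, not_le.2 d, not_le.2 e]
  · have k1 : -(2 * L) ≤ w₁.2 ∧ w₁.2 ≤ 2 * L := by omega
    have k2 : -(2 * L) ≤ w₂.2 ∧ w₂.2 ≤ 2 * L := by omega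
    have k3 : -(2 * L) ≤ w₃.2 ∧ w₃.2 ≤ 2 * L := by omega
    have k4 : -(2 * L) ≤ w₄.2 ∧ w₄.2 ≤ 2 * L := by omega
    by_cases hp : 0 < w₁.1
    · rw [c_of_pos (by omega), c_of_pos (by omega), c_of_pos (by omega), c_of_pos (by omega)]
      ring
    · rw [c_of_neg (by omega), c_of_neg (by omega), c_of_neg (by omega), c_of_neg (by omega)]

end CR

open CR in
theorem cross : CrossStmt := by
  intro W I J L h1 h2 h3 h4 h5 h6
  by_contra hcon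
  have g : ∀ i ≤ I, ∀ j ≤ J, ¬ (|(W i j).1| ≤ 2 * L ∧ |(W i j).2| ≤ 2 * L) :=
    fun i hi j hj h => hcon ⟨i, hi, j, hj, h⟩
  let φ : ℕ → ℤ := fun i => ∑ j ∈ range J, c (W i j) (W i (j + 1))
  have step : ∀ i < I, φ (i + 1) = φ i := by
    intro i hi
    have e : ∀ j ∈ range J, c (W (i + 1) j) (W (i + 1) (j + 1)) - c (W i j) (W i (j + 1)) =
        c (W i (j + 1)) (W (i + 1) (j + 1)) - c (W i j) (W (i + 1) j) := by
      intro j hj
      rw [mem_range] at hj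
      have := square (h1 i hi j hj.le) (h1 i hi (j + 1) hj) (h2 i hi.le j hj) (h2 (i + 1) hi j hj)
        (g i hi.le j hj.le) (g (i + 1) hi j hj.le) (g (i + 1) hi (j + 1) hj) (g i hi.le (j + 1) hj)
      linarith
    have e2 := sum_congr rfl e
    rw [sum_sub_distrib, sum_range_sub (fun j => c (W i j) (W (i + 1) j)),
      c_of_eq (w := W i J), c_of_eq (w := W i 0)] at e2
    · simp only [φ]; linarith
    · simp [H, h3 i hi.le, h3 (i + 1) hi]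
    · simp [H, not_le.2 (h4 i hi.le), not_le.2 (h4 (i + 1) hi)]
  have all : ∀ i ≤ I, φ i = φ 0 := by
    intro i hi
    induction i with
    | zero => rfl
    | succ i ih => rw [step i hi, ih (by omega)]
  have z0 : φ 0 = 0 := by
    refine sum_eq_zero fun j hj => c_of_neg ?_
    rw [mem_range] at hj
    have := h5 j hj.le; have := h5 (j + 1) hj
    omega
  have zI : φ I = -1 := by
    have e : ∀ j ∈ range J, c (W I j) (W I (j + 1)) = H (W I (j + 1)) - H (W I j) := by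
      intro j hj
      rw [mem_range] at hj
      have := h6 j hj.le; have := h6 (j + 1) hj
      exact c_of_pos (by omega)
    simp only [φ]
    rw [sum_congr rfl e, sum_range_sub (fun j => H (W I j))]
    simp [H, h3 I le_rfl, not_le.2 (h4 I le_rfl)]
  have := all I le_rfl
  omega

end Crest.Agent.R2
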