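import Crest.Agent.R2.Defs

/-! Row 2: period averages factor (CRT), products of densities along a progression. -/

set_option autoImplicit false

namespace Crest.Agent.R2

open Finset

namespace CR

theorem sum_range_mul' (f : ℕ → ℝ) (N m : ℕ) :
    ∑ i ∈ range (N * m), f i = ∑ b ∈ range m, ∑ a ∈ range N, f (a + N * b) := by
  induction m with
  | zero => simp
  | succ m ih =>
    rw [Nat.mul_succ, sum_range_add, ih, sum_range_succ]
    congr 1
    exact sum_congr rfl (fun a _ => by rw [add_comm])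

theorem sum_range_zmod (p : ℕ) [NeZero p] (F : ZMod p → ℝ) :
    ∑ b ∈ range p, F (b : ZMod p) = ∑ c, F c := by
  refine sum_bij (fun b _ => (b : ZMod p)) (fun _ _ => mem_univ _) ?_ ?_ (fun _ _ => rfl)
  · intro a ha b hb h
    have h1 := congrArg ZMod.val h
    rwa [ZMod.val_cast_of_lt (mem_range.1 ha), ZMod.val_cast_of_lt (mem_range.1 hb)] at h1
  · intro c _
    exact ⟨c.val, mem_range.2 (ZMod.val_lt c), ZMod.natCast_zmod_val c⟩

theorem sum_affine (p : Pr) (F : ZMod p.1 → ℝ) (y u : ZMod p.1) (hu : u ≠ 0) :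
    ∑ b ∈ range p.1, F (y + (b : ZMod p.1) * u) = ∑ c, F c := by
  have : NeZero p.1 := ⟨p.2.ne_zero⟩
  rw [sum_range_zmod p.1 (fun b => F (y + b * u))]
  exact Equiv.sum_comp ((Equiv.mulRight₀ u hu).trans (Equiv.addLeft y)) F

theorem rho_ap (ρ : Res) (p : Pr) (x v : V) (i : ℕ) :
    ρ p (x + i • v) = ρ p x + (i : ZMod p.1) * ρ p v := by
  rw [map_add, map_nsmul, nsmul_eq_mul]

/-- periodicity -/
theorem rho_period (K : Finset Pr) (ρ : Res) (x v : V) (p : Pr) (hp : p ∈ K) (a b : ℕ) :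
    ρ p (x + (a + (∏ q ∈ K, q.1) * b) • v) = ρ p (x + a • v) := by
  have h0 : ((∏ q ∈ K, q.1 : ℕ) : ZMod p.1) = 0 := by
    rw [ZMod.natCast_eq_zero_iff]
    exact dvd_prod_of_mem (fun q : Pr => q.1) hp
  rw [rho_ap, rho_ap, Nat.cast_add, Nat.cast_mul, h0, zero_mul, add_zero]

end CR

open CR

theorem crt : CrtStmt := by
  intro K ρ F x v
  classical
  induction K using Finset.induction_on with
  | empty => intro _; simp
  | insert p K hp ih =>
    intro hv
    have ih' := ih (fun q hq => hv q (mem_insert_of_mem hq))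
    rw [prod_insert hp, prod_insert hp, mul_comm p.1, sum_range_mul', sum_comm, ← ih', mul_sum]
    refine sum_congr rfl (fun a _ => ?_)
    have hN : ((∏ q ∈ K, q.1 : ℕ) : ZMod p.1) ≠ 0 := by
      rw [Ne, ZMod.natCast_eq_zero_iff]
      intro h
      obtain ⟨q, hq, hd⟩ := (Nat.Prime.prime p.2).exists_mem_finset_dvd h
      have : p = q := Subtype.ext ((Nat.prime_dvd_prime_iff_eq p.2 q.2).1 hd)
      exact hp (this ▸ hq)
    have hu : ((∏ q ∈ K, q.1 : ℕ) : ZMod p.1) * ρ p v ≠ 0 :=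
      mul_ne_zero hN (hv p (mem_insert_self _ _))
    rw [← sum_affine p (F p) (ρ p (x + a • v)) _ hu, sum_mul]
    refine sum_congr rfl (fun b _ => ?_)
    rw [prod_insert hp]
    congr 1
    · congr 1
      rw [rho_ap, rho_ap, Nat.cast_add, Nat.cast_mul]
      ring
    · exact prod_congr rfl (fun q hq => by rw [rho_period K ρ x v q hq])

theorem ap1 (h : CrtStmt) : AP1Stmt := by
  intro K ρ Z hZ hS n hn x v
  classical
  set Kg := K.filter (fun p => ¬ ρ p v = 0) with hKg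
  set Kb := K.filter (fun p => ρ p v = 0) with hKb
  set N := ∏ p ∈ Kg, p.1 with hN
  have hNpos : 0 < N := prod_pos (fun p _ => p.2.pos)
  have hNn : N ≤ n := by
    refine le_trans ?_ hn
    exact Nat.le_of_dvd (prod_pos (fun p _ => p.2.pos))
      (prod_dvd_prod_of_subset _ _ _ (filter_subset _ _))
  have hB0 : 0 ≤ ∏ p ∈ Kb, (p.1 : ℝ) := prod_nonneg (fun p _ => Nat.cast_nonneg _)
  have hZle : ∀ p c, Z p c ≤ p.1 := fun p c =>
    (single_le_sum (fun c _ => hZ p c) (mem_univ c)).trans (hS p)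
  have h1 : ∀ i : ℕ, ∏ p ∈ K, Z p (ρ p (x + i • v)) ≤
      (∏ p ∈ Kg, Z p (ρ p (x + i • v))) * ∏ p ∈ Kb, (p.1 : ℝ) := by
    intro i
    rw [← prod_filter_mul_prod_filter_not K (fun p => ρ p v = 0), mul_comm]
    refine mul_le_mul_of_nonneg_left ?_ (prod_nonneg (fun p _ => hZ _ _))
    exact prod_le_prod (fun p _ => hZ _ _) (fun p _ => hZle _ _)
  have hper : ∑ i ∈ range N, ∏ p ∈ Kg, Z p (ρ p (x + i • v)) ≤ N := by
    rw [hN, h Kg ρ Z x v (fun p hp => (mem_filter.1 hp).2), Nat.cast_prod]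
    exact prod_le_prod (fun p _ => sum_nonneg (fun c _ => hZ _ _)) (fun p _ => hS p)
  have h2 : ∑ i ∈ range n, ∏ p ∈ Kg, Z p (ρ p (x + i • v)) ≤ 2 * n := by
    have hsub : range n ⊆ range (N * (n / N + 1)) := by
      refine range_subset_range.2 ?_
      have := Nat.lt_mul_div_succ n hNpos
      omega
    refine (sum_le_sum_of_subset_of_nonneg hsub
      (fun i _ _ => prod_nonneg (fun p _ => hZ _ _))).trans ?_
    rw [sum_range_mul']
    have : ∀ b ∈ range (n / N + 1),
        ∑ a ∈ range N, ∏ p ∈ Kg, Z p (ρ p (x + (a + N * b) • v)) ≤ N := by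
      intro b _
      refine le_trans (le_of_eq ?_) hper
      exact sum_congr rfl (fun a _ => prod_congr rfl (fun q hq => by
        rw [hN, rho_period Kg ρ x v q hq]))
    refine (sum_le_sum this).trans ?_
    rw [sum_const, card_range, nsmul_eq_mul]
    have h3 : (n / N + 1) * N ≤ 2 * n := by
      have := Nat.div_mul_le_self n N
      nlinarith
    exact_mod_cast h3
  calc _ ≤ ∑ i ∈ range n, (∏ p ∈ Kg, Z p (ρ p (x + i • v))) * ∏ p ∈ Kb, (p.1 : ℝ) :=
        sum_le_sum (fun i _ => h1 i)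
    _ = (∑ i ∈ range n, ∏ p ∈ Kg, Z p (ρ p (x + i • v))) * ∏ p ∈ Kb, (p.1 : ℝ) := by
        rw [sum_mul]
    _ ≤ (2 * n) * ∏ p ∈ Kb, (p.1 : ℝ) := mul_le_mul_of_nonneg_right h2 hB0
    _ = _ := by ring

end Crest.Agent.R2
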