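import Crest.Agent.R2.Stmts

/-!
Row 2: Bonferroni along the tree.
-/

set_option autoImplicit false

namespace Crest.Agent.R2

open Finset

namespace Df

variable (S : Sys)

theorem mu0_E (a : ℕ) (f : ℕ → ℝ) : S.nn 0 * (S.mu 0 a).E f =
    (Ex.unif (2 ^ S.r 0)).E fun u => ∑ k ∈ range (S.nn 0), f (a + u + k) := by
  rw [Sys.mu_zero, Ex.bind_E, ← Ex.E_mul_left]
  congr 1
  funext u
  have : (S.nn 0 : ℝ) ≠ 0 := by exact_mod_cast (S.nn_pos 0).ne'
  rw [Ex.map_E, Ex.unif_E (S.nn_pos 0).ne', mul_div_cancel₀ _ this]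

theorem mu_succ_E (i a : ℕ) (f : ℕ → ℝ) : S.nn (i + 1) * (S.mu (i + 1) a).E f =
    (S.St i a).E fun st =>
      S.b i * (S.nn i * (S.mu i st.1).E f + S.nn i * (S.mu i st.2).E f) := by
  rw [Sys.mu_succ, Ex.bind_E, Sys.child_E, ← Ex.E_mul_left, S.nn_succ]
  congr 1
  funext st
  push_cast
  ring

/-- The probability of a class. -/
noncomputable def pr {p : Pr} (ρ : V →+ ZMod p.1) (i a : ℕ) (c : ZMod p.1) : ℝ :=
  (S.mu i a).E fun u => if ρ (S.X u) = c then 1 else 0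

theorem defi_eq {p : Pr} (ρ : V →+ ZMod p.1) (i a : ℕ) (c : ZMod p.1) :
    S.defi ρ i a c = S.nn i * pr S ρ i a c - (1 - S.miss ρ i a c) := rfl

theorem pr_nonneg {p : Pr} (ρ : V →+ ZMod p.1) (i a : ℕ) (c : ZMod p.1) : 0 ≤ pr S ρ i a c :=
  Ex.pos _ _ fun u => by split_ifs <;> norm_num

open Classical in
theorem defi_zero {p : Pr} (ρ : V →+ ZMod p.1) (a : ℕ) (c : ZMod p.1) :
    S.defi ρ 0 a c = (Ex.unif (2 ^ S.r 0)).E fun u =>
      (∑ k ∈ range (S.nn 0), if ρ (S.X (a + u + k)) = c then (1 : ℝ) else 0) -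
        (1 - if ∀ k < S.nn 0, ρ (S.X (a + u + k)) ≠ c then 1 else 0) := by
  rw [Ex.E_sub, Ex.E_sub, Ex.E_const, ← Sys.miss_zero,
    ← mu0_E S a (fun u => if ρ (S.X u) = c then 1 else 0)]
  rfl

theorem defi_succ {p : Pr} (ρ : V →+ ZMod p.1) (i a : ℕ) (c : ZMod p.1) :
    S.defi ρ (i + 1) a c = (S.St i a).E fun st =>
      S.b i * (S.nn i * pr S ρ i st.1 c + S.nn i * pr S ρ i st.2 c) -
        (1 - (S.miss ρ i st.1 c * S.miss ρ i st.2 c) ^ S.b i) := by
  rw [Ex.E_sub, Ex.E_sub, Ex.E_const, ← Sys.miss_succ]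
  unfold pr
  rw [← mu_succ_E]
  rfl

theorem bern {x y : ℝ} (hx : 0 ≤ x) (hx1 : x ≤ 1) (hy : 0 ≤ y) (hy1 : y ≤ 1) (b : ℕ) :
    1 - (x * y) ^ b ≤ b * ((1 - x) + (1 - y)) := by
  have h1 := one_add_mul_le_pow (a := x * y - 1) (by nlinarith [mul_nonneg hx hy]) b
  rw [add_sub_cancel] at h1
  have h2 : 1 - x * y ≤ (1 - x) + (1 - y) := by nlinarith
  have := mul_le_mul_of_nonneg_left h2 (Nat.cast_nonneg (α := ℝ) b)
  linarith

theorem bonf {x y : ℝ} (hx : 0 ≤ x) (hx1 : x ≤ 1) (hy : 0 ≤ y) (hy1 : y ≤ 1) (b : ℕ) :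
    (x * y) ^ b ≤ 1 - b * ((1 - x) + (1 - y)) + (b * ((1 - x) + (1 - y))) ^ 2 := by
  set z := b * ((1 - x) + (1 - y)) with hz
  have hz0 : 0 ≤ z := mul_nonneg (Nat.cast_nonneg b) (by linarith)
  have h1 : x ≤ Real.exp (-(1 - x)) := by linarith [Real.add_one_le_exp (-(1 - x))]
  have h2 : y ≤ Real.exp (-(1 - y)) := by linarith [Real.add_one_le_exp (-(1 - y))]
  have h3 : (x * y) ^ b ≤ Real.exp (-z) := by
    calc (x * y) ^ b ≤ (Real.exp (-(1 - x)) * Real.exp (-(1 - y))) ^ b := by gcongr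
      _ = Real.exp (-z) := by rw [← Real.exp_add, ← Real.exp_nat_mul, hz]; congr 1; ring
  have h4 : Real.exp (-z) * (1 + z) ≤ 1 := by
    have := Real.add_one_le_exp z
    calc Real.exp (-z) * (1 + z) ≤ Real.exp (-z) * Real.exp z := by gcongr; linarith
      _ = 1 := by rw [← Real.exp_add]; simp
  have h5 : Real.exp (-z) * (1 + z) ≤ (1 - z + z ^ 2) * (1 + z) := by
    nlinarith [pow_nonneg hz0 3]
  exact h3.trans (le_of_mul_le_mul_right h5 (by linarith))

theorem defi_nonneg {p : Pr} (ρ : V →+ ZMod p.1) (i a : ℕ) (c : ZMod p.1) :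
    0 ≤ S.defi ρ i a c := by
  induction i generalizing a with
  | zero =>
    rw [defi_zero]
    refine Ex.pos _ _ fun u => ?_
    have h0 : ∀ k ∈ range (S.nn 0), (0 : ℝ) ≤ if ρ (S.X (a + u + k)) = c then 1 else 0 :=
      fun k _ => by split_ifs <;> norm_num
    split_ifs with h
    · rw [sub_self, sub_zero]; exact sum_nonneg h0
    · push Not at h
      obtain ⟨k, hk, e⟩ := h
      have := single_le_sum h0 (mem_range.2 hk)
      rw [if_pos e] at this
      linarith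
  | succ i ih =>
    rw [defi_succ]
    refine Ex.pos _ _ fun st => ?_
    have h1 := bern (S.miss_nonneg ρ i st.1 c) (S.miss_le_one ρ i st.1 c)
      (S.miss_nonneg ρ i st.2 c) (S.miss_le_one ρ i st.2 c) (S.b i)
    have h2 := ih st.1
    have h3 := ih st.2
    rw [defi_eq] at h2 h3
    have := mul_le_mul_of_nonneg_left (add_le_add (sub_nonneg.1 h2) (sub_nonneg.1 h3))
      (Nat.cast_nonneg (α := ℝ) (S.b i))
    linarith

theorem defi_succ_le {p : Pr} (ρ : V →+ ZMod p.1) (i a : ℕ) (c : ZMod p.1) :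
    S.defi ρ (i + 1) a c ≤ (S.St i a).E fun st =>
      S.b i * S.defi ρ i st.1 c + S.b i * S.defi ρ i st.2 c +
        2 * (S.b i * S.nn i) ^ 2 * pr S ρ i st.1 c ^ 2 +
        2 * (S.b i * S.nn i) ^ 2 * pr S ρ i st.2 c ^ 2 := by
  rw [defi_succ]
  refine Ex.mono _ fun st => ?_
  have h1 := bonf (S.miss_nonneg ρ i st.1 c) (S.miss_le_one ρ i st.1 c)
    (S.miss_nonneg ρ i st.2 c) (S.miss_le_one ρ i st.2 c) (S.b i)
  have h2 := defi_nonneg S ρ i st.1 c
  have h3 := defi_nonneg S ρ i st.2 c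
  rw [defi_eq] at h2 h3
  rw [defi_eq, defi_eq]
  have h4 := S.miss_le_one ρ i st.1 c
  have h5 := S.miss_le_one ρ i st.2 c
  set x := 1 - S.miss ρ i st.1 c
  set y := 1 - S.miss ρ i st.2 c
  set X := S.nn i * pr S ρ i st.1 c with hX
  set Y := S.nn i * pr S ρ i st.2 c with hY
  have hx : 0 ≤ x := sub_nonneg.2 h4
  have hy : 0 ≤ y := sub_nonneg.2 h5
  have h6 : (x + y) ^ 2 ≤ 2 * X ^ 2 + 2 * Y ^ 2 := by
    have : x ^ 2 ≤ X ^ 2 := pow_le_pow_left₀ hx (by linarith) 2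
    have : y ^ 2 ≤ Y ^ 2 := pow_le_pow_left₀ hy (by linarith) 2
    nlinarith [sq_nonneg (x - y)]
  have h7 := mul_le_mul_of_nonneg_left h6 (sq_nonneg (S.b i : ℝ))
  have e1 : 2 * (S.b i * S.nn i) ^ 2 * pr S ρ i st.1 c ^ 2 = (S.b i : ℝ) ^ 2 * (2 * X ^ 2) := by
    rw [hX]; ring
  have e2 : 2 * (S.b i * S.nn i) ^ 2 * pr S ρ i st.2 c ^ 2 = (S.b i : ℝ) ^ 2 * (2 * Y ^ 2) := by
    rw [hY]; ring
  rw [e1, e2]
  nlinarith

theorem unif_window (U a w T : ℕ) (hU : U ≠ 0) :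
    (Ex.unif U).E (fun u => if a + u ≤ w ∧ w ≤ a + u + T then (1 : ℝ) else 0) ≤ (T + 1) / U := by
  rw [Ex.unif_E hU, ← sum_filter, sum_const, nsmul_eq_mul, mul_one]
  gcongr
  have : (range U).filter (fun u => a + u ≤ w ∧ w ≤ a + u + T) ⊆ Icc (w - a - T) (w - a) := by
    intro u hu
    rw [mem_filter] at hu
    rw [mem_Icc]; omega
  have h2 := card_le_card this
  rw [Nat.card_Icc] at h2
  exact_mod_cast h2.trans (by omega)

theorem atom (i a w : ℕ) : (S.mu i a).E (fun u => if u = w then 1 else 0) ≤ 4 / 2 ^ S.r i := by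
  cases i with
  | zero =>
    have hn : (0 : ℝ) < S.nn 0 := by exact_mod_cast S.nn_pos 0
    refine le_of_mul_le_mul_left ?_ hn
    rw [mu0_E, Ex.E_sum]
    have : ∀ k ∈ range (S.nn 0), (Ex.unif (2 ^ S.r 0)).E
        (fun u => if a + u + k = w then (1 : ℝ) else 0) ≤ 4 / 2 ^ S.r 0 := by
      intro k _
      have h1 := unif_window (2 ^ S.r 0) (a + k) w 0 (by positivity)
      refine le_trans (Ex.mono _ fun u => ?_) (h1.trans ?_)
      · split_ifs with h2 h3
        · rfl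
        · omega
        · norm_num
        · rfl
      · push_cast; gcongr; norm_num
    refine (sum_le_sum this).trans ?_
    simp
  | succ i =>
    have hr := S.r_succ i
    have hr0 := S.r_pos i
    set r := S.r (i + 1) with hrdef
    have h1 := unif_window (2 ^ (6 * r)) a w (2 * 2 ^ (5 * r)) (by positivity)
    rw [Sys.mu_succ, Ex.bind_E, Sys.child_E, Sys.St_eq, Ex.bind_E]
    refine le_trans (Ex.mono _ fun u => ?_) (h1.trans ?_)
    · have h7 : 2 ^ (7 * S.r i) ≤ 2 ^ (5 * r) := Nat.pow_le_pow_right (by norm_num) (by omega)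
      have key : ∀ s, a + u ≤ s → s ≤ a + u + 2 ^ (5 * r) →
          (S.mu i s).E (fun x => if x = w then 1 else 0) ≤
            if a + u ≤ w ∧ w ≤ a + u + 2 * 2 ^ (5 * r) then (1 : ℝ) else 0 := by
        intro s h2 h3
        refine (S.mu_range i s).le_const fun x hx => ?_
        split_ifs with h4 h5
        · rfl
        · omega
        · norm_num
        · rfl
      refine (S.hG' i (a + u)).2.2.1.le_const fun st hst => ?_
      linarith [key st.1 hst.1 hst.2.1, key st.2 hst.2.2.1 hst.2.2.2]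
    · push_cast
      rw [div_le_div_iff₀ (by positivity) (by positivity),
        show 6 * r = 5 * r + r by ring, pow_add]
      have : (1 : ℝ) ≤ 2 ^ (5 * r) := one_le_pow₀ (by norm_num)
      have : (0 : ℝ) < 2 ^ r := by positivity
      nlinarith

theorem count_le {ρ : Res} {P : Finset Pr} (hP : NormDiv ρ P) (i : ℕ) {a u w : ℕ} (h1 : a ≤ u)
    (h2 : u ≤ a + 2 ^ (7 * S.r i)) (h3 : a ≤ w) (h4 : w ≤ a + 2 ^ (7 * S.r i)) :
    ∑ p ∈ P, (if ρ p (S.X w) = ρ p (S.X u) then (1 : ℝ) else 0) ≤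
      P.card * (if w = u then 1 else 0) + 15 * S.r i := by
  have hr : (0 : ℝ) ≤ S.r i := Nat.cast_nonneg _
  rw [← sum_filter, sum_const, nsmul_eq_mul, mul_one]
  split_ifs with h
  · have : ((P.filter fun p => ρ p (S.X w) = ρ p (S.X u)).card : ℝ) ≤ P.card := by
      exact_mod_cast card_filter_le _ _
    linarith
  · have hz : S.X w - S.X u ≠ 0 := fun e => h (S.walk.inj (sub_eq_zero.1 e))
    have hb : S.X w - S.X u ∈ box (S.rad i) := by
      rw [Sys.rad_eq]; exact S.walk.sub_mem h1 h2 h3 h4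
    have := hP.card_le hz (S.nrm_le_of_mem_rad hb)
    simp only [map_sub, sub_eq_zero] at this
    rw [mul_zero, zero_add]
    exact_mod_cast this

theorem coll {ρ : Res} {P : Finset Pr} (hP : NormDiv ρ P) (i a : ℕ) :
    ∑ p ∈ P, ∑ c, pr S (ρ p) i a c ^ 2 ≤ P.card * (4 / 2 ^ S.r i) + 15 * S.r i := by
  have e : ∀ p ∈ P, ∑ c, pr S (ρ p) i a c ^ 2 = (S.mu i a).E fun u => (S.mu i a).E fun w =>
      if ρ p (S.X w) = ρ p (S.X u) then 1 else 0 := by
    intro p _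
    have : ∀ c, pr S (ρ p) i a c ^ 2 = (S.mu i a).E fun u =>
        (if ρ p (S.X u) = c then 1 else 0) * pr S (ρ p) i a c := by
      intro c; rw [Ex.E_mul_right, sq]; rfl
    simp only [this]
    rw [← Ex.E_sum]
    congr 1
    funext u
    simp only [ite_mul, one_mul, zero_mul, sum_ite_eq, mem_univ, if_true]
    rfl
  rw [sum_congr rfl e, ← Ex.E_sum]
  refine (S.mu_range i a).le_const fun u hu => ?_
  rw [← Ex.E_sum]
  refine ((S.mu_range i a).le fun w hw => count_le S hP i hu.1 hu.2 hw.1 hw.2).trans ?_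
  rw [Ex.E_add, Ex.E_const, Ex.E_mul_left]
  gcongr
  exact atom S i a u

open Classical in
theorem base_le {ρ : Res} {P : Finset Pr} (hP : NormDiv ρ P) (a : ℕ) :
    ∑ p ∈ P, ∑ c, S.defi (ρ p) 0 a c ≤ S.nn 0 * (S.nn 0 * (15 * S.r 0)) := by
  simp only [defi_zero, ← Ex.E_sum]
  refine (Ex.AS_unif (by positivity)).le_const fun u hu => ?_
  set n := S.nn 0 with hn
  have h1 : ∀ p ∈ P, ∑ c, ((∑ k ∈ range n, if ρ p (S.X (a + u + k)) = c then (1 : ℝ) else 0) -
      (1 - if ∀ k < n, ρ p (S.X (a + u + k)) ≠ c then 1 else 0)) ≤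
      ∑ k ∈ range n, ∑ l ∈ range n,
        ((if ρ p (S.X (a + u + l)) = ρ p (S.X (a + u + k)) then (1 : ℝ) else 0) -
          if l = k then 1 else 0) := by
    intro p _
    have h2 : ∀ c, (∑ k ∈ range n, if ρ p (S.X (a + u + k)) = c then (1 : ℝ) else 0) -
        (1 - if ∀ k < n, ρ p (S.X (a + u + k)) ≠ c then 1 else 0) ≤
        (∑ k ∈ range n, if ρ p (S.X (a + u + k)) = c then (1 : ℝ) else 0) ^ 2 -
          (∑ k ∈ range n, if ρ p (S.X (a + u + k)) = c then (1 : ℝ) else 0) := by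
      intro c
      split_ifs with h
      · rw [sum_eq_zero fun k hk => if_neg (h k (mem_range.1 hk))]
        norm_num
      · nlinarith [sq_nonneg ((∑ k ∈ range n,
          if ρ p (S.X (a + u + k)) = c then (1 : ℝ) else 0) - 1)]
    refine (sum_le_sum fun c _ => h2 c).trans (le_of_eq ?_)
    simp only [sum_sub_distrib]
    congr 1
    · simp only [sq, sum_mul_sum]
      rw [sum_comm]
      refine sum_congr rfl fun k _ => ?_
      rw [sum_comm]
      refine sum_congr rfl fun l _ => ?_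
      simp only [ite_mul, one_mul, zero_mul, sum_ite_eq, mem_univ, if_true]
    · rw [sum_comm]
      refine sum_congr rfl fun k hk => ?_
      simp only [sum_ite_eq, sum_ite_eq', mem_univ, hk, if_true]
  refine (sum_le_sum h1).trans ?_
  rw [sum_comm]
  have h3 : ∀ k ∈ range n, ∑ p ∈ P, ∑ l ∈ range n,
      ((if ρ p (S.X (a + u + l)) = ρ p (S.X (a + u + k)) then (1 : ℝ) else 0) -
        if l = k then 1 else 0) ≤ n * (15 * S.r 0) := by
    intro k hk
    rw [sum_comm]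
    have h4 : ∀ l ∈ range n, ∑ p ∈ P,
        ((if ρ p (S.X (a + u + l)) = ρ p (S.X (a + u + k)) then (1 : ℝ) else 0) -
          if l = k then 1 else 0) ≤ 15 * S.r 0 := by
      intro l hl
      rw [mem_range] at hk hl
      have h5 := S.nn_zero_le
      have h6 : 2 ^ S.r 0 ≤ 2 ^ (7 * S.r 0) := Nat.pow_le_pow_right (by norm_num) (by omega)
      have h7 := count_le S hP 0 (a := a + u) (u := a + u + k) (w := a + u + l) (by omega)
        (by omega) (by omega) (by omega)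
      rw [sum_sub_distrib, sum_const, nsmul_eq_mul]
      simp only [add_right_inj] at h7
      linarith
    refine (sum_le_sum h4).trans ?_
    simp
  refine (sum_le_sum h3).trans ?_
  simp

theorem num1 {t j : ℕ} (hj : 100 ≤ j) (ht : t ≤ 2 ^ j) :
    50 * (j + 1) + 2 + 2 * t ≤ 2 ^ (40 * j) := by
  have h1 : j ≤ 2 ^ j := Nat.lt_two_pow_self.le
  calc 50 * (j + 1) + 2 + 2 * t ≤ 2 ^ 6 * 2 ^ j := by omega
    _ = 2 ^ (6 + j) := by rw [← pow_add]
    _ ≤ _ := Nat.pow_le_pow_right (by norm_num) (by omega)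

/-- The collision terms are negligible. -/
theorem incr_le {m t i : ℕ} (h1 : S.j0 ≤ t) (h2 : t ≤ 2 ^ S.j0) (h3 : S.j0 + i ≤ 6 * t)
    (h4 : 2 ^ (1500 * t) ≤ m) {n : ℕ} (hn : n ≤ 2 ^ (50 * (S.j0 + i + 1))) :
    (n : ℝ) * (m * (4 / 2 ^ S.r i) + 15 * S.r i) ≤ m * (2 / 4 ^ t) := by
  have hj := S.hj0
  have e4 : (4 : ℝ) ^ t = 2 ^ (2 * t) := by rw [pow_mul]; norm_num
  have a1 : n * 4 * 2 ^ (2 * t) ≤ 2 ^ S.r i := by
    have := num1 (t := t) (j := S.j0 + i) (by omega)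
      (h2.trans (Nat.pow_le_pow_right (by norm_num) (by omega)))
    rw [← S.r_eq] at this
    calc n * 4 * 2 ^ (2 * t) ≤ 2 ^ (50 * (S.j0 + i + 1)) * 2 ^ 2 * 2 ^ (2 * t) :=
          Nat.mul_le_mul_right _ (Nat.mul_le_mul hn (by norm_num))
      _ = 2 ^ (50 * (S.j0 + i + 1) + 2 + 2 * t) := by rw [← pow_add, ← pow_add]
      _ ≤ _ := Nat.pow_le_pow_right (by norm_num) this
  have a2 : n * (15 * S.r i) * 2 ^ (2 * t) ≤ m := by
    rw [S.r_eq]
    calc n * (15 * 2 ^ (40 * (S.j0 + i))) * 2 ^ (2 * t)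
        ≤ 2 ^ (50 * (S.j0 + i + 1)) * (2 ^ 4 * 2 ^ (40 * (S.j0 + i))) * 2 ^ (2 * t) :=
          Nat.mul_le_mul_right _ (Nat.mul_le_mul hn (Nat.mul_le_mul_right _ (by norm_num)))
      _ = 2 ^ (50 * (S.j0 + i + 1) + (4 + 40 * (S.j0 + i)) + 2 * t) := by
          rw [← pow_add, ← pow_add, ← pow_add]
      _ ≤ 2 ^ (1500 * t) := Nat.pow_le_pow_right (by norm_num) (by omega)
      _ ≤ m := h4
  have b1 : (n : ℝ) * 4 * 2 ^ (2 * t) ≤ 2 ^ S.r i := by exact_mod_cast a1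
  have b2 : (n : ℝ) * (15 * S.r i) * 2 ^ (2 * t) ≤ m := by exact_mod_cast a2
  have c1 : (n : ℝ) * (4 / 2 ^ S.r i) ≤ 1 / 4 ^ t := by
    rw [e4, ← mul_div_assoc, div_le_div_iff₀ (by positivity) (by positivity)]
    linarith
  have c2 : (n : ℝ) * (15 * S.r i) ≤ m * (1 / 4 ^ t) := by
    rw [e4, mul_one_div, le_div_iff₀ (by positivity)]
    exact b2
  have c3 := mul_le_mul_of_nonneg_left c1 (Nat.cast_nonneg (α := ℝ) m)
  have e : (m : ℝ) * (2 / 4 ^ t) = m * (1 / 4 ^ t) + m * (1 / 4 ^ t) := by ring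
  rw [e, mul_add, mul_left_comm]
  exact add_le_add c3 c2

theorem total {ρ : Res} {P : Finset Pr} (hP : NormDiv ρ P) {t : ℕ} (h1 : S.j0 ≤ t)
    (h2 : t ≤ 2 ^ S.j0) (h4 : 2 ^ (1500 * t) ≤ P.card) (i : ℕ) (h3 : S.j0 + i ≤ 6 * t) (a : ℕ) :
    ∑ p ∈ P, ∑ c, S.defi (ρ p) i a c ≤ S.nn i * ((i + 1) * (P.card * (2 / 4 ^ t))) := by
  induction i generalizing a with
  | zero =>
    refine (base_le S hP a).trans (mul_le_mul_of_nonneg_left ?_ (Nat.cast_nonneg _))
    have := incr_le S h1 h2 h3 h4 (n := S.nn 0)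
      ((S.nn_le 0).trans (Nat.pow_le_pow_right (by norm_num) (by omega)))
    have h5 : (0 : ℝ) ≤ S.nn 0 * (P.card * (4 / 2 ^ S.r 0)) := by positivity
    rw [mul_add] at this
    push_cast
    linarith
  | succ i ih =>
    refine (sum_le_sum fun p _ => sum_le_sum fun c _ => defi_succ_le S (ρ p) i a c).trans ?_
    simp only [← Ex.E_sum]
    refine Ex.le_const _ fun st => ?_
    simp only [sum_add_distrib, ← mul_sum]
    have c1 := ih (by omega) st.1
    have c2 := ih (by omega) st.2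
    have c3 := coll S hP i st.1
    have c4 := coll S hP i st.2
    have c5 := incr_le S h1 h2 (i := i) (by omega) h4 (n := S.nn (i + 1)) (S.nn_le (i + 1))
    have e : (S.nn (i + 1) : ℝ) = 2 * S.b i * S.nn i := by exact_mod_cast S.nn_succ i
    rw [e] at c5 ⊢
    have hb : (0 : ℝ) ≤ S.b i := Nat.cast_nonneg _
    have hn : (0 : ℝ) ≤ S.nn i := Nat.cast_nonneg _
    have d1 := mul_le_mul_of_nonneg_left c1 hb
    have d2 := mul_le_mul_of_nonneg_left c2 hb
    have d3 := mul_le_mul_of_nonneg_left c3 (by positivity : (0 : ℝ) ≤ 2 * (S.b i * S.nn i) ^ 2)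
    have d4 := mul_le_mul_of_nonneg_left c4 (by positivity : (0 : ℝ) ≤ 2 * (S.b i * S.nn i) ^ 2)
    have d5 := mul_le_mul_of_nonneg_left c5 (by positivity : (0 : ℝ) ≤ 2 * S.b i * S.nn i)
    push_cast
    nlinarith

end Df

theorem defi : DefStmt := by
  refine ⟨fun S p ρ i a c => Df.defi_nonneg S ρ i a c, ?_⟩
  intro S ρ P hP t i h1 h2 h3 h4 a
  refine (Df.total S hP h1 h2 h4 i h3 a).trans ?_
  have hj := S.hj0
  have a1 : ∀ t, 100 ≤ t → 48 * t ≤ 2 ^ t := by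
    intro t ht
    induction t, ht using Nat.le_induction with
    | base => norm_num
    | succ n hn ih => rw [pow_succ]; omega
  have a2 : 8 * (i + 1) ≤ 2 ^ t := le_trans (by omega) (a1 t (by omega))
  have b2 : (8 : ℝ) * (i + 1) ≤ 2 ^ t := by exact_mod_cast a2
  have e4 : (4 : ℝ) ^ t = 2 ^ t * 2 ^ t := by rw [← mul_pow]; norm_num
  rw [mul_div_assoc]
  refine mul_le_mul_of_nonneg_left ?_ (Nat.cast_nonneg _)
  have e : ((i : ℝ) + 1) * (P.card * (2 / 4 ^ t)) = P.card * (2 * (i + 1) / 4 ^ t) := by ring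
  rw [e, div_eq_mul_one_div (P.card : ℝ)]
  refine mul_le_mul_of_nonneg_left ?_ (Nat.cast_nonneg _)
  rw [e4, div_le_div_iff₀ (by positivity) (by positivity)]
  have : (0 : ℝ) < 2 ^ t := by positivity
  nlinarith

end Crest.Agent.R2
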