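import Crest.Agent.R2.Ex
import Crest.Prelude.Def_GaussMoat

/-!
Row 2 (Gaussian moat), first wave: definitions and the statements of the independent pieces.
Each `…Stmt : Prop` carries its full proof in the docstring.
-/

set_option autoImplicit false

namespace Crest.Agent.R2

open Finset

abbrev V := ℤ × ℤ
abbrev Pr := Nat.Primes

instance (p : Pr) : Fact p.1.Prime := ⟨p.2⟩

/-- The norm `a² + b²`. -/
def nrm (z : V) : ℤ := z.1 ^ 2 + z.2 ^ 2

/-- The box `[-B, B]²`. -/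
noncomputable def box (B : ℕ) : Finset V := Icc (-(B : ℤ)) B ×ˢ Icc (-(B : ℤ)) B

theorem mem_box {B : ℕ} {z : V} : z ∈ box B ↔ |z.1| ≤ B ∧ |z.2| ≤ B := by
  simp [box, abs_le]

theorem card_box (B : ℕ) : (box B).card = (2 * B + 1) ^ 2 := by
  have : (Icc (-(B : ℤ)) B).card = 2 * B + 1 := by
    rw [Int.card_Icc]; omega
  rw [box, card_product, this, sq]

/-- An injective walk in `ℤ²` with steps in `[-D, D]²`. -/
structure Walk (D : ℕ) (X : ℕ → V) : Prop where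
  inj : Function.Injective X
  step : ∀ n, X (n + 1) - X n ∈ box D

/-- A residue map for every prime. -/
abbrev Res := (p : Pr) → V →+ ZMod p.1

/-- For `p ∈ P` the kernel of `ρ p` consists of points whose norm is divisible by `p`. -/
def NormDiv (ρ : Res) (P : Finset Pr) : Prop :=
  ∀ p ∈ P, ∀ z, ρ p z = 0 → (p.1 : ℤ) ∣ nrm z

/-- The main theorem: a walk cannot avoid one residue class modulo every `p ≡ 1 (mod 4)`. -/
def MainStmt : Prop :=
  ∀ (D : ℕ) (X : ℕ → V), Walk D X → ∀ ρ : Res,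
    (∀ p : Pr, p.1 % 4 = 1 → ∀ z, ρ p z = 0 → (p.1 : ℤ) ∣ nrm z) →
    ∀ c : (p : Pr) → ZMod p.1, ∃ p : Pr, p.1 % 4 = 1 ∧ ∃ n, ρ p (X n) = c p

/-- **2-RED (reduction).**
Proof. For `p ≡ 1 (4)` pick `ι_p` with `ι_p² = -1` (`ZMod.exists_sq_eq_neg_one_iff`), put
`ρ p (a, b) = a + b ι_p` (and `ρ p = 0` for the other primes). If `ρ p z = 0` then
`a² + b² = (a + bι)(a - bι) = 0` in `ZMod p`. If moreover `z = a + bi` is irreducible in `ℤ[i]`
(hence prime) then `N z ≤ p²`: `p ∣ z * star z`; `p` is not irreducible in `ℤ[i]`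
or directly: `ρ p` is a ring hom `ℤ[i] → ZMod p` whose kernel is a proper ideal containing `z`,
`span {z}` is maximal, so the kernel is `span {z}` and `z ∣ p`, so `N z ∣ p²`.
Suppose the claim fails for `D`; let `D' = ⌈D⌉₊`; adjacent vertices differ by an element of
`box D'`. For each `L` some component has more than `(2 D' L + 1)²` vertices (or infinitely many);
vertices at graph distance `≤ L` from a root `z₀` lie in `z₀ + box (D' L)`, so some vertex is at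
distance `> L`, and a shortest walk to it (`Reachable.exists_path_of_dist` /
`exists_walk_length_eq_dist`, `IsPath`) is an injective sequence `Y 0, …, Y L` of Gaussian primes
with steps in `box D'`. Given `k`, the points of norm `≤ k²` lie in `box k` (`F = (2k+1)²` of them);
cut a path of length `(k+1)(F+1)` into `F+1` disjoint pieces of `k+1` vertices; one piece has no
vertex in `box k`. So for every `k` there is `Y k : ℕ → V`, injective on `[0,k]` with steps in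
`box D'` there, and `ρ p (Y k n) ≠ 0` for all `n ≤ k`, `p ≤ k`, `p ≡ 1 (4)`. Take an ultrafilter
`U ≤ atTop` (`Filter.hyperfilter ℕ` or `Ultrafilter.of atTop`). For each `n`, `Y k n - Y k 0` lies in
the finite set `box (D' n)` for `k ≥ n`, so it is `U`-eventually a constant `X n`
(`Ultrafilter.finite_biUnion_mem_iff` / `Ultrafilter.eventually_exists_mem_iff`); likewise
`-ρ p (Y k 0)` is `U`-eventually a constant `c p`. Then `X` is a `Walk D'` and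
`ρ p (X n) ≠ c p` for all `n` and all `p ≡ 1 (4)`, contradicting `MainStmt`. -/
def RedStmt : Prop :=
  MainStmt → ∀ D : ℝ, ∃ B : ℕ,
    ∀ c : (Crest.NumberTheoryR.gaussianPrimeGraph D).ConnectedComponent,
      c.supp.Finite ∧ c.supp.ncard ≤ B

/-- **2-CROSS (discrete Poincaré–Miranda).**
Proof. Suppose `2L < |W i j .1| ∨ 2L < |W i j .2|` for all `i ≤ I`, `j ≤ J`. Put
`H w = if 0 ≤ w.2 then 1 else 0 : ℤ` and `c w w' = (H w' - H w) * (if 0 < w.1 + w'.1 then 1 else 0)`.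
For a unit square with values `w₁ = W i j, w₂ = W (i+1) j, w₃ = W (i+1) (j+1), w₄ = W i (j+1)`
(pairwise within `2L` in each coordinate): `c w₁ w₂ + c w₂ w₃ = c w₁ w₄ + c w₄ w₃`. Indeed if `H` is
constant on the four all terms vanish; otherwise one second coordinate is `≥ 0` and one is `< 0`,
so all four have `|w.2| ≤ 2L`, hence `|w.1| > 2L`, hence all four first coordinates have the same
sign and the indicator is the same in all four terms (`omega` after case splits).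
Let `φ i = ∑ j < J, c (W i j) (W i (j+1))`. Summing the square identity over `j < J`:
`φ (i+1) - φ i = c (W i J) (W (i+1) J) - c (W i 0) (W (i+1) 0) = 0` (`H = 1` on `j = 0`, `H = 0` on
`j = J`). But `φ 0 = 0` (first coordinates negative) and `φ I = H (W I J) - H (W I 0) = -1`. -/
def CrossStmt : Prop :=
  ∀ (W : ℕ → ℕ → V) (I J : ℕ) (L : ℤ),
    (∀ i < I, ∀ j ≤ J, |(W (i + 1) j).1 - (W i j).1| ≤ L ∧ |(W (i + 1) j).2 - (W i j).2| ≤ L) →
    (∀ i ≤ I, ∀ j < J, |(W i (j + 1)).1 - (W i j).1| ≤ L ∧ |(W i (j + 1)).2 - (W i j).2| ≤ L) →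
    (∀ i ≤ I, 0 ≤ (W i 0).2) → (∀ i ≤ I, (W i J).2 < 0) →
    (∀ j ≤ J, (W 0 j).1 < 0) → (∀ j ≤ J, 0 < (W I j).1) →
    ∃ i ≤ I, ∃ j ≤ J, |(W i j).1| ≤ 2 * L ∧ |(W i j).2| ≤ 2 * L

/-- **2-CHORD (discrete universal chord theorem; uses `CrossStmt`).**
Proof. Periodic extension: `Ã n = A (n % N) + (n / N) • (Q, 0)` for `n : ℕ` has steps `≤ L`
(at a wrap use `A N = A 0 + (Q, 0)`), and its second coordinate lies in `[lo, hi]`, the min and
max of `(A n).2` over `n < N`, attained at `nlo`, `nhi < N`. Let `B j` (`j ≤ J := N + nhi - nlo + 1`)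
be `Ã (nlo + j)` for `j < J` and `B J = B (J-1) + (0, L)` (one step above the top; note
`B (J-1) = Ã (nhi + N)` has height `hi`, and `L ≥ 1`). All first coordinates of `Ã n`, `n ≤ 2N`, are
bounded by some `T`. Choose `k₀ : ℤ` and `I = M N` with `M` large such that
`W i j = Ã i - B j - (θ + k₀ Q, 0)` has negative first coordinate at `i = 0` and positive at
`i = I` (`Ã (M N) = A 0 + (M Q, 0)`, `Q ≥ 1`). `(W i 0).2 = (Ã i).2 - lo ≥ 0`,
`(W i J).2 ≤ hi - hi - L < 0`. `CrossStmt` gives `i, j` with `|W i j| ≤ 2L`. If `j = J` replace it by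
`J - 1` (same first coordinate; the second coordinate becomes `(Ã i).2 - hi ∈ [-L, 0]`).
Finally `t = i % N`, `s = (nlo + j) % N`, `k = k₀ - i / N + (nlo + j) / N`. -/
def ChordStmt : Prop :=
  ∀ (A : ℕ → V) (N : ℕ) (L Q θ : ℤ), 1 ≤ N → 1 ≤ L → 1 ≤ Q →
    (∀ n < N, |(A (n + 1)).1 - (A n).1| ≤ L ∧ |(A (n + 1)).2 - (A n).2| ≤ L) →
    (A N).1 = (A 0).1 + Q → (A N).2 = (A 0).2 →
    ∃ s ≤ N, ∃ t ≤ N, ∃ k : ℤ,
      |(A t).1 - (A s).1 - θ - k * Q| ≤ 2 * L ∧ |(A t).2 - (A s).2| ≤ 2 * L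

/-- The law `G` of a pair of times in `[a, a + 2^(5r)]` whose displacement is dominated by averages
over arithmetic progressions of length `2^r` and difference `v`. -/
def GProp (X : ℕ → V) (K : ℝ) (r a : ℕ) (G : Ex (ℕ × ℕ)) (v : V) : Prop :=
  v ≠ 0 ∧ nrm v ≤ 2 ^ (3 * r) ∧
    G.AS (fun st => a ≤ st.1 ∧ st.1 ≤ a + 2 ^ (5 * r) ∧ a ≤ st.2 ∧ st.2 ≤ a + 2 ^ (5 * r)) ∧
    ∀ (Φ : V → ℝ) (M : ℝ), (∀ z, 0 ≤ Φ z) →
      (∀ x : V, ∑ i ∈ range (2 ^ r), Φ (x + i • v) ≤ 2 ^ r * M) →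
      G.E (fun st => Φ (X st.2 - X st.1)) ≤ K * M

/-- **2-STRIP (Dirichlet vector and lattice points in a strip).** Here `η z = q.1 z.2 - q.2 z.1`.
Proof. (a) The `(n+1)² > n²` points `w ∈ [0,n]²` have `η w ∈ [-2Rn·2, 2Rn·2]` (as `|q.i| ≤ 2R`,
`R = n²`); the map `w ↦ (η w + 4Rn) / (8 n + 1)` (integer division) takes values in `[0, n²)`
(since `8 R n < n² (8n+1)`), so two distinct points collide (pigeonhole); their difference `v` has
`v ∈ box n`, `|η v| ≤ 8 n`. (b) Say `R ≤ |q.1|` (else symmetric). For each of the `2T+1` values of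
`x.1`, two admissible values of `x.2` differ by at most `2cR / |q.1| ≤ 2c`, so there are at most
`2c + 1` of them (inject into an `Icc` of length `2c` starting at the minimum, or use
`x ↦ (x.1, (η x + cR) / R)`, injective into `Icc × [0, 2c]`). -/
def StripStmt : Prop :=
  (∀ (n : ℕ) (q : V), 1 ≤ n → q ∈ box (2 * n ^ 2) →
    ∃ v : V, v ≠ 0 ∧ v ∈ box n ∧ |q.1 * v.2 - q.2 * v.1| ≤ 8 * n) ∧
  (∀ (R T c : ℕ) (q : V), 1 ≤ R → q ∉ box (R - 1) →
    ((box T).filter (fun x => |q.1 * x.2 - q.2 * x.1| ≤ c * R)).card ≤ (2 * T + 1) * (2 * c + 1))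

/-- **2-G (differences of a walk look like progressions; uses `ChordStmt`, `StripStmt`).**
Proof. WLOG think of `D ≥ 1` (use `D + 1`; `box D ⊆ box (D+1)`). Let `n = 2^r`, `R = n²`,
`r₀` with `2^r₀ ≥ 100 (D+1)`. By injectivity some `N ≤ (2R+1)² ≤ 2^(5r)` has
`X (a+N) - X a ∉ box (R-1)`; take the least one (`N ≥ 1`), `q = X (a+N) - X a ∈ box (2R)`, and
`X (a+i) - X a ∈ box (2R)` for `i ≤ N`. Put `ξ z = q.1 z.1 + q.2 z.2`, `η z = q.1 z.2 - q.2 z.1`,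
`A i = (ξ (X (a+i)), η (X (a+i)))`, `L = 4RD`, `Q = nrm q ≥ R²`. `ChordStmt` with `θ = i R` gives,
for every `i`, times `σ i, τ i ∈ [a, a+N]` and `k i` such that `d i = X (τ i) - X (σ i) ∈ box (4R)`
has `|ξ (d i) - iR - k i Q| ≤ 8RD`, `|η (d i)| ≤ 8RD`. Let `G = (unif R).map (fun i => (σ i, τ i))`.
Multiplicity: for fixed `z`, `#{i < R | d i = z} ≤ 3 (16 D + 1) =: μ` (for such `i`,
`k i Q ∈ [ξ z - 8RD - Q, ξ z + 8RD]`, an interval of length `≤ 2Q`, so `k i` takes `≤ 3` values; for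
fixed `k` the numbers `iR` lie in an interval of length `16RD`). So with
`S = {z ∈ box (4R) | |η z| ≤ 8RD}`: `∑ i < R, Φ (d i) ≤ μ ∑ z ∈ S, Φ z`. Take `v` from
`StripStmt.1` and `S' = {x ∈ box (5R) | |η x| ≤ (8D+8) R}`; for `i < n` and `z ∈ S`,
`z - i • v ∈ S'`, so `n ∑ z ∈ S, Φ z ≤ ∑ i < n, ∑ x ∈ S', Φ (x + i • v) ≤ |S'| n M`, and
`|S'| ≤ (10R+1)(16D+17) ≤ 11 R (16D+17)` by `StripStmt.2` (`0 ≤ M` follows from the hypothesis).
`K = 33 (16D+1)(16D+17)`; `nrm v ≤ 2 n² ≤ 2^(3r)`. -/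
def GStmt : Prop :=
  ∀ D : ℕ, ∃ K : ℝ, 1 ≤ K ∧ ∃ r₀ : ℕ, ∀ X : ℕ → V, Walk D X → ∀ r, r₀ ≤ r → ∀ a : ℕ,
    ∃ (G : Ex (ℕ × ℕ)) (v : V), GProp X K r a G v

/-- **2-PRIMES (Chebyshev lower bound for primes `≡ 1 mod 4`).**
Proof. Let `χ = χ₄` (`χ n = 0, 1, 0, -1`), `T m = ∑_{k ≤ m} χ k ∈ {0, 1}`, `= 1` iff
`m % 4 ∈ {1, 2}`. From `log n = ∑_{d ∣ n} Λ d` (`ArithmeticFunction.vonMangoldt_sum`) and complete
multiplicativity: `∑_{n ≤ x} χ n log n = ∑_{d ≤ x} χ d Λ d T (x / d)`. The left side is an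
alternating sum of increasing terms: `|·| ≤ log x` (only `≥ -log x` is needed: group
`-log(4k+3) + log(4k+5) ≥ 0`). Hence with `S₁, S₃` the sums of `Λ d T (x/d)` over `d ≡ 1, 3 (4)`:
`S₁ ≥ S₃ - log x`, and `S₁ + S₃ ≥ ∑_{p odd prime, x/3 < p ≤ x} log p ≥ θ x - θ (x/3) - log 2`
(`x / p ∈ {1, 2}`). `Chebyshev.theta_ge`, `Chebyshev.theta_le_log4_mul_x`:
`θ x - θ (x/3) ≥ (log 2 / 3) x - o(x)`. And `S₁ ≤ θ(x; 4, 1) + (ψ x - θ x)`,
`Chebyshev.psi_sub_theta_le`. So `θ(x; 4, 1) ≥ x / 20` for `x ≥ x₀`, and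
`θ(x; 4, 1) ≤ π(x; 4, 1) log x`. Take `x = 2^(ℓ+γ)` with `2^γ ≥ max x₀ 20`, `log x ≤ ℓ + γ`. -/
def PrimesStmt : Prop :=
  ∃ γ : ℕ, ∀ ℓ : ℕ, ∃ P : Finset Pr,
    (∀ p ∈ P, p.1 % 4 = 1 ∧ p.1 ≤ 2 ^ (ℓ + γ)) ∧ 2 ^ ℓ ≤ (ℓ + γ) * P.card

/-- **2-CRT (period averages factor).** For distinct primes `p ∈ K` with `ρ p v ≠ 0`, and
`N = ∏ p`, the map `i ↦ (ρ p (x + i • v))_p` is a bijection `ZMod N ≃ Π p, ZMod p`
(`ZMod.prodEquivPi` or `Nat.chineseRemainderOfFinset`, or induction on `K`), so the sum over a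
full period is the product of the full sums (`Finset.prod_univ_sum` / `Fintype.piFinset`).
The function of `i` is `N`-periodic since `ρ p (N • v) = 0`. -/
def CrtStmt : Prop :=
  ∀ (K : Finset Pr) (ρ : Res) (F : (p : Pr) → ZMod p.1 → ℝ) (x v : V), (∀ p ∈ K, ρ p v ≠ 0) →
    ∑ i ∈ range (∏ p ∈ K, p.1), ∏ p ∈ K, F p (ρ p (x + i • v)) = ∏ p ∈ K, ∑ c, F p c

/-- **2-AP1 (products of densities along a progression; uses `CrtStmt`).**
Proof. Split `K` into good (`ρ p v ≠ 0`) and bad primes. For bad `p`, `Z p c ≤ ∑ Z p ≤ p`. The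
product over good primes is a nonnegative `N`-periodic function of `i` (`N = ∏ good p ≤ n`) with
period sum `≤ N` (`CrtStmt`, applied at the base point `x + (jN) • v` for the `j`-th block);
`range n ⊆ range ((n / N + 1) N)` and `(n / N + 1) N ≤ 2 n`. -/
def AP1Stmt : Prop :=
  ∀ (K : Finset Pr) (ρ : Res) (Z : (p : Pr) → ZMod p.1 → ℝ), (∀ p c, 0 ≤ Z p c) →
    (∀ p, ∑ c, Z p c ≤ p.1) → ∀ n : ℕ, ∏ p ∈ K, p.1 ≤ n → ∀ x v : V,
    ∑ i ∈ range n, ∏ p ∈ K, Z p (ρ p (x + i • v)) ≤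
      n * (2 * ∏ p ∈ K.filter (fun p => ρ p v = 0), (p.1 : ℝ))

/-- **2-AP2 (high moments along a progression; uses `CrtStmt`).**
Proof. Write the sum as `G' + G''` (good primes `P'` with `ρ p v ≠ 0`, bad primes), `|G''| ≤ β`,
`(a + b)^(2q) ≤ 2^(2q) (a^(2q) + b^(2q))`. Expand `G'^(2q) = ∑ τ : Fin (2q) → P', ∏ l, g (τ l) …`
(`Finset.sum_pow'` / `Finset.prod_univ_sum`). For a tuple `τ`, with `K = image τ`,
the term is `∏ p ∈ K, (g p ·)^(mult p)` (`Finset.prod_fiberwise`/`prod_comp`), `N`-periodic in `i`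
with `N = ∏ K ≤ 2^(2qL)` and bounded by `1`. If some prime has multiplicity one, every full period
sums to `0` (`CrtStmt`), so `|∑ i < n| ≤ N`; there are `≤ |P|^(2q) ≤ 2^(2qL)` tuples
(`|P| ≤ 2^L`: distinct numbers in `[1, 2^L]`), total `≤ 2^(4qL) ≤ n`. Otherwise `|image τ| ≤ q`
and `τ = e ∘ s` with `e : Fin q → P'`, `s : Fin (2q) → Fin q`: at most `|P|^q q^(2q) ≤ (Wq)^(2q)`
tuples, each contributing `≤ n`. Finally
`2^(2q) ((Wq)^(2q) + 1 + β^(2q)) ≤ (2 (Wq + 1 + β))^(2q)`. -/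
def AP2Stmt : Prop :=
  ∀ (P : Finset Pr) (ρ : Res) (g : (p : Pr) → ZMod p.1 → ℝ), (∀ p ∈ P, ∑ c, g p c = 0) →
    (∀ p ∈ P, ∀ c, |g p c| ≤ 1) → ∀ (L q n : ℕ) (W β : ℝ), (∀ p ∈ P, p.1 ≤ 2 ^ L) → 1 ≤ q →
    2 ^ (4 * q * L) ≤ n → 0 ≤ W → (P.card : ℝ) ≤ W ^ 2 → ∀ x v : V,
    ((P.filter (fun p => ρ p v = 0)).card : ℝ) ≤ β →
    ∑ i ∈ range n, (∑ p ∈ P, g p (ρ p (x + i • v))) ^ (2 * q) ≤
      n * (2 * (W * q + 1 + β)) ^ (2 * q)

end Crest.Agent.R2
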