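import Mathlib

/-!
Row 2 (Gaussian moat): abstract expectation functionals (linear, positive, unital).
No Fubini is available (or needed); everything is built from `bind`.
-/

set_option autoImplicit false

namespace Crest.Agent.R2

open Finset

/-- An expectation functional on `α`. -/
structure Ex (α : Type) where
  E : (α → ℝ) →ₗ[ℝ] ℝ
  pos : ∀ f : α → ℝ, (∀ x, 0 ≤ f x) → 0 ≤ E f
  one : E (fun _ => 1) = 1

namespace Ex

variable {α β γ : Type}

/-- `P` holds almost surely. -/
def AS (μ : Ex α) (P : α → Prop) : Prop :=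
  ∀ f : α → ℝ, (∀ x, P x → 0 ≤ f x) → 0 ≤ μ.E f

/-- Point mass. -/
def pure (a : α) : Ex α where
  E := LinearMap.proj a
  pos := fun _ h => h a
  one := rfl

/-- Composition of a law with a kernel. -/
def bind (μ : Ex α) (κ : α → Ex β) : Ex β where
  E := μ.E ∘ₗ LinearMap.pi (fun a => (κ a).E)
  pos := fun f h => μ.pos _ (fun a => (κ a).pos f h)
  one := by
    have : (LinearMap.pi (fun a => (κ a).E)) (fun _ => (1 : ℝ)) = fun _ => 1 := by
      funext a; exact (κ a).one
    simp only [LinearMap.comp_apply, this, μ.one]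

/-- Push-forward. -/
def map (μ : Ex α) (g : α → β) : Ex β := μ.bind (fun a => pure (g a))

/-- Independent pair. -/
def prod (μ : Ex α) (ν : Ex β) : Ex (α × β) := μ.bind (fun a => ν.map (fun b => (a, b)))

/-- Uniform law on `{0, …, n-1}` (the point mass at `0` if `n = 0`). -/
noncomputable def unif (n : ℕ) : Ex ℕ where
  E := if n = 0 then LinearMap.proj 0 else
    (n : ℝ)⁻¹ • ∑ i ∈ range n, (LinearMap.proj i : (ℕ → ℝ) →ₗ[ℝ] ℝ)
  pos := fun f h => by
    split_ifs with hn
    · exact h 0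
    · simp only [LinearMap.smul_apply, LinearMap.sum_apply, LinearMap.proj_apply, smul_eq_mul]
      exact mul_nonneg (by positivity) (sum_nonneg fun i _ => h i)
  one := by
    split_ifs with hn
    · rfl
    · simp only [LinearMap.smul_apply, LinearMap.sum_apply, LinearMap.proj_apply, smul_eq_mul]
      simp [hn]

/-- A fair coin between two points. -/
noncomputable def coin (a b : α) : Ex α where
  E :=
    { toFun := fun f => (f a + f b) / 2
      map_add' := fun f g => by simp only [Pi.add_apply]; ring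
      map_smul' := fun c f => by simp only [Pi.smul_apply, smul_eq_mul, RingHom.id_apply]; ring }
  pos := fun f h => by
    have := h a; have := h b
    show 0 ≤ (f a + f b) / 2
    positivity
  one := by
    show ((1 : ℝ) + 1) / 2 = 1
    norm_num

/-- `n` independent copies. -/
def pow (μ : Ex α) : (n : ℕ) → Ex (Fin n → α)
  | 0 => pure Fin.elim0
  | n + 1 => μ.bind (fun x => (pow μ n).map (fun w => Fin.cons x w))

@[simp] theorem pure_E (a : α) (f : α → ℝ) : (pure a).E f = f a := rfl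
@[simp] theorem bind_E (μ : Ex α) (κ : α → Ex β) (f : β → ℝ) :
    (μ.bind κ).E f = μ.E (fun a => (κ a).E f) := rfl
@[simp] theorem map_E (μ : Ex α) (g : α → β) (f : β → ℝ) :
    (μ.map g).E f = μ.E (fun a => f (g a)) := rfl
@[simp] theorem prod_E (μ : Ex α) (ν : Ex β) (f : α × β → ℝ) :
    (μ.prod ν).E f = μ.E (fun a => ν.E (fun b => f (a, b))) := rfl
@[simp] theorem coin_E (a b : α) (f : α → ℝ) : (coin a b).E f = (f a + f b) / 2 := rfl
theorem unif_E {n : ℕ} (hn : n ≠ 0) (f : ℕ → ℝ) :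
    (unif n).E f = (∑ i ∈ range n, f i) / n := by
  simp only [unif, if_neg hn, LinearMap.smul_apply, LinearMap.sum_apply, LinearMap.proj_apply,
    smul_eq_mul]
  ring
theorem pow_succ_E (μ : Ex α) (n : ℕ) (f : (Fin (n + 1) → α) → ℝ) :
    (μ.pow (n + 1)).E f = μ.E (fun x => (μ.pow n).E (fun w => f (Fin.cons x w))) := rfl
theorem bind_assoc (μ : Ex α) (κ : α → Ex β) (η : β → Ex γ) :
    (μ.bind κ).bind η = μ.bind (fun a => (κ a).bind η) := rfl
theorem pure_bind (a : α) (κ : α → Ex β) : (pure a).bind κ = κ a := rfl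

variable (μ : Ex α)

theorem E_add (f g : α → ℝ) : μ.E (fun x => f x + g x) = μ.E f + μ.E g := μ.E.map_add f g
theorem E_sub (f g : α → ℝ) : μ.E (fun x => f x - g x) = μ.E f - μ.E g := μ.E.map_sub f g
theorem E_neg (f : α → ℝ) : μ.E (fun x => -f x) = -μ.E f := μ.E.map_neg f
theorem E_mul_left (c : ℝ) (f : α → ℝ) : μ.E (fun x => c * f x) = c * μ.E f := μ.E.map_smul c f
theorem E_mul_right (f : α → ℝ) (c : ℝ) : μ.E (fun x => f x * c) = μ.E f * c := by
  rw [mul_comm, ← E_mul_left]; simp only [mul_comm]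
theorem E_div (f : α → ℝ) (c : ℝ) : μ.E (fun x => f x / c) = μ.E f / c := by
  simp only [div_eq_mul_inv]; exact E_mul_right μ f _
@[simp] theorem E_const (c : ℝ) : μ.E (fun _ => c) = c := by
  have := μ.E_mul_left c (fun _ => 1)
  simpa [μ.one] using this
theorem E_sum {ι : Type} (s : Finset ι) (f : ι → α → ℝ) :
    μ.E (fun x => ∑ i ∈ s, f i x) = ∑ i ∈ s, μ.E (f i) := by
  rw [← map_sum]; congr 1; funext x; simp

theorem AS_true : μ.AS (fun _ => True) := fun f h => μ.pos f (fun x => h x trivial)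
theorem AS_of_forall {P : α → Prop} (h : ∀ x, P x) : μ.AS P :=
  fun f hf => μ.pos f (fun x => hf x (h x))

variable {μ}

theorem AS.mono {P Q : α → Prop} (h : μ.AS P) (hPQ : ∀ x, P x → Q x) : μ.AS Q :=
  fun f hf => h f (fun x hx => hf x (hPQ x hx))

theorem AS.le {P : α → Prop} (h : μ.AS P) {f g : α → ℝ} (hfg : ∀ x, P x → f x ≤ g x) :
    μ.E f ≤ μ.E g := by
  have := h (fun x => g x - f x) (fun x hx => sub_nonneg.2 (hfg x hx))
  rw [E_sub] at this; linarith

theorem AS.congr {P : α → Prop} (h : μ.AS P) {f g : α → ℝ} (hfg : ∀ x, P x → f x = g x) :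
    μ.E f = μ.E g :=
  le_antisymm (h.le fun x hx => (hfg x hx).le) (h.le fun x hx => (hfg x hx).ge)

theorem AS.le_const {P : α → Prop} (h : μ.AS P) {f : α → ℝ} {c : ℝ} (hf : ∀ x, P x → f x ≤ c) :
    μ.E f ≤ c := by
  have := h.le (g := fun _ => c) hf; simpa using this

theorem AS.const_le {P : α → Prop} (h : μ.AS P) {f : α → ℝ} {c : ℝ} (hf : ∀ x, P x → c ≤ f x) :
    c ≤ μ.E f := by
  have := h.le (f := fun _ => c) hf; simpa using this

theorem AS.exists {P : α → Prop} (h : μ.AS P) : ∃ x, P x := by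
  by_contra hne
  have := h (fun _ => -1) (fun x hx => absurd ⟨x, hx⟩ hne)
  simp at this; linarith

theorem AS.and {P Q : α → Prop} (hP : μ.AS P) (hQ : μ.AS Q) : μ.AS (fun x => P x ∧ Q x) := by
  classical
  intro f hf
  have e : f = fun x => (if P x then f x else 0) + (if P x then 0 else f x) := by
    funext x; split_ifs <;> simp
  rw [e, E_add]
  have h1 : 0 ≤ μ.E (fun x => if P x then f x else 0) :=
    hQ _ (fun x hx => by split_ifs with h; exacts [hf x ⟨h, hx⟩, le_rfl])
  have h2 : 0 ≤ μ.E (fun x => if P x then 0 else f x) :=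
    hP _ (fun x hx => by rw [if_pos hx])
  linarith

theorem AS_pure {a : α} {P : α → Prop} (h : P a) : (pure a).AS P := fun _ hf => hf a h

theorem AS_bind {κ : α → Ex β} {P : α → Prop} {Q : β → Prop} (h : μ.AS P)
    (hκ : ∀ a, P a → (κ a).AS Q) : (μ.bind κ).AS Q :=
  fun f hf => h _ (fun a ha => hκ a ha f hf)

theorem AS_bind' {κ : α → Ex β} {Q : β → Prop} (hκ : ∀ a, (κ a).AS Q) : (μ.bind κ).AS Q :=
  AS_bind μ.AS_true (fun a _ => hκ a)

theorem AS_map {g : α → β} {Q : β → Prop} (h : μ.AS (fun a => Q (g a))) : (μ.map g).AS Q :=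
  fun _ hf => h _ (fun _ ha => hf _ ha)

theorem AS_prod {ν : Ex β} {P : α → Prop} {Q : β → Prop} (h : μ.AS P) (h' : ν.AS Q) :
    (μ.prod ν).AS (fun x => P x.1 ∧ Q x.2) :=
  AS_bind h (fun _ ha => AS_map (h'.mono fun _ hb => ⟨ha, hb⟩))

theorem AS_unif {n : ℕ} (hn : n ≠ 0) : (unif n).AS (fun i => i < n) := by
  intro f hf
  rw [unif_E hn]
  exact div_nonneg (sum_nonneg fun i hi => hf i (mem_range.1 hi)) (by positivity)

theorem AS_coin {a b : α} {P : α → Prop} (ha : P a) (hb : P b) : (coin a b).AS P := by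
  intro f hf
  rw [coin_E]; have := hf a ha; have := hf b hb; positivity

theorem AS_pow {P : α → Prop} (h : μ.AS P) (n : ℕ) : (μ.pow n).AS (fun w => ∀ i, P (w i)) := by
  induction n with
  | zero => exact AS_pure (fun i => i.elim0)
  | succ n ih =>
    refine AS_bind h (fun x hx => AS_map (ih.mono fun w hw i => ?_))
    refine Fin.cases ?_ (fun j => ?_) i
    · simpa using hx
    · simpa using hw j

variable (μ)

theorem mono {f g : α → ℝ} (h : ∀ x, f x ≤ g x) : μ.E f ≤ μ.E g :=
  μ.AS_true.le (fun x _ => h x)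
theorem le_const {f : α → ℝ} {c : ℝ} (h : ∀ x, f x ≤ c) : μ.E f ≤ c :=
  μ.AS_true.le_const (fun x _ => h x)
theorem const_le {f : α → ℝ} {c : ℝ} (h : ∀ x, c ≤ f x) : c ≤ μ.E f :=
  μ.AS_true.const_le (fun x _ => h x)

/-- Jensen for `log`, in the form that needs no positivity of `E f`. -/
theorem E_log_le {f : α → ℝ} (hf : ∀ x, 0 < f x) {c : ℝ} (hc : 0 < c) (h : μ.E f ≤ c) :
    μ.E (fun x => Real.log (f x)) ≤ Real.log c := by
  have h1 : μ.E (fun x => Real.log (f x)) ≤ μ.E (fun x => (Real.log c - 1) + f x / c) := by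
    refine μ.mono fun x => ?_
    have := Real.log_le_sub_one_of_pos (div_pos (hf x) hc)
    rw [Real.log_div (hf x).ne' hc.ne'] at this
    linarith
  rw [E_add, E_const, E_div] at h1
  have : μ.E f / c ≤ 1 := (div_le_one hc).2 h
  linarith

/-- Cauchy–Schwarz / Jensen for the square. -/
theorem sq_E_le (f : α → ℝ) : (μ.E f) ^ 2 ≤ μ.E (fun x => f x ^ 2) := by
  have h1 : μ.E (fun x => 2 * μ.E f * f x - (μ.E f) ^ 2) ≤ μ.E (fun x => f x ^ 2) :=
    μ.mono fun x => by nlinarith [sq_nonneg (f x - μ.E f)]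
  rw [E_sub, E_mul_left, E_const] at h1
  nlinarith

/-- Jensen for powers of a nonnegative function. -/
theorem pow_E_le {f : α → ℝ} (hf : ∀ x, 0 ≤ f x) (n : ℕ) :
    (μ.E f) ^ n ≤ μ.E (fun x => f x ^ n) := by
  rcases n with _ | n
  · simp
  set t := μ.E f with ht
  have ht0 : 0 ≤ t := μ.pos f hf
  have h1 : μ.E (fun x => t ^ (n + 1) + (n + 1) * t ^ n * (f x - t)) ≤
      μ.E (fun x => f x ^ (n + 1)) := by
    refine μ.mono fun x => ?_
    have hx := hf x
    induction n with
    | zero => simp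
    | succ k ih =>
      have h2 : (t ^ (k + 1) + (k + 1) * t ^ k * (f x - t)) * f x ≤ f x ^ (k + 1) * f x :=
        mul_le_mul_of_nonneg_right (by exact_mod_cast ih) hx
      have h3 : 0 ≤ ((k : ℝ) + 1) * t ^ k * (f x - t) ^ 2 := by positivity
      have e1 : t ^ (k + 1 + 1) = t ^ k * t * t := by ring
      have e2 : t ^ (k + 1) = t ^ k * t := by ring
      have e3 : f x ^ (k + 1 + 1) = f x ^ (k + 1) * f x := by ring
      rw [e3, e1]; rw [e2] at h2 ⊢
      push_cast
      nlinarith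
  rw [E_add, E_const, E_mul_left, E_sub, E_const, ← ht] at h1
  simpa using h1

/-- If the `2q`-th moment is at most `τ^(2q)` then the mean is at most `τ`. -/
theorem E_le_of_moment (f : α → ℝ) {q : ℕ} (hq : 1 ≤ q) {τ : ℝ} (hτ : 0 ≤ τ)
    (h : μ.E (fun x => f x ^ (2 * q)) ≤ τ ^ (2 * q)) : μ.E f ≤ τ := by
  have h1 : μ.E f ≤ μ.E (fun x => |f x|) := μ.mono fun x => le_abs_self _
  have h2 := μ.pow_E_le (f := fun x => |f x|) (fun x => abs_nonneg _) (2 * q)
  have h3 : (fun x => |f x| ^ (2 * q)) = fun x => f x ^ (2 * q) := by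
    funext x; rw [pow_mul, sq_abs, ← pow_mul]
  rw [h3] at h2
  have h4 : μ.E (fun x => |f x|) ≤ τ :=
    le_of_pow_le_pow_left₀ (by omega : 2 * q ≠ 0) hτ (h2.trans h)
  linarith

theorem pow_E_coord (n : ℕ) (i : Fin n) (f : α → ℝ) :
    (μ.pow n).E (fun w => f (w i)) = μ.E f := by
  induction n with
  | zero => exact i.elim0
  | succ n ih =>
    rw [pow_succ_E]
    refine Fin.cases ?_ (fun j => ?_) i
    · simp
    · simp [ih j]

theorem pow_E_sum (n : ℕ) (f : α → ℝ) :
    (μ.pow n).E (fun w => ∑ i, f (w i)) = n * μ.E f := by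
  rw [E_sum]; simp [pow_E_coord]

theorem pow_E_prod (n : ℕ) (f : α → ℝ) :
    (μ.pow n).E (fun w => ∏ i, f (w i)) = (μ.E f) ^ n := by
  induction n with
  | zero => simp [pow]
  | succ n ih =>
    rw [pow_succ_E]
    simp only [Fin.prod_univ_succ, Fin.cons_zero, Fin.cons_succ, E_mul_left, ih, E_mul_right]
    ring

/-- Second moment of a sum of independent copies. -/
theorem pow_E_sq_sum (n : ℕ) (f : α → ℝ) :
    (μ.pow n).E (fun w => (∑ i, f (w i)) ^ 2) =
      n * μ.E (fun x => f x ^ 2) + n * (n - 1) * (μ.E f) ^ 2 := by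
  induction n with
  | zero => simp [pow]
  | succ n ih =>
    rw [pow_succ_E]
    simp only [Fin.sum_univ_succ, Fin.cons_zero, Fin.cons_succ]
    have : ∀ x, (μ.pow n).E (fun w => (f x + ∑ i, f (w i)) ^ 2) =
        f x ^ 2 + (2 * n * μ.E f) * f x +
          (n * μ.E (fun x => f x ^ 2) + n * (n - 1) * (μ.E f) ^ 2) := by
      intro x
      have e : (fun w : Fin n → α => (f x + ∑ i, f (w i)) ^ 2) =
          fun w => f x ^ 2 + (2 * f x) * (∑ i, f (w i)) + (∑ i, f (w i)) ^ 2 := by
        funext w; ring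
      rw [e, E_add, E_add, E_const, E_mul_left, pow_E_sum, ih]; ring
    simp only [this]
    rw [E_add, E_add, E_const, E_mul_left]
    push_cast; ring

end Ex

end Crest.Agent.R2
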