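import Crest.Agent.R2.Stmts

set_option autoImplicit false

namespace Crest.Agent.R2

open Finset

namespace FL

theorem sum_shift {p : Pr} (F : ZMod p.1 → ℝ) (x : ZMod p.1) : ∑ c, F (x + c) = ∑ c, F c :=
  Fintype.sum_equiv (Equiv.addLeft x) _ _ fun _ => rfl

theorem sum_shift' {p : Pr} (F : ZMod p.1 → ℝ) (x : ZMod p.1) : ∑ c, F (c + x) = ∑ c, F c :=
  Fintype.sum_equiv (Equiv.addRight x) _ _ fun _ => rfl

theorem p_pos (p : Pr) : (0 : ℝ) < p.1 := by exact_mod_cast p.2.pos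

/-- the energy at level `i` -/
noncomputable def en (S : Sys) (ρ : Res) (P : Finset Pr) (f : (p : Pr) → ZMod p.1 → ℝ)
    (i a : ℕ) : ℝ :=
  ∑ p ∈ P, (∑ c, ((S.mu i a).E fun u => f p (ρ p (S.X u) + c)) ^ 2) / p.1

/-- normalised autocorrelation -/
noncomputable def g (f : (p : Pr) → ZMod p.1 → ℝ) (s : ℝ) (p : Pr) (x : ZMod p.1) : ℝ :=
  (∑ c, f p c * f p (c + x)) / (s * p.1)

theorem en_triv (S : Sys) (ρ : Res) (P : Finset Pr) (f : (p : Pr) → ZMod p.1 → ℝ) {s : ℝ}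
    (hf : ∀ p ∈ P, ∑ c, f p c ^ 2 ≤ s * p.1) (i a : ℕ) : en S ρ P f i a ≤ s * P.card := by
  rw [en, mul_comm, ← nsmul_eq_mul, ← sum_const]
  refine sum_le_sum fun p hp => ?_
  rw [div_le_iff₀ (p_pos p)]
  refine (sum_le_sum fun c _ => (S.mu i a).sq_E_le _).trans ?_
  rw [← Ex.E_sum]
  refine Ex.le_const _ fun u => ?_
  rw [sum_shift (fun c => f p c ^ 2)]
  exact hf p hp

theorem g_sum {f : (p : Pr) → ZMod p.1 → ℝ} {s : ℝ} {p : Pr} (h : ∑ c, f p c = 0) :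
    ∑ x, g f s p x = 0 := by
  simp only [g]
  rw [← sum_div, sum_comm]
  simp only [← mul_sum, sum_shift (f p), h, mul_zero, sum_const_zero, zero_div]

theorem g_abs {f : (p : Pr) → ZMod p.1 → ℝ} {s : ℝ} (hs : 0 < s) {p : Pr}
    (h : ∑ c, f p c ^ 2 ≤ s * p.1) (x : ZMod p.1) : |g f s p x| ≤ 1 := by
  have hp := mul_pos hs (p_pos p)
  rw [g, abs_div, abs_of_pos hp, div_le_one hp]
  refine (abs_sum_le_sum_abs _ _).trans ?_
  have : ∑ c, |f p c * f p (c + x)| ≤ ∑ c, (f p c ^ 2 + f p (c + x) ^ 2) / 2 := by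
    refine sum_le_sum fun c _ => ?_
    rw [abs_le]
    constructor <;> nlinarith [sq_nonneg (f p c + f p (c + x)), sq_nonneg (f p c - f p (c + x))]
  rw [← sum_div, sum_add_distrib, sum_shift' (fun c => f p c ^ 2)] at this
  linarith

theorem cross_eq (S : Sys) (ρ : Res) (P : Finset Pr) (f : (p : Pr) → ZMod p.1 → ℝ) {s : ℝ}
    (hs : 0 < s) (μ ν : Ex ℕ) :
    ∑ p ∈ P, (∑ c, (μ.E fun u => f p (ρ p (S.X u) + c)) * (ν.E fun u => f p (ρ p (S.X u) + c))) /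
      p.1 = s * μ.E fun u => ν.E fun w => ∑ p ∈ P, g f s p (ρ p (S.X w - S.X u)) := by
  simp only [Ex.E_sum, mul_sum]
  refine sum_congr rfl fun p _ => ?_
  have e0 : ∀ c, (μ.E fun u => f p (ρ p (S.X u) + c)) * (ν.E fun u => f p (ρ p (S.X u) + c)) =
      μ.E fun u => ν.E fun w => f p (ρ p (S.X u) + c) * f p (ρ p (S.X w) + c) := by
    intro c
    rw [← Ex.E_mul_right]
    congr 1
    funext u
    rw [Ex.E_mul_left]
  simp only [e0]
  rw [← Ex.E_sum, ← Ex.E_div, ← Ex.E_mul_left]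
  congr 1
  funext u
  rw [← Ex.E_sum, ← Ex.E_div, ← Ex.E_mul_left]
  congr 1
  funext w
  have := p_pos p
  rw [g, ← sum_shift (fun c => f p c * f p (c + ρ p (S.X w - S.X u))) (ρ p (S.X u))]
  have e : ∀ c, ρ p (S.X u) + c + ρ p (S.X w - S.X u) = ρ p (S.X w) + c := by
    intro c; rw [map_sub]; ring
  simp only [e]
  field_simp

theorem en_succ (S : Sys) (ρ : Res) (P : Finset Pr) (f : (p : Pr) → ZMod p.1 → ℝ) {s : ℝ}
    (hs : 0 < s) (i a : ℕ) :
    en S ρ P f (i + 1) a ≤ (S.St i a).E fun st =>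
      en S ρ P f i st.1 / 4 + en S ρ P f i st.2 / 4 + s / 2 *
        (S.mu i st.1).E fun u => (S.mu i st.2).E fun w =>
          ∑ p ∈ P, g f s p (ρ p (S.X w - S.X u)) := by
  have e : ∀ st : ℕ × ℕ, en S ρ P f i st.1 / 4 + en S ρ P f i st.2 / 4 + s / 2 *
        ((S.mu i st.1).E fun u => (S.mu i st.2).E fun w =>
          ∑ p ∈ P, g f s p (ρ p (S.X w - S.X u))) =
      ∑ p ∈ P, (∑ c, ((((S.mu i st.1).E fun u => f p (ρ p (S.X u) + c)) +
        ((S.mu i st.2).E fun u => f p (ρ p (S.X u) + c))) / 2) ^ 2) / (p.1 : ℝ) := by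
    intro st
    rw [div_mul_eq_mul_div, ← cross_eq S ρ P f hs, en, en, sum_div, sum_div, sum_div,
      ← sum_add_distrib, ← sum_add_distrib]
    refine sum_congr rfl fun p _ => ?_
    simp only [sum_div, ← sum_add_distrib]
    refine sum_congr rfl fun c _ => ?_
    ring
  simp only [e]
  rw [Ex.E_sum, en]
  refine sum_le_sum fun p _ => ?_
  rw [Ex.E_div, Ex.E_sum]
  refine div_le_div_of_nonneg_right (sum_le_sum fun c _ => ?_) (p_pos p).le
  exact (S.St i a).sq_E_le _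

theorem numer {t r r' q : ℕ} {W : ℝ} (ht : 100 ≤ t) (hr : r ≤ 2 ^ (160 * t)) (hr1 : 1 ≤ r)
    (hq : q ≤ r) (hq' : 16 * r' ≤ t * (2 * q)) (hW : 2 ^ (200 * t) ≤ W) :
    (2 : ℝ) ^ (16 * r') * (2 * (W * q + 1 + (3 * r : ℕ))) ^ (2 * q) ≤ (W ^ 2 / 4 ^ t) ^ (2 * q) := by
  have hW1 : (1 : ℝ) ≤ W := (one_le_pow₀ (by norm_num)).trans hW
  have h1 : (2 : ℝ) ^ (16 * r') ≤ (2 ^ t) ^ (2 * q) := by
    rw [← pow_mul]; exact pow_le_pow_right₀ (by norm_num) hq'
  refine (mul_le_mul_of_nonneg_right h1 (by positivity)).trans ?_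
  rw [← mul_pow]
  refine pow_le_pow_left₀ (by positivity) ?_ _
  rw [le_div_iff₀ (by positivity)]
  have hq1 : (q : ℝ) ≤ r := by exact_mod_cast hq
  have hr2 : (1 : ℝ) ≤ r := by exact_mod_cast hr1
  have hr3 : (r : ℝ) ≤ 2 ^ (160 * t) := by exact_mod_cast hr
  have h2 : W * q + 1 + (3 * r : ℕ) ≤ 5 * (W * r) := by
    push_cast
    nlinarith [mul_le_mul hW1 hr2 zero_le_one (zero_le_one.trans hW1),
      mul_le_mul_of_nonneg_left hq1 (zero_le_one.trans hW1),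
      mul_le_mul_of_nonneg_right hW1 (zero_le_one.trans hr2)]
  have h3 : (2 : ℝ) ^ t * 4 ^ t * 16 * 2 ^ (160 * t) ≤ 2 ^ (200 * t) := by
    rw [show (4 : ℝ) = 2 ^ 2 by norm_num, show (16 : ℝ) = 2 ^ 4 by norm_num, ← pow_mul,
      ← pow_add, ← pow_add, ← pow_add]
    exact pow_le_pow_right₀ (by norm_num) (by omega)
  calc (2 : ℝ) ^ t * (2 * (W * q + 1 + (3 * r : ℕ))) * 4 ^ t
      ≤ 2 ^ t * (2 * (8 * (W * 2 ^ (160 * t)))) * 4 ^ t := by
        gcongr
        refine h2.trans ?_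
        gcongr
        norm_num
    _ = W * (2 ^ t * 4 ^ t * 16 * 2 ^ (160 * t)) := by ring
    _ ≤ W * W := mul_le_mul_of_nonneg_left (h3.trans hW) (by positivity)
    _ = W ^ 2 := by ring

theorem cross_le (h : AP2Stmt) (S : Sys) (ρ : Res) (P : Finset Pr) (hP : NormDiv ρ P) (t i : ℕ)
    (ht : S.j0 ≤ t) (hi : 2 * t ≤ S.j0 + i) (hi' : S.j0 + i < 4 * t)
    (hp : ∀ p ∈ P, p.1 ≤ 2 ^ (1601 * t)) (hc : 2 ^ (400 * t) ≤ P.card)
    (γ : (p : Pr) → ZMod p.1 → ℝ) (h0 : ∀ p ∈ P, ∑ c, γ p c = 0)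
    (h1 : ∀ p ∈ P, ∀ c, |γ p c| ≤ 1) (a : ℕ) :
    ((S.G i a).E fun st => (S.mu i st.1).E fun u => (S.mu i st.2).E fun w =>
      ∑ p ∈ P, γ p (ρ p (S.X w - S.X u))) ≤ P.card / 4 ^ t := by
  have hj := S.hj0
  obtain ⟨r, hr⟩ : ∃ r, r = S.r (i + 1) := ⟨_, rfl⟩
  have r1 : 2 ^ 30 * (S.j0 + (i + 1)) ≤ r := hr ▸ S.lin_le_r (i + 1)
  have r2 : r = 2 ^ 40 * S.r i := hr ▸ S.r_succ i
  have r3 : r ≤ 2 ^ (160 * t) := by
    rw [hr, S.r_eq]; exact Nat.pow_le_pow_right (by norm_num) (by omega)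
  have r4 := S.lin_le_r i
  obtain ⟨q, hq⟩ : ∃ q, q = r / (4 * (1601 * t)) := ⟨_, rfl⟩
  have hL : 0 < 4 * (1601 * t) := by omega
  have q1 : 1 ≤ q := by rw [hq]; exact (Nat.le_div_iff_mul_le hL).2 (by omega)
  have q2 : q * (4 * (1601 * t)) ≤ r := by rw [hq]; exact Nat.div_mul_le_self _ _
  have q3 : r < (q + 1) * (4 * (1601 * t)) := by
    rw [hq]; exact (Nat.div_lt_iff_lt_mul hL).1 (Nat.lt_succ_self _)
  have q4 : q ≤ r := by rw [hq]; exact Nat.div_le_self _ _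
  have q5 : 16 * S.r i ≤ t * (2 * q) := by nlinarith
  obtain ⟨v0, v1, -, hG⟩ := S.hG' i a
  rw [← hr] at v1 hG
  let W : ℝ := √P.card
  have hW2 : W ^ 2 = P.card := Real.sq_sqrt (by positivity)
  have hW : 2 ^ (200 * t) ≤ W := by
    refine Real.le_sqrt_of_sq_le ?_
    rw [← pow_mul, show 200 * t * 2 = 400 * t by ring]
    exact_mod_cast hc
  let Γ : V → ℝ := fun z => ∑ p ∈ P, γ p (ρ p z)
  have hΓ : ∀ z, 0 ≤ Γ z ^ (2 * q) := fun z => by rw [pow_mul]; positivity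
  let M : ℝ := (2 * (W * q + 1 + (3 * r : ℕ))) ^ (2 * q)
  have hM : ∀ δ, (S.G i a).E (fun st => Γ (S.X st.2 - S.X st.1 + δ) ^ (2 * q)) ≤ S.K * M := by
    intro δ
    refine hG (fun z => Γ (z + δ) ^ (2 * q)) M (fun z => hΓ _) fun x => ?_
    have := h P ρ γ h0 h1 (1601 * t) q (2 ^ r) W (3 * r : ℕ) hp q1
      (Nat.pow_le_pow_right (by norm_num) (by nlinarith)) (by positivity) hW2.ge (x + δ) (S.v i a)
      (by exact_mod_cast hP.card_le v0 v1)
    push_cast at this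
    simp only [add_right_comm x _ δ]
    simpa only [M, Γ, Nat.cast_mul, Nat.cast_ofNat] using this
  refine ((S.G i a).bind fun st => (S.mu i st.1).prod (S.mu i st.2)).E_le_of_moment
    (fun uw => Γ (S.X uw.2 - S.X uw.1)) q1 (by positivity) ?_
  have b1 : ∀ st : ℕ × ℕ, ((S.mu i st.1).prod (S.mu i st.2)).E
      (fun uw => Γ (S.X uw.2 - S.X uw.1) ^ (2 * q)) ≤
      ∑ δ ∈ box (2 * S.rad i), Γ (S.X st.2 - S.X st.1 + δ) ^ (2 * q) := by
    intro st
    refine (Ex.AS_prod (S.mu_box i st.1) (S.mu_box i st.2)).le_const fun uw huw => ?_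
    have hδ := sub_mem_box huw.2 huw.1
    rw [← two_mul] at hδ
    have := single_le_sum (f := fun δ => Γ (S.X st.2 - S.X st.1 + δ) ^ (2 * q))
      (fun δ _ => hΓ _) hδ
    rw [show S.X uw.2 - S.X uw.1 =
      S.X st.2 - S.X st.1 + (S.X uw.2 - S.X st.2 - (S.X uw.1 - S.X st.1)) by abel]
    exact this
  refine ((S.G i a).mono b1).trans ?_
  rw [Ex.E_sum]
  refine (sum_le_sum fun δ _ => hM δ).trans ?_
  rw [sum_const, nsmul_eq_mul, ← hW2, ← mul_assoc]
  refine le_trans (mul_le_mul_of_nonneg_right ?_ (by positivity))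
    (numer (by omega) r3 (by omega) q4 q5 hW)
  have c1 : ((box (2 * S.rad i)).card : ℝ) ≤ 2 ^ (15 * S.r i) := by
    exact_mod_cast S.card_box_rad_le i
  have c2 : S.K ≤ 2 ^ S.r i := S.hK.trans (pow_le_pow_right₀ (by norm_num) (by omega))
  rw [show 16 * S.r i = 15 * S.r i + S.r i by ring, pow_add]
  exact mul_le_mul c1 c2 (zero_le_one.trans S.hK1) (by positivity)

end FL

open FL in
theorem flem (h : AP2Stmt) : FStmt := by
  intro S ρ P hP t i ht hi hp hc f s hs h0 h2 a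
  have key : ∀ k j, k ≤ 2 * t → S.j0 + j = 2 * t + k → ∀ a,
      en S ρ P f j a ≤ s * P.card / 2 ^ k + s * (P.card / 4 ^ t) := by
    intro k
    induction k with
    | zero =>
      intro j _ _ a
      have := en_triv S ρ P f h2 j a
      have : 0 ≤ s * (P.card / 4 ^ t) := by positivity
      simp only [pow_zero, div_one]
      linarith
    | succ k ih =>
      intro j hk hj a
      obtain ⟨j, rfl⟩ : ∃ j', j = j' + 1 := ⟨j - 1, by omega⟩
      refine (en_succ S ρ P f hs j a).trans ?_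
      rw [Ex.E_add, Ex.E_mul_left]
      have a1 : (S.St j a).E (fun st => en S ρ P f j st.1 / 4 + en S ρ P f j st.2 / 4) ≤
          (s * P.card / 2 ^ k + s * (P.card / 4 ^ t)) / 2 := by
        refine Ex.le_const _ fun st => ?_
        have := ih j (by omega) (by omega) st.1
        have := ih j (by omega) (by omega) st.2
        linarith
      have a2 : ((S.St j a).E fun st => (S.mu j st.1).E fun u => (S.mu j st.2).E fun w =>
          ∑ p ∈ P, g f s p (ρ p (S.X w - S.X u))) ≤ P.card / 4 ^ t := by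
        rw [S.St_eq, Ex.bind_E]
        exact Ex.le_const _ fun u => cross_le h S ρ P hP t j ht (by omega) (by omega) hp hc
          (g f s) (fun p hp => g_sum (h0 p hp)) (fun p hp => g_abs hs (h2 p hp)) _
      have a3 := mul_le_mul_of_nonneg_left a2 (show 0 ≤ s / 2 by positivity)
      rw [pow_succ, ← div_div]
      linarith
  have := key (2 * t) i le_rfl (by omega) a
  rw [pow_mul, show (2 : ℝ) ^ 2 = 4 by norm_num] at this
  refine this.trans (le_of_eq ?_)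
  ring

end Crest.Agent.R2
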