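import Crest.Agent.R2.Stmts

/-!
Row 2 (Gaussian moat): the main chain of objects and the entropy budget.
-/

set_option autoImplicit false

namespace Crest.Agent.R2

open Finset

namespace Sys

variable (S : Sys)

/-- The base object: a random shift and the steps of a window of the walk. -/
noncomputable def base : Obj where
  Δ := V × (Fin (S.nn 0) → V)
  S := box (S.rad 0) ×ˢ Fintype.piFinset (fun _ => box S.D)
  L a := (Ex.unif (2 ^ S.r 0)).map fun u =>
    (S.X (a + u) - S.X a, fun k => S.X (a + u + k + 1) - S.X (a + u + k))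
  hS a := Ex.AS_map ((Ex.AS_unif (by positivity)).mono fun u hu => by
    simp only [mem_product, Fintype.mem_piFinset]
    refine ⟨?_, fun k => S.walk.step _⟩
    rw [rad_eq]
    have : 2 ^ S.r 0 ≤ 2 ^ (7 * S.r 0) := Nat.pow_le_pow_right (by norm_num) (by omega)
    exact S.walk.sub_mem le_rfl (Nat.le_add_right _ _) (Nat.le_add_right _ _) (by omega))

/-- The main objects. -/
noncomputable def obj : ℕ → Obj
  | 0 => S.base
  | i + 1 => S.merge (obj i) i (S.b i)

/-- Partial sums of the steps. -/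
def psum {n : ℕ} (st : Fin n → V) (k : ℕ) : V :=
  ∑ l ∈ range k, if h : l < n then st ⟨l, h⟩ else 0

open Classical in
/-- The indicator that all leaves avoid `c₀` when the anchor has residue `y`. -/
noncomputable def av {p : Pr} (ρ : V →+ ZMod p.1) (c₀ : ZMod p.1) :
    (i : ℕ) → (S.obj i).Δ → ZMod p.1 → ℝ
  | 0 => fun (x : V × (Fin (S.nn 0) → V)) y =>
      if ∀ k < S.nn 0, y + ρ (x.1 + psum x.2 k) ≠ c₀ then 1 else 0
  | i + 1 => fun (x : V × V × (Fin (S.b i) → (S.obj i).Δ × (S.obj i).Δ)) y =>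
      ∏ k, av ρ c₀ i (x.2.2 k).1 (y + ρ x.1) * av ρ c₀ i (x.2.2 k).2 (y + ρ x.1 + ρ x.2.1)

theorem av_01 {p : Pr} (ρ : V →+ ZMod p.1) (c₀ : ZMod p.1) (i : ℕ) (x : (S.obj i).Δ)
    (y : ZMod p.1) : S.av ρ c₀ i x y = 0 ∨ S.av ρ c₀ i x y = 1 := by
  induction i generalizing y with
  | zero =>
    unfold av
    split_ifs <;> simp
  | succ i ih =>
    unfold av
    refine Finset.prod_induction _ (fun z : ℝ => z = 0 ∨ z = 1) ?_ (Or.inr rfl) ?_
    · rintro a b (rfl | rfl) (rfl | rfl) <;> simp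
    · intro k _
      rcases ih (x.2.2 k).1 (y + ρ x.1) with h | h <;>
        rcases ih (x.2.2 k).2 (y + ρ x.1 + ρ x.2.1) with h' | h' <;> simp [h, h']

theorem psum_steps (a : ℕ) {n k : ℕ} (hk : k ≤ n) :
    psum (fun l : Fin n => S.X (a + l + 1) - S.X (a + l)) k = S.X (a + k) - S.X a := by
  induction k with
  | zero => simp [psum]
  | succ k ih =>
    have := ih (by omega)
    unfold psum at this ⊢
    rw [sum_range_succ, this, dif_pos (by omega : k < n)]
    show S.X (a + k) - S.X a + (S.X (a + k + 1) - S.X (a + k)) = S.X (a + k + 1) - S.X a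
    abel

theorem E_av {p : Pr} (ρ : V →+ ZMod p.1) (c₀ : ZMod p.1) (i a : ℕ) (y : ZMod p.1) :
    ((S.obj i).L a).E (fun x => S.av ρ c₀ i x y) = S.miss ρ i a (c₀ - y + ρ (S.X a)) := by
  induction i generalizing a y with
  | zero =>
    rw [miss_zero]
    show (Ex.unif (2 ^ S.r 0)).E _ = _
    congr 1
    funext u
    show (S.av ρ c₀ 0 (S.X (a + u) - S.X a, fun k => S.X (a + u + k + 1) - S.X (a + u + k)) y) = _
    unfold av
    refine if_congr (forall_congr' fun k => forall_congr' fun hk => ?_) rfl rfl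
    simp only
    rw [S.psum_steps (a + u) hk.le,
      show S.X (a + u) - S.X a + (S.X (a + u + k) - S.X (a + u)) = S.X (a + u + k) - S.X a by abel,
      map_sub]
    constructor
    · intro h e; apply h; rw [e]; ring
    · intro h e; apply h; rw [← e]; ring
  | succ i ih =>
    rw [miss_succ]
    refine (S.merge_E (S.obj i) i (S.b i) a (fun x => S.av ρ c₀ (i + 1) x y)).trans ?_
    congr 1
    funext st
    have h1 := Ex.pow_E_prod (((S.obj i).L st.1).prod ((S.obj i).L st.2)) (S.b i)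
      (fun z => S.av ρ c₀ i z.1 (y + ρ (S.X st.1 - S.X a)) *
        S.av ρ c₀ i z.2 (y + ρ (S.X st.1 - S.X a) + ρ (S.X st.2 - S.X st.1)))
    refine Eq.trans ?_ (h1.trans ?_)
    · rfl
    · congr 1
      rw [Ex.prod_E]
      simp only [Ex.E_mul_left, Ex.E_mul_right, ih, map_sub]
      congr 2 <;> ring

theorem miss_eq_one {p : Pr} (ρ : V →+ ZMod p.1) (c₀ : ZMod p.1) (h : ∀ n, ρ (S.X n) ≠ c₀)
    (i a : ℕ) : S.miss ρ i a c₀ = 1 := by
  induction i generalizing a with
  | zero =>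
    rw [miss_zero]
    simp [h]
  | succ i ih =>
    rw [miss_succ]
    simp [ih]

theorem log_two_ge : (0.69 : ℝ) ≤ Real.log 2 := by linarith [Real.log_two_gt_d9]

/-- Coverage gives the initial score of a block. -/
theorem score_start (api : CodeAPI) (cov : CovStmt) (ρ : Res) (P : Finset Pr) (hP : NormDiv ρ P)
    (c : (p : Pr) → ZMod p.1) (hc : ∀ p ∈ P, ∀ n, ρ p (S.X n) ≠ c p) (t i : ℕ) (h1 : S.j0 ≤ t)
    (h2 : t ≤ 2 ^ S.j0) (h3 : S.j0 + i + 17 = 40 * t) (h4 : ∀ p ∈ P, p.1 ≤ 2 ^ (1600 * t + S.γ))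
    (h5 : 2 ^ (1500 * t) ≤ P.card) (ν : Ex ℕ) : S.Score ρ P (S.obj i) ν (t / 10) := by
  classical
  have ht : 100 ≤ t := S.hj0.trans h1
  have hθ : (8 : ℝ) / 2 ^ t ≤ 1 := by
    rw [div_le_one (by positivity)]
    calc (8 : ℝ) = 2 ^ 3 := by norm_num
      _ ≤ 2 ^ t := pow_le_pow_right₀ (by norm_num) (by omega)
  have hind : ∀ (p : Pr) (x : (S.obj i).Δ) (y : ZMod p.1),
      (if y ∈ univ.filter (fun y => S.av (ρ p) (c p) i x y = 1) then (1 : ℝ) else 0) =
        S.av (ρ p) (c p) i x y := by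
    intro p x y
    rcases S.av_01 (ρ p) (c p) i x y with h | h <;> simp [h]
  have key := api.set_score S ρ P (S.obj i) ν
    (fun p x => univ.filter (fun y => S.av (ρ p) (c p) i x y = 1)) 1 (4 / 2 ^ t) (8 / 2 ^ t)
    (by positivity) hθ ?_ ?_
  · refine api.score_mono S ρ P _ ν _ _ ?_ key
    have e1 : (1 : ℝ) - 4 / 2 ^ t / (8 / 2 ^ t) = 1 / 2 := by field_simp; norm_num
    have e2 : Real.log (1 / (8 / 2 ^ t)) = (t - 3) * Real.log 2 := by
      rw [one_div_div, Real.log_div (by positivity) (by norm_num), Real.log_pow,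
        show (8 : ℝ) = 2 ^ 3 by norm_num, Real.log_pow]
      push_cast; ring
    rw [e1, e2]
    have := log_two_ge
    have ht' : (100 : ℝ) ≤ t := by exact_mod_cast ht
    nlinarith
  · rw [one_mul, card_eq_sum_ones, Nat.cast_sum]
    refine sum_le_sum fun p hp => ?_
    simp only [hind, E_av, sub_add_cancel, S.miss_eq_one (ρ p) (c p) (hc p hp)]
    simp
  · have e : ∀ (p : Pr) (a : ℕ), ((S.obj i).L a).E (fun x =>
        ((univ.filter (fun y => S.av (ρ p) (c p) i x y = 1)).card : ℝ) / p.1) =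
        (∑ c', S.miss (ρ p) i a c') / p.1 := by
      intro p a
      rw [Ex.E_div]
      congr 1
      have : ∀ x : (S.obj i).Δ, ((univ.filter (fun y => S.av (ρ p) (c p) i x y = 1)).card : ℝ) =
          ∑ y, S.av (ρ p) (c p) i x y := by
        intro x
        rw [← sum_congr rfl (fun y _ => hind p x y)]
        simp
      simp only [this]
      rw [Ex.E_sum]
      simp only [E_av]
      exact Fintype.sum_equiv ((Equiv.subLeft (c p)).trans (Equiv.addRight (ρ p (S.X a)))) _ _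
        (fun y => rfl)
    simp only [e]
    rw [← Ex.E_sum]
    refine Ex.le_const _ fun a => (cov S ρ P hP t i h1 h2 h3 h4 h5 a).trans (le_of_eq ?_)
    ring

/-- The constant `K₁`. -/
noncomputable def K1 : ℝ := 2 ^ (682 + S.γ)

theorem K1_ge : 2000 ≤ S.K1 := by
  unfold K1
  calc (2000 : ℝ) ≤ 2 ^ 11 := by norm_num
    _ ≤ _ := pow_le_pow_right₀ (by norm_num) (by omega)

theorem nn_lower (i : ℕ) : S.K1 * (S.j0 + i) * S.r i ≤ S.nn i := by
  rw [nn_eq]
  have h : ((S.j0 + i : ℕ) : ℝ) ≤ ((2 ^ Nat.clog 2 (S.j0 + i) : ℕ) : ℝ) := by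
    exact_mod_cast S.le_two_pow_clog i
  unfold K1
  push_cast at h ⊢
  gcongr

theorem nn_upper (i : ℕ) : (S.nn i : ℝ) ≤ S.K1 * (2 * (S.j0 + i)) * S.r i := by
  rw [nn_eq]
  have h : ((2 ^ Nat.clog 2 (S.j0 + i) : ℕ) : ℝ) ≤ ((2 * (S.j0 + i) : ℕ) : ℝ) := by
    exact_mod_cast S.two_pow_clog_le i
  unfold K1
  push_cast at h ⊢
  gcongr

/-- One level of the budget, per leaf. -/
theorem budget_step (api : CodeAPI) {ν : ℕ → Ex ℕ} {J : ℕ} (hν : S.Chain ν J) {i : ℕ}
    (hi : i < J) {h g G κ : ℝ} (hc : (S.obj i).Cost (ν i) (S.nn i * h))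
    (hg : S.Gain (S.obj i) i (ν (i + 1)) g) (hG : 2 * S.nn i * G ≤ g)
    (hκ : 30 / (S.K1 * (S.j0 + i)) ≤ κ) :
    (S.obj (i + 1)).Cost (ν (i + 1)) (S.nn (i + 1) * (h + κ - G)) := by
  rw [hν i hi] at hc
  refine api.cost_mono _ _ _ _ ?_ (api.cost_merge S _ i (S.b i) _ _ (hg _ hc))
  have h1 := S.nn_lower (i + 1)
  have h2 : (S.nn (i + 1) : ℝ) = 2 * S.b i * S.nn i := by exact_mod_cast S.nn_succ i
  have hK := S.K1_ge
  have hj : (100 : ℝ) ≤ S.j0 := by exact_mod_cast S.hj0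
  have hpos : 0 < S.K1 * (S.j0 + i) := by positivity
  have h3 : 30 * (S.r (i + 1) : ℝ) ≤ S.nn (i + 1) * κ := by
    have h4 : S.K1 * (S.j0 + i) * S.r (i + 1) ≤ S.nn (i + 1) := by
      refine le_trans ?_ h1
      push_cast
      gcongr
      linarith
    rw [div_le_iff₀ hpos] at hκ
    have hκ0 : 0 ≤ κ := by
      by_contra hneg
      have : κ * (S.K1 * (S.j0 + i)) < 0 := mul_neg_of_neg_of_pos (not_le.1 hneg) hpos
      linarith
    calc 30 * (S.r (i + 1) : ℝ) ≤ κ * (S.K1 * (S.j0 + i)) * S.r (i + 1) := by gcongr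
      _ = κ * (S.K1 * (S.j0 + i) * S.r (i + 1)) := by ring
      _ ≤ κ * S.nn (i + 1) := by gcongr
      _ = _ := by ring
  have h5 : (S.b i : ℝ) * (2 * S.nn i * G) ≤ S.b i * g := by gcongr
  rw [h2] at h3 ⊢
  nlinarith

theorem budget_steps (api : CodeAPI) {ν : ℕ → Ex ℕ} {J : ℕ} (hν : S.Chain ν J) {i : ℕ} {h κ : ℝ}
    (hc : (S.obj i).Cost (ν i) (S.nn i * h)) (hκ : 30 / (S.K1 * (S.j0 + i)) ≤ κ) (m : ℕ)
    (hm : i + m ≤ J) : (S.obj (i + m)).Cost (ν (i + m)) (S.nn (i + m) * (h + m * κ)) := by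
  induction m with
  | zero => simpa using hc
  | succ m ih =>
    have hK := S.K1_ge
    have hj : (100 : ℝ) ≤ S.j0 := by exact_mod_cast S.hj0
    have := S.budget_step api hν (i := i + m) (by omega) (G := 0) (κ := κ) (ih (by omega))
      (api.gain_zero S _ _ _) (by simp) (le_trans (by push_cast; gcongr; linarith) hκ)
    rw [show h + ((m + 1 : ℕ) : ℝ) * κ = h + m * κ + κ - 0 by push_cast; ring]
    exact this

/-- Forty levels with one gain. -/
theorem budget_block (api : CodeAPI) {ν : ℕ → Ex ℕ} {J : ℕ} (hν : S.Chain ν J) {i t : ℕ}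
    (ht : S.j0 + i + 17 = 40 * t) (hJ : i + 40 ≤ J) {h : ℝ}
    (hc : (S.obj i).Cost (ν i) (S.nn i * h)) {j : ℕ} (h1 : i ≤ j) (h2 : j < i + 16)
    (hg : S.Gain (S.obj j) j (ν (j + 1)) (S.r (j + 1) / 2 ^ 18)) :
    (S.obj (i + 40)).Cost (ν (i + 40)) (S.nn (i + 40) * (h - 1 / (S.K1 * t))) := by
  obtain ⟨m, rfl⟩ := Nat.exists_eq_add_of_le h1
  have hK := S.K1_ge
  have hj0 := S.hj0
  have ht1 : (1 : ℝ) ≤ t := by exact_mod_cast (by omega : 1 ≤ t)
  have hti : (S.j0 : ℝ) + i + 17 = 40 * t := by exact_mod_cast ht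
  have hm : (m : ℝ) < 16 := by exact_mod_cast (by omega : m < 16)
  have hm0 : (0 : ℝ) ≤ m := Nat.cast_nonneg m
  have hκ : ∀ k : ℕ, 30 / (S.K1 * (S.j0 + (i + k : ℕ))) ≤ 2 / (S.K1 * t) := by
    intro k
    have hk : (0 : ℝ) ≤ k := Nat.cast_nonneg k
    rw [div_le_div_iff₀ (by push_cast; nlinarith) (by positivity)]
    push_cast
    nlinarith
  have c1 := S.budget_steps api hν hc (by simpa using hκ 0) m (by omega)
  have c2 := S.budget_step api hν (i := i + m) (by omega) (G := 100 / (S.K1 * t)) c1 hg ?_ (hκ m)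
  · have c3 := S.budget_steps api hν c2 (κ := 2 / (S.K1 * t))
      (by rw [add_assoc]; exact hκ (m + 1)) (39 - m) (by omega)
    rw [show i + m + 1 + (39 - m) = i + 40 by omega] at c3
    refine api.cost_mono _ _ _ _ ?_ c3
    have hn : (0 : ℝ) ≤ S.nn (i + 40) := Nat.cast_nonneg _
    refine mul_le_mul_of_nonneg_left ?_ hn
    rw [Nat.cast_sub (by omega)]
    have hu : 0 < 1 / (S.K1 * t) := by positivity
    have e1 : 2 / (S.K1 * t) = 2 * (1 / (S.K1 * t)) := by ring
    have e2 : 100 / (S.K1 * t) = 100 * (1 / (S.K1 * t)) := by ring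
    rw [e1, e2]
    push_cast
    nlinarith
  · have h3 := S.nn_upper (i + m)
    have h4 : (S.r (i + m + 1) : ℝ) = 2 ^ 40 * S.r (i + m) := by exact_mod_cast S.r_succ (i + m)
    have hr : (0 : ℝ) ≤ S.r (i + m) := Nat.cast_nonneg _
    have h5 : (S.nn (i + m) : ℝ) ≤ S.K1 * t * (80 * S.r (i + m)) := by
      refine h3.trans ?_
      push_cast
      have : S.K1 * (2 * (S.j0 + (i + m))) ≤ S.K1 * t * 80 := by nlinarith
      nlinarith
    rw [h4, ← mul_div_assoc, div_le_iff₀ (by positivity)]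
    nlinarith

theorem cost_base (api : CodeAPI) (ν : Ex ℕ) :
    (S.obj 0).Cost ν (S.nn 0 * (1 + Real.log (box S.D).card)) := by
  refine api.cost_mono _ _ _ _ ?_ (api.cost_unif _ ν)
  have e : (S.obj 0).S.card = (box (S.rad 0)).card * (box S.D).card ^ S.nn 0 := by
    show (box (S.rad 0) ×ˢ Fintype.piFinset (fun _ : Fin (S.nn 0) => box S.D)).card = _
    rw [card_product, Fintype.card_piFinset]
    simp
  have p1 : (0 : ℝ) < (box (S.rad 0)).card := by rw [card_box]; positivity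
  have p2 : (0 : ℝ) < (box S.D).card := by rw [card_box]; positivity
  rw [e]
  push_cast
  rw [Real.log_mul p1.ne' (by positivity), Real.log_pow]
  have h1 := S.log_card_box_rad_le 0
  have h2 := S.nn_lower 0
  have hK := S.K1_ge
  have hj : (100 : ℝ) ≤ S.j0 := by exact_mod_cast S.hj0
  have hr : (0 : ℝ) ≤ S.r 0 := Nat.cast_nonneg _
  have h3 : 15 * (S.r 0 : ℝ) ≤ S.nn 0 := by
    refine le_trans ?_ h2
    push_cast
    gcongr
    nlinarith
  linarith

/-- The contradiction for a system whose walk avoids a class modulo every `p ≡ 1 (mod 4)`. -/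
theorem not_avoid (api : CodeAPI) (blk : BlockStmt) (cov : CovStmt) (ρ : Res)
    (hρ : ∀ p : Pr, p.1 % 4 = 1 → ∀ z, ρ p z = 0 → (p.1 : ℤ) ∣ nrm z)
    (c : (p : Pr) → ZMod p.1) (hc : ∀ p : Pr, p.1 % 4 = 1 → ∀ n, ρ p (S.X n) ≠ c p)
    (hpr : ∀ ℓ : ℕ, ∃ P : Finset Pr,
      (∀ p ∈ P, p.1 % 4 = 1 ∧ p.1 ≤ 2 ^ (ℓ + S.γ)) ∧ 2 ^ ℓ ≤ (ℓ + S.γ) * P.card)
    (M : ℕ) (hM1 : 1 ≤ M) (hM : M * S.j0 ≤ 2 ^ S.j0)
    (hM2 : S.K1 * (2 + Real.log (box S.D).card) < Real.log M) : False := by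
  have hj0 := S.hj0
  have hγ := S.hγ
  have hK := S.K1_ge
  have hj : (100 : ℝ) ≤ S.j0 := by exact_mod_cast S.hj0
  obtain ⟨i0, hi0⟩ : ∃ i0, i0 + 17 = 39 * S.j0 := ⟨39 * S.j0 - 17, by omega⟩
  obtain ⟨s1, hs1⟩ : ∃ s1, S.j0 + s1 = M * S.j0 :=
    ⟨M * S.j0 - S.j0, by have := Nat.mul_le_mul_right S.j0 hM1; omega⟩
  obtain ⟨ν, -, hν⟩ := S.exists_chain (i0 + 40 * s1) 0
  have main : ∀ s ≤ s1, (S.obj (i0 + 40 * s)).Cost (ν (i0 + 40 * s)) (S.nn (i0 + 40 * s) *
      (2 + Real.log (box S.D).card - (Real.log (S.j0 + s) - Real.log S.j0) / S.K1)) := by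
    intro s hs
    induction s with
    | zero =>
      have c1 := S.budget_steps api hν (S.cost_base api (ν 0)) le_rfl i0 (by omega)
      rw [zero_add] at c1
      simp only [mul_zero, add_zero, Nat.cast_zero, sub_self, zero_div, sub_zero] at c1 ⊢
      refine api.cost_mono _ _ _ _ (mul_le_mul_of_nonneg_left ?_ (Nat.cast_nonneg _)) c1
      have hi : (i0 : ℝ) + 17 = 39 * S.j0 := by exact_mod_cast hi0
      have : (i0 : ℝ) * (30 / (S.K1 * S.j0)) ≤ 1 := by
        rw [← mul_div_assoc, div_le_one (by positivity)]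
        nlinarith
      linarith
    | succ s ih =>
      have c1 := ih (by omega)
      set t := S.j0 + s with ht
      obtain ⟨P, hP1, hP2⟩ := hpr (1600 * t)
      have hND : NormDiv ρ P := fun p hp => hρ p (hP1 p hp).1
      have hlev : S.j0 + (i0 + 40 * s) + 17 = 40 * t := by omega
      have hP3 : 2 ^ (1600 * t) ≤ 1601 * t * P.card :=
        hP2.trans (Nat.mul_le_mul_right _ (by omega))
      have hP4 : 2 ^ (1500 * t) ≤ P.card := by
        have h1 : 1601 * t ≤ 2 ^ (100 * t) := by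
          have h2 : t ≤ 2 ^ t := Nat.lt_two_pow_self.le
          calc 1601 * t ≤ 2 ^ 11 * 2 ^ t := Nat.mul_le_mul (by norm_num) h2
            _ = 2 ^ (11 + t) := by rw [← pow_add]
            _ ≤ _ := Nat.pow_le_pow_right (by norm_num) (by omega)
        have h3 : 2 ^ (100 * t) * 2 ^ (1500 * t) ≤ 2 ^ (100 * t) * P.card := by
          rw [← pow_add, show 100 * t + 1500 * t = 1600 * t by ring]
          exact hP3.trans (Nat.mul_le_mul_right _ h1)
        exact Nat.le_of_mul_le_mul_left h3 (by positivity)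
      have hsc := S.score_start api cov ρ P hND c (fun p hp => hc p (hP1 p hp).1) t (i0 + 40 * s)
        (by omega) (by omega) hlev (fun p hp => (hP1 p hp).2) hP4 (ν (i0 + 40 * s))
      have hr : 120 * S.r (i0 + 40 * s + 16) ≤ t * P.card := by
        have h1 : 2 ^ 40 * S.r (i0 + 40 * s + 16) = 2 ^ (1600 * t) := by
          rw [r_eq, ← pow_add]; congr 1; omega
        have h2 : 1601 * (120 * S.r (i0 + 40 * s + 16)) ≤ 1601 * (t * P.card) := by
          rw [← mul_assoc 1601 t]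
          refine le_trans ?_ hP3
          rw [← h1, ← mul_assoc]
          exact Nat.mul_le_mul_right _ (by norm_num)
        exact Nat.le_of_mul_le_mul_left h2 (by norm_num)
      obtain ⟨j, hj1, hj2, hg⟩ := blk S ρ P hND t (i0 + 40 * s) (by omega) (by omega)
        (fun p hp => (hP1 p hp).2.trans (Nat.pow_le_pow_right (by norm_num) (by omega))) hr
        S.obj S.b ν (fun i _ hi => ⟨S.b_pos i, rfl, hν i (by omega)⟩) hsc
      have c2 := S.budget_block api hν hlev (by omega) c1 hj1 hj2 hg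
      rw [show i0 + 40 * (s + 1) = i0 + 40 * s + 40 by ring]
      refine api.cost_mono _ _ _ _ (mul_le_mul_of_nonneg_left ?_ (Nat.cast_nonneg _)) c2
      have ht' : (t : ℝ) = S.j0 + s := by rw [ht]; push_cast; ring
      have htpos : (0 : ℝ) < t := by rw [ht']; positivity
      have hl : Real.log (t + 1) - Real.log t ≤ 1 / t := by
        rw [← Real.log_div (by positivity) htpos.ne']
        refine (Real.log_le_sub_one_of_pos (by positivity)).trans (le_of_eq ?_)
        field_simp; ring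
      have e1 : (S.j0 : ℝ) + ((s + 1 : ℕ) : ℝ) = t + 1 := by rw [ht']; push_cast; ring
      rw [e1, ← ht']
      have e2 : 1 / (S.K1 * t) = 1 / t / S.K1 := by field_simp
      have h3 : (Real.log (t + 1) - Real.log t) / S.K1 ≤ 1 / t / S.K1 := by gcongr
      have e3 : (Real.log (t + 1) - Real.log S.j0) / S.K1 =
          (Real.log t - Real.log S.j0) / S.K1 + (Real.log (t + 1) - Real.log t) / S.K1 := by ring
      rw [e2, e3]
      linarith
  have fin := api.cost_nonneg _ _ _ (main s1 le_rfl)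
  have e1 : (S.j0 : ℝ) + s1 = M * S.j0 := by exact_mod_cast hs1
  have hM0 : (0 : ℝ) < M := by exact_mod_cast hM1
  rw [e1, Real.log_mul hM0.ne' (by positivity), add_sub_cancel_right] at fin
  have hn : (0 : ℝ) < S.nn (i0 + 40 * s1) := by exact_mod_cast S.nn_pos _
  have h2 : 2 + Real.log (box S.D).card - Real.log M / S.K1 < 0 := by
    rw [sub_neg, lt_div_iff₀ (by positivity)]
    linarith
  nlinarith

end Sys

theorem main_of (hG : GStmt) (hP : PrimesStmt) (api : CodeAPI) (blk : BlockStmt) (cov : CovStmt) :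
    MainStmt := by
  intro D X hX ρ hρ c
  by_contra hne
  have hc : ∀ p : Pr, p.1 % 4 = 1 → ∀ n, ρ p (X n) ≠ c p := fun p hp n e => hne ⟨p, hp, n, e⟩
  obtain ⟨K, hK1, r₀, hK⟩ := hG D
  obtain ⟨γ, hγ⟩ := hP
  obtain ⟨M, hM⟩ := exists_nat_gt
    (Real.exp ((2 : ℝ) ^ (682 + γ) * (2 + Real.log (box D).card)))
  have hM0 : (0 : ℝ) < M := (Real.exp_pos _).trans hM
  have hM1 : 1 ≤ M := by exact_mod_cast hM0
  obtain ⟨j0, hj0⟩ : ∃ j0, j0 = 100 + D + ⌈K⌉₊ + γ + r₀ + M := ⟨_, rfl⟩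
  have hj : j0 ≤ 2 ^ j0 := Nat.lt_two_pow_self.le
  have hr : ∀ i, r₀ ≤ 2 ^ (40 * (j0 + (i + 1))) := fun i =>
    le_trans (by omega) (hj.trans (Nat.pow_le_pow_right (by norm_num) (by omega)))
  choose G v hGv using fun i a => hK X hX _ (hr i) a
  let S : Sys :=
    { D := D, X := X, walk := hX, K := K, j0 := j0, γ := γ, G := G, v := v
      hj0 := by omega
      hD := by omega
      hK1 := hK1
      hK := by
        have h1 : K ≤ (⌈K⌉₊ : ℝ) := Nat.le_ceil K
        have h2 : ((⌈K⌉₊ : ℕ) : ℝ) ≤ ((2 ^ j0 : ℕ) : ℝ) := by exact_mod_cast (by omega)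
        push_cast at h2
        linarith
      hγ := by omega
      hG := hGv }
  refine S.not_avoid api blk cov ρ hρ c hc hγ M hM1 ?_ ?_
  · show M * j0 ≤ 2 ^ j0
    have h1 : ∀ n, 4 ≤ n → n * n ≤ 2 ^ n := by
      intro n hn
      induction n, hn using Nat.le_induction with
      | base => norm_num
      | succ n hn ih => rw [pow_succ]; nlinarith
    exact (Nat.mul_le_mul_right _ (by omega)).trans (h1 j0 (by omega))
  · exact (Real.lt_log_iff_exp_lt hM0).2 hM

end Crest.Agent.R2
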