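import Crest.Agent.R2.Defs

set_option autoImplicit false

namespace Crest.Agent.R2

open Finset

namespace GA

theorem card_le_of_diam (s : Finset ℤ) (m : ℕ) (h : ∀ y ∈ s, ∀ y' ∈ s, y - y' ≤ m) :
    s.card ≤ m + 1 := by
  rcases s.eq_empty_or_nonempty with rfl | hne
  · simp
  have hsub : s ⊆ Icc (s.min' hne) (s.min' hne + m) := by
    intro y hy
    rw [mem_Icc]
    have := h y hy _ (s.min'_mem hne)
    exact ⟨s.min'_le y hy, by omega⟩
  refine (card_le_card hsub).trans ?_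
  rw [Int.card_Icc]
  omega

theorem mult (R E : ℕ) (Q b : ℤ) (hR : 16 * E ≤ R) (hR1 : 1 ≤ R) (hQ : (R : ℤ) ^ 2 ≤ Q)
    (s : Finset ℕ) (k : ℕ → ℤ) (hs : ∀ i ∈ s, i < R)
    (hk : ∀ i ∈ s, |b - i * R - k i * Q| ≤ 8 * R * E) : s.card ≤ 3 * (16 * E + 1) := by
  have hR' : (16 * E : ℤ) ≤ R := by exact_mod_cast hR
  have hR1' : (1 : ℤ) ≤ R := by exact_mod_cast hR1
  have h1 : (s.image k).card ≤ 2 + 1 := by
    refine card_le_of_diam _ 2 fun y hy y' hy' => ?_
    obtain ⟨i, hi, rfl⟩ := mem_image.1 hy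
    obtain ⟨i', hi', rfl⟩ := mem_image.1 hy'
    have a1 := abs_le.1 (hk i hi)
    have a2 := abs_le.1 (hk i' hi')
    have a3 : (i' : ℤ) < R := by exact_mod_cast hs i' hi'
    have a4 : (0 : ℤ) ≤ i := by positivity
    have a5 : (i' : ℤ) * R ≤ R * R := by nlinarith
    have a6 : 16 * E * (R : ℤ) ≤ R * R := by nlinarith
    have a7 : (0 : ℤ) ≤ i * R := by positivity
    have a8 : (k i - k i') * Q ≤ 2 * Q := by nlinarith
    have hQ0 : 0 < Q := by nlinarith
    exact_mod_cast le_of_mul_le_mul_right a8 hQ0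
  refine (card_le_mul_card_image (f := k) s (16 * E + 1) fun y _ => ?_).trans (by nlinarith)
  rw [← card_image_of_injective _ (Nat.cast_injective (R := ℤ))]
  refine card_le_of_diam _ (16 * E) fun z hz z' hz' => ?_
  obtain ⟨i, hi, rfl⟩ := mem_image.1 hz
  obtain ⟨i', hi', rfl⟩ := mem_image.1 hz'
  rw [mem_filter] at hi hi'
  have a1 := abs_le.1 (hk i hi.1)
  have a2 := abs_le.1 (hk i' hi'.1)
  rw [hi.2] at a1
  rw [hi'.2] at a2
  have a8 : ((i : ℤ) - i') * R ≤ (16 * E) * R := by nlinarith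
  exact_mod_cast le_of_mul_le_mul_right a8 (by omega)

theorem exit_time {D : ℕ} {X : ℕ → V} (hX : Walk D X) (a R : ℕ) (hR : D + 1 ≤ R) :
    ∃ N, 1 ≤ N ∧ N ≤ 4 * R ^ 2 ∧ X (a + N) - X a ∉ box (R - 1) ∧
      ∀ i ≤ N, X (a + i) - X a ∈ box (2 * R) := by
  classical
  have hex : ∃ N, N ≤ 4 * R ^ 2 ∧ X (a + N) - X a ∉ box (R - 1) := by
    by_contra hc
    push Not at hc
    have h1 : (range (4 * R ^ 2 + 1)).card ≤ (box (R - 1)).card := by
      refine card_le_card_of_injOn (fun i => X (a + i) - X a) (fun i hi => ?_) ?_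
      · exact hc i (by have := mem_range.1 hi; omega)
      · intro i _ j _ h
        have := hX.inj (sub_left_injective h)
        omega
    rw [card_range, card_box] at h1
    obtain ⟨m, rfl⟩ : ∃ m, R = m + 1 := ⟨R - 1, by omega⟩
    simp only [Nat.add_sub_cancel] at h1
    nlinarith
  have hsp := Nat.find_spec hex
  have hmin : ∀ i < Nat.find hex, X (a + i) - X a ∈ box (R - 1) := by
    intro i hi
    by_contra hc
    exact Nat.find_min hex hi ⟨by omega, hc⟩
  have h1 : 1 ≤ Nat.find hex := by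
    rcases Nat.eq_zero_or_pos (Nat.find hex) with h | h
    · exfalso
      apply hsp.2
      rw [h, mem_box]
      simp
    · exact h
  refine ⟨Nat.find hex, h1, hsp.1, hsp.2, fun i hi => ?_⟩
  rcases i with _ | i
  · rw [mem_box]; simp
  have b1 := hmin i hi
  have b2 := hX.step (a + i)
  rw [mem_box] at b1 b2 ⊢
  simp only [Prod.fst_sub, Prod.snd_sub, abs_le, ← add_assoc] at b1 b2 ⊢
  omega

theorem lin_bound {a b x y A B : ℤ} (ha : |a| ≤ A) (hb : |b| ≤ A) (hx : |x| ≤ B) (hy : |y| ≤ B) :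
    |a * x + b * y| ≤ 2 * A * B ∧ |a * y - b * x| ≤ 2 * A * B := by
  have hA : 0 ≤ A := (abs_nonneg _).trans ha
  have k : ∀ u v : ℤ, |u| ≤ A → |v| ≤ B → |u * v| ≤ A * B := fun u v hu hv => by
    rw [abs_mul]; exact mul_le_mul hu hv (abs_nonneg _) hA
  have k1 := abs_le.1 (k a x ha hx)
  have k2 := abs_le.1 (k b y hb hy)
  have k3 := abs_le.1 (k a y ha hy)
  have k4 := abs_le.1 (k b x hb hx)
  simp only [abs_le]
  refine ⟨⟨?_, ?_⟩, ?_, ?_⟩ <;> linarith [k1.1, k1.2, k2.1, k2.2, k3.1, k3.2, k4.1, k4.2]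

end GA

open GA in
theorem glem (h1 : ChordStmt) (h2 : StripStmt) : GStmt := by
  classical
  intro D
  obtain ⟨E, hE⟩ : ∃ E, E = D + 1 := ⟨_, rfl⟩
  refine ⟨33 * (16 * E + 1) * (16 * E + 17), ?_, 100 * E, fun X hX r hr a => ?_⟩
  · have : (0 : ℝ) ≤ E := by positivity
    nlinarith
  obtain ⟨n, hn⟩ : ∃ n, n = 2 ^ r := ⟨_, rfl⟩
  have hnE : 100 * E ≤ n := by
    have := Nat.lt_two_pow_self (n := r)
    omega
  obtain ⟨R, hR⟩ : ∃ R, R = n ^ 2 := ⟨_, rfl⟩
  have hnR : n ≤ R := by rw [hR]; nlinarith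
  obtain ⟨N, hN1, hN2, hq1, hN⟩ := exit_time hX a R (by omega)
  obtain ⟨q, hq⟩ : ∃ q, q = X (a + N) - X a := ⟨_, rfl⟩
  have hq2 : q ∈ box (2 * R) := hq ▸ hN N le_rfl
  rw [← hq] at hq1
  have hQ : (R : ℤ) ^ 2 ≤ nrm q := by
    rw [mem_box, not_and_or, not_le, not_le] at hq1
    have hR' : ((R - 1 : ℕ) : ℤ) = R - 1 := by omega
    rw [hR'] at hq1
    have hR0 : (0 : ℤ) ≤ R := by positivity
    rw [nrm, ← sq_abs q.1, ← sq_abs q.2]
    rcases hq1 with h | h <;> nlinarith [abs_nonneg q.1, abs_nonneg q.2]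
  have hR1 : (1 : ℤ) ≤ R := by omega
  have hE1 : (1 : ℤ) ≤ E := by omega
  have hq3 := mem_box.1 hq2
  have hch := fun i : ℕ => h1
    (fun j => (q.1 * (X (a + j)).1 + q.2 * (X (a + j)).2, q.1 * (X (a + j)).2 - q.2 * (X (a + j)).1))
    N (4 * R * E) (nrm q) (i * R) hN1 (by nlinarith) (by nlinarith)
    (fun j _ => by
      have b := mem_box.1 (hX.step (a + j))
      have hDE : (D : ℤ) ≤ E := by omega
      have := lin_bound hq3.1 hq3.2 (b.1.trans hDE) (b.2.trans hDE)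
      simp only [Prod.fst_sub, Prod.snd_sub, ← add_assoc] at this ⊢
      push_cast at this
      constructor
      · convert this.1 using 2 <;> ring
      · convert this.2 using 2 <;> ring)
    (by
      have e1 : (X (a + N)).1 = (X a).1 + q.1 := by rw [hq]; simp
      have e2 : (X (a + N)).2 = (X a).2 + q.2 := by rw [hq]; simp
      simp only [e1, e2, nrm, add_zero]; ring)
    (by
      have e1 : (X (a + N)).1 = (X a).1 + q.1 := by rw [hq]; simp
      have e2 : (X (a + N)).2 = (X a).2 + q.2 := by rw [hq]; simp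
      simp only [e1, e2, add_zero]; ring)
  choose σ hσ τ hτ k hk1 hk2 using hch
  obtain ⟨v, hv0, hv1, hv2⟩ := h2.1 n q (by omega) (hR ▸ hq2)
  have hv3 := mem_box.1 hv1
  have hN5 : N ≤ 2 ^ (5 * r) := by
    rw [mul_comm, pow_mul, ← hn]
    refine hN2.trans ?_
    rw [hR]
    have : 4 ≤ n := by omega
    calc 4 * (n ^ 2) ^ 2 = 4 * n ^ 4 := by ring
      _ ≤ n * n ^ 4 := Nat.mul_le_mul_right _ this
      _ = n ^ 5 := by ring
  refine ⟨(Ex.unif R).map (fun i => (a + σ i, a + τ i)), v, hv0, ?_, ?_, ?_⟩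
  · have e : (2 : ℤ) ^ (3 * r) = (n : ℤ) ^ 3 := by rw [hn, mul_comm, pow_mul]; push_cast; rfl
    have : (2 : ℤ) ≤ n := by omega
    rw [e, nrm, ← sq_abs v.1, ← sq_abs v.2]
    have a1 := pow_le_pow_left₀ (abs_nonneg _) hv3.1 2
    have a2 := pow_le_pow_left₀ (abs_nonneg _) hv3.2 2
    nlinarith
  · refine Ex.AS_map (Ex.AS_of_forall _ fun i => ?_)
    have := hσ i; have := hτ i
    refine ⟨?_, ?_, ?_, ?_⟩ <;> simp only <;> omega
  intro Φ M hΦ hM
  have hn0 : (0 : ℝ) < n := by exact_mod_cast (by omega : 0 < n)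
  have hR0 : (0 : ℝ) < R := by exact_mod_cast (by omega : 0 < R)
  have hM' : ∀ x : V, ∑ i ∈ range n, Φ (x + i • v) ≤ n * M := by
    intro x
    have := hM x
    rw [← hn] at this
    rw [hn]; push_cast; rw [← hn]; exact this
  have hM0 : 0 ≤ M := by
    have := (sum_nonneg fun i _ => hΦ _).trans (hM' 0)
    exact nonneg_of_mul_nonneg_right this hn0 |> fun h => by
      by_contra hc; push Not at hc; nlinarith
  let d : ℕ → V := fun i => X (a + τ i) - X (a + σ i)
  let S : Finset V := (box (4 * R)).filter (fun z => |q.1 * z.2 - q.2 * z.1| ≤ 8 * R * E)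
  let S' : Finset V := (box (5 * R)).filter
    (fun z => |q.1 * z.2 - q.2 * z.1| ≤ ((8 * E + 8 : ℕ) : ℤ) * R)
  have hdS : ∀ i, d i ∈ S := by
    intro i
    refine mem_filter.2 ⟨?_, ?_⟩
    · have b1 := mem_box.1 (hN _ (hσ i))
      have b2 := mem_box.1 (hN _ (hτ i))
      rw [mem_box]
      simp only [d, Prod.fst_sub, Prod.snd_sub, abs_le] at b1 b2 ⊢
      omega
    · refine le_of_eq_of_le ?_ ((hk2 i).trans (le_of_eq (by ring)))
      congr 1
      simp only [d, Prod.fst_sub, Prod.snd_sub]; ring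
  have s1 : ∑ i ∈ range R, Φ (d i) ≤ (3 * (16 * E + 1) : ℝ) * ∑ z ∈ S, Φ z := by
    rw [← sum_fiberwise_of_maps_to (s := range R) (t := S) (g := d) (fun i _ => hdS i), mul_sum]
    refine sum_le_sum fun z _ => ?_
    rw [sum_congr rfl (g := fun _ => Φ z) (fun i hi => by rw [(mem_filter.1 hi).2]), sum_const,
      nsmul_eq_mul]
    refine mul_le_mul_of_nonneg_right ?_ (hΦ z)
    have := mult R E (nrm q) (q.1 * z.1 + q.2 * z.2) (by omega) (by omega) hQ
      ((range R).filter (fun i => d i = z)) k (fun i hi => mem_range.1 (mem_filter.1 hi).1)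
      (fun i hi => by
        rw [← (mem_filter.1 hi).2]
        refine le_of_eq_of_le ?_ ((hk1 i).trans (le_of_eq (by ring)))
        congr 1
        simp only [d, Prod.fst_sub, Prod.snd_sub]; ring)
    exact_mod_cast this
  have s2 : ∀ i ∈ range n, ∑ z ∈ S, Φ z ≤ ∑ x ∈ S', Φ (x + i • v) := by
    intro i hi
    have hi' : (i : ℤ) ≤ n := by exact_mod_cast (mem_range.1 hi).le
    have hi0 : (0 : ℤ) ≤ i := by positivity
    have hRn : (R : ℤ) = n ^ 2 := by exact_mod_cast hR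
    have e : ∑ z ∈ S, Φ z = ∑ x ∈ S.image (fun z => z - i • v), Φ (x + i • v) := by
      rw [sum_image (fun x _ y _ h => sub_left_injective h)]
      simp
    rw [e]
    refine sum_le_sum_of_subset_of_nonneg (fun x hx => ?_) fun x _ _ => hΦ _
    obtain ⟨z, hz, rfl⟩ := mem_image.1 hx
    obtain ⟨z1, z2⟩ := mem_filter.1 hz
    have k1 : ∀ u B : ℤ, |u| ≤ B * n → |(i : ℤ) * u| ≤ B * R := fun u B hu => by
      rw [abs_mul, abs_of_nonneg hi0, hRn]
      have := mul_le_mul hi' hu (abs_nonneg _) (by positivity)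
      linarith
    have c1 := k1 v.1 1 (by linarith [hv3.1])
    have c2 := k1 v.2 1 (by linarith [hv3.2])
    have c3 := k1 _ 8 hv2
    have f1 : (z - i • v).1 = z.1 - i * v.1 := by simp
    have f2 : (z - i • v).2 = z.2 - i * v.2 := by simp
    refine mem_filter.2 ⟨?_, ?_⟩
    · rw [mem_box] at z1 ⊢
      simp only [f1, f2, abs_le] at z1 c1 c2 ⊢
      push_cast at z1 ⊢
      refine ⟨⟨?_, ?_⟩, ?_, ?_⟩ <;>
        linarith [z1.1.1, z1.1.2, z1.2.1, z1.2.2, c1.1, c1.2, c2.1, c2.2]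
    · simp only [f1, f2, abs_le] at z2 c3 ⊢
      push_cast
      constructor <;> nlinarith [z2.1, z2.2, c3.1, c3.2]
  have s3 : (S'.card : ℝ) ≤ 11 * R * (16 * E + 17) := by
    have := h2.2 R (5 * R) (8 * E + 8) q (by omega) hq1
    have h' : S'.card ≤ 11 * R * (16 * E + 17) :=
      this.trans (Nat.mul_le_mul (by omega) (by omega))
    exact_mod_cast h'
  have s4 : ∑ z ∈ S, Φ z ≤ 11 * R * (16 * E + 17) * M := by
    have a1 := sum_le_sum s2
    rw [sum_const, card_range, nsmul_eq_mul, sum_comm] at a1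
    have a2 := sum_le_sum fun x (_ : x ∈ S') => hM' x
    rw [sum_const, nsmul_eq_mul] at a2
    have a3 : (n : ℝ) * ∑ z ∈ S, Φ z ≤ n * (11 * R * (16 * E + 17) * M) := by
      refine (a1.trans a2).trans ?_
      have := mul_le_mul_of_nonneg_right s3 (mul_nonneg hn0.le hM0)
      linarith
    exact le_of_mul_le_mul_left a3 hn0
  rw [Ex.map_E, Ex.unif_E (by omega), div_le_iff₀ hR0]
  refine s1.trans ?_
  have := mul_le_mul_of_nonneg_left s4 (show (0 : ℝ) ≤ 3 * (16 * E + 1) by positivity)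
  linarith

end Crest.Agent.R2
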