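import Crest.Agent.R2.Api

/-!
Row 2: the merge lemma (the score doubles or the code gains).
-/

set_option autoImplicit false

namespace Crest.Agent.R2

open Finset

namespace Mg

/-- A `k`-subset carrying at least its share of the total weight. -/
theorem exists_subset {ι : Type} [DecidableEq ι] (w : ι → ℝ) (P : Finset ι) (k : ℕ)
    (hk : k ≤ P.card) : ∃ K ⊆ P, K.card = k ∧ k * ∑ p ∈ P, w p ≤ P.card * ∑ p ∈ K, w p := by
  obtain ⟨j, hj⟩ := Nat.exists_eq_add_of_le hk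
  induction j generalizing k with
  | zero => exact ⟨P, Subset.rfl, by omega, by rw [hj]; simp⟩
  | succ j ih =>
    obtain ⟨K, hKP, hK, hle⟩ := ih (k + 1) (by omega) (by omega)
    have hne : K.Nonempty := card_pos.1 (by omega)
    obtain ⟨x, hx, hmin⟩ := exists_min_image K w hne
    refine ⟨K.erase x, (erase_subset _ _).trans hKP, by rw [card_erase_of_mem hx]; omega, ?_⟩
    have h1 : ∑ p ∈ K.erase x, w p = ∑ p ∈ K, w p - w x := by
      rw [← add_sum_erase K w hx]; ring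
    have h2 : ((k : ℝ) + 1) * w x ≤ ∑ p ∈ K, w p := by
      have := card_nsmul_le_sum K w (w x) hmin
      rw [hK, nsmul_eq_mul] at this
      exact_mod_cast this
    push_cast at hle
    rw [h1]
    have hP : (0 : ℝ) ≤ P.card := Nat.cast_nonneg _
    have hk0 : (0 : ℝ) ≤ k := Nat.cast_nonneg _
    have h3 : ((k : ℝ) + 1) * (k * ∑ p ∈ P, w p) ≤ (k + 1) * (P.card * (∑ p ∈ K, w p - w x)) := by
      have h4 := mul_le_mul_of_nonneg_left hle hk0
      have h5 := mul_le_mul_of_nonneg_left h2 hP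
      nlinarith
    exact le_of_mul_le_mul_left h3 (by positivity)

variable {O : Obj}

/-- The correlation of two densities. -/
noncomputable def Z (ψ : (p : Pr) → O.Δ → ZMod p.1 → ℝ) (p : Pr) (x : O.Δ × O.Δ) (w : ZMod p.1) :
    ℝ := (∑ c, ψ p x.1 c * ψ p x.2 (c + w)) / p.1

theorem Z_pos {ψ : (p : Pr) → O.Δ → ZMod p.1 → ℝ} (h0 : ∀ p x c, 0 < ψ p x c) (p : Pr)
    (x : O.Δ × O.Δ) (w : ZMod p.1) : 0 < Z ψ p x w := by
  have hp : (0 : ℝ) < p.1 := by exact_mod_cast p.2.pos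
  exact div_pos (sum_pos (fun c _ => mul_pos (h0 _ _ _) (h0 _ _ _)) univ_nonempty) hp

theorem Z_sum {ψ : (p : Pr) → O.Δ → ZMod p.1 → ℝ} (h0 : ∀ p x c, 0 < ψ p x c)
    (h1 : ∀ p x, ∑ c, ψ p x c ≤ p.1) (p : Pr) (x : O.Δ × O.Δ) : ∑ w, Z ψ p x w ≤ p.1 := by
  have hp : (0 : ℝ) < p.1 := by exact_mod_cast p.2.pos
  unfold Z
  rw [← sum_div, sum_comm, div_le_iff₀ hp]
  have e : ∀ c : ZMod p.1, ∑ w, ψ p x.1 c * ψ p x.2 (c + w) = ψ p x.1 c * ∑ w, ψ p x.2 w := by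
    intro c
    rw [← mul_sum]
    congr 1
    exact Fintype.sum_equiv (Equiv.addLeft c) _ _ (fun _ => rfl)
  simp only [e]
  rw [← sum_mul]
  exact mul_le_mul (h1 p _) (h1 p _) (sum_nonneg fun _ _ => (h0 _ _ _).le) hp.le

/-- The mean of `log Z`. -/
noncomputable def zz (S : Sys) (ρ : Res) (ψ : (p : Pr) → O.Δ → ZMod p.1 → ℝ) (i : ℕ) (ν' : Ex ℕ)
    (p : Pr) : ℝ :=
  ν'.E (fun a => (S.St i a).E fun st => ((O.L st.1).prod (O.L st.2)).E
    fun x => Real.log (Z ψ p x (ρ p (S.X st.2 - S.X st.1))))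

theorem double (S : Sys) (ρ : Res) (P : Finset Pr) (i b : ℕ) (ν' : Ex ℕ) (e ζ : ℝ) (hb : 1 ≤ b)
    {ψ : (p : Pr) → O.Δ → ZMod p.1 → ℝ} (h0 : ∀ p x c, 0 < ψ p x c)
    (h2 : e * P.card ≤ ∑ p ∈ P, (ν'.bind (S.child i)).E
      (fun a => (O.L a).E fun x => Real.log (ψ p x (ρ p (S.X a)))))
    (hz : ∑ p ∈ P, zz S ρ ψ i ν' p ≤ ζ * P.card) :
    S.Score ρ P (S.merge O i b) ν' (2 * e - ζ) := by
  refine ⟨fun p (x : V × V × (Fin b → O.Δ × O.Δ)) c =>
    ψ p (x.2.2 ⟨0, hb⟩).1 (c + ρ p x.1) * ψ p (x.2.2 ⟨0, hb⟩).2 (c + ρ p x.1 + ρ p x.2.1) /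
      Z ψ p (x.2.2 ⟨0, hb⟩) (ρ p x.2.1),
    fun p x c => div_pos (mul_pos (h0 _ _ _) (h0 _ _ _)) (Z_pos h0 _ _ _), fun p x => ?_, ?_⟩
  · have hp : (0 : ℝ) < p.1 := by exact_mod_cast p.2.pos
    rw [← sum_div, div_le_iff₀ (Z_pos h0 _ _ _), Api.sum_shift
      (fun c => ψ p (x.2.2 ⟨0, hb⟩).1 c * ψ p (x.2.2 ⟨0, hb⟩).2 (c + ρ p x.2.1))]
    unfold Z
    rw [mul_div_cancel₀ _ hp.ne']
  · have key : ∀ p ∈ P, 2 * (ν'.bind (S.child i)).E
        (fun a => (O.L a).E fun x => Real.log (ψ p x (ρ p (S.X a)))) - zz S ρ ψ i ν' p ≤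
        ν'.E (fun a => ((S.merge O i b).L a).E fun x : V × V × (Fin b → O.Δ × O.Δ) => Real.log
          (ψ p (x.2.2 ⟨0, hb⟩).1 (ρ p (S.X a) + ρ p x.1) *
            ψ p (x.2.2 ⟨0, hb⟩).2 (ρ p (S.X a) + ρ p x.1 + ρ p x.2.1) /
            Z ψ p (x.2.2 ⟨0, hb⟩) (ρ p x.2.1))) := by
      intro p _
      rw [← Api.pair_E S O i ν' (fun s x => Real.log (ψ p x (ρ p (S.X s))))]
      unfold zz
      rw [← Ex.E_sub]
      refine Ex.mono _ fun a => le_trans ?_ (S.merge_E O i b a _).ge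
      rw [← Ex.E_sub]
      refine Ex.mono _ fun st => ?_
      rw [← Ex.E_sub, ← Ex.pow_E_coord _ b ⟨0, hb⟩]
      refine Ex.mono _ fun w => le_of_eq ?_
      rw [Real.log_div (mul_pos (h0 _ _ _) (h0 _ _ _)).ne' (Z_pos h0 _ _ _).ne',
        Real.log_mul (h0 _ _ _).ne' (h0 _ _ _).ne']
      simp only [map_sub]
      rw [show ρ p (S.X a) + (ρ p (S.X st.1) - ρ p (S.X a)) = ρ p (S.X st.1) by ring,
        show ρ p (S.X st.1) + (ρ p (S.X st.2) - ρ p (S.X st.1)) = ρ p (S.X st.2) by ring]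
    refine le_trans ?_ (sum_le_sum key)
    rw [sum_sub_distrib, ← mul_sum]
    nlinarith

/-- The normalising sum of the conditional code. -/
noncomputable def N (ρ : Res) (ψ : (p : Pr) → O.Δ → ZMod p.1 → ℝ) (q : O.Δ → ℝ) (K : Finset Pr)
    (d : V) : ℝ := ∑ x ∈ O.S ×ˢ O.S, q x.1 * q x.2 * ∏ p ∈ K, Z ψ p x (ρ p d)

theorem N_pos {ρ : Res} {ψ : (p : Pr) → O.Δ → ZMod p.1 → ℝ} (h0 : ∀ p x c, 0 < ψ p x c)
    {q : O.Δ → ℝ} (hq : O.Code q) (K : Finset Pr) (d : V) : 0 < N ρ ψ q K d :=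
  sum_pos (fun _ _ => mul_pos (mul_pos (hq.1 _) (hq.1 _)) (prod_pos fun _ _ => Z_pos h0 _ _ _))
    ((Api.S_nonempty O).product (Api.S_nonempty O))

theorem log_N_le (ap1 : AP1Stmt) (S : Sys) {ρ : Res} {ψ : (p : Pr) → O.Δ → ZMod p.1 → ℝ}
    (h0 : ∀ p x c, 0 < ψ p x c) (h1 : ∀ p x, ∑ c, ψ p x c ≤ p.1) {q : O.Δ → ℝ} (hq : O.Code q)
    (K : Finset Pr) (i a : ℕ) (hK : ∏ p ∈ K, p.1 ≤ 2 ^ S.r (i + 1)) :
    (S.G i a).E (fun st => Real.log (N ρ ψ q K (S.X st.2 - S.X st.1))) ≤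
      Real.log (2 * S.K) + ∑ p ∈ K, if ρ p (S.v i a) = 0 then Real.log p.1 else 0 := by
  set M : ℝ := ∏ p ∈ K.filter (fun p => ρ p (S.v i a) = 0), (p.1 : ℝ) with hM
  have hpp : ∀ p : Pr, (0 : ℝ) < p.1 := fun p => by exact_mod_cast p.2.pos
  have hM0 : 0 < M := prod_pos fun p _ => hpp p
  have hK1 := S.hK1
  have h3 := (S.hG' i a).2.2.2 (N ρ ψ q K) (2 * M) (fun z => (N_pos h0 hq K z).le) ?_
  · have h4 := (S.G i a).E_log_le (f := fun st => N ρ ψ q K (S.X st.2 - S.X st.1))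
      (fun st => N_pos h0 hq K _) (by positivity) h3
    refine h4.trans (le_of_eq ?_)
    rw [← sum_filter, ← Real.log_prod (fun p _ => (hpp p).ne'), ← hM,
      ← Real.log_mul (by positivity) hM0.ne']
    congr 1; ring
  · intro y
    unfold N
    rw [sum_comm]
    have h4 : ∀ x ∈ O.S ×ˢ O.S, ∑ j ∈ range (2 ^ S.r (i + 1)),
        q x.1 * q x.2 * ∏ p ∈ K, Z ψ p x (ρ p (y + j • S.v i a)) ≤
        q x.1 * q x.2 * (2 ^ S.r (i + 1) * (2 * M)) := by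
      intro x _
      rw [← mul_sum]
      refine mul_le_mul_of_nonneg_left ?_ (mul_pos (hq.1 _) (hq.1 _)).le
      have := ap1 K ρ (fun p => Z ψ p x) (fun p c => (Z_pos h0 _ _ _).le)
        (fun p => Z_sum h0 h1 p x) _ hK y (S.v i a)
      rw [← hM] at this
      exact_mod_cast this
    refine (sum_le_sum h4).trans ?_
    rw [← sum_mul]
    refine mul_le_of_le_one_left (by positivity) ?_
    rw [sum_product, ← sum_mul_sum]
    exact mul_le_one₀ hq.2 (sum_nonneg fun x _ => (hq.1 x).le) hq.2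

end Mg

open Mg in
theorem merge (ap1 : AP1Stmt) : MergeStmt := by
  classical
  intro S ρ P hP L k hL hne hk O i b ν' e ζ hb hkL ⟨ψ, h0, h1, h2⟩
  by_cases hz : ∑ p ∈ P, zz S ρ ψ i ν' p ≤ ζ * P.card
  · exact Or.inl (double S ρ P i b ν' e ζ hb h0 h2 hz)
  right
  set ν'' : Ex ℕ := ν'.bind fun a => (Ex.unif (2 ^ (6 * S.r (i + 1)))).map fun u => a + u with hν
  set bad : Pr → ℝ := fun p => ν''.E fun a => if ρ p (S.v i a) = 0 then Real.log p.1 else 0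
    with hbad
  have hb1 : ∑ p ∈ P, bad p ≤ 3 * S.r (i + 1) := by
    rw [← Ex.E_sum]
    refine Ex.le_const _ fun a => ?_
    rw [← sum_filter]
    have := hP.sum_log_le (S.hG' i a).1 (k := 3 * S.r (i + 1)) (by exact_mod_cast (S.hG' i a).2.1)
    exact_mod_cast this
  obtain ⟨K, hKP, hKc, hKw⟩ := exists_subset (fun p => zz S ρ ψ i ν' p - bad p) P k hk
  have hKp : ∏ p ∈ K, p.1 ≤ 2 ^ S.r (i + 1) := by
    refine (prod_le_pow_card K _ (2 ^ L) (fun p hp => hL p (hKP hp))).trans ?_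
    rw [hKc, ← pow_mul, mul_comm]
    exact Nat.pow_le_pow_right (by norm_num) hkL
  rintro h ⟨q, hq, hqh⟩
  refine ⟨fun d x => q x.1 * q x.2 * (∏ p ∈ K, Z ψ p x (ρ p d)) / N ρ ψ q K d,
    fun d x => div_pos (mul_pos (mul_pos (hq.1 _) (hq.1 _)) (prod_pos fun _ _ => Z_pos h0 _ _ _))
      (N_pos h0 hq K d), fun d => ?_, ?_⟩
  · rw [← sum_div]
    exact (div_self (N_pos h0 hq K d).ne').le
  · have e1 : ∀ (d : V) (x : O.Δ × O.Δ),
        -Real.log (q x.1 * q x.2 * (∏ p ∈ K, Z ψ p x (ρ p d)) / N ρ ψ q K d) =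
        (-Real.log (q x.1) + -Real.log (q x.2)) - ∑ p ∈ K, Real.log (Z ψ p x (ρ p d)) +
          Real.log (N ρ ψ q K d) := by
      intro d x
      have hz := fun p => Z_pos h0 p x (ρ p d)
      have hpr : 0 < ∏ p ∈ K, Z ψ p x (ρ p d) := prod_pos fun p _ => hz p
      have hq1 := hq.1 x.1
      have hq2 := hq.1 x.2
      rw [Real.log_div (by positivity) (N_pos h0 hq K d).ne', Real.log_mul (by positivity) hpr.ne',
        Real.log_mul hq1.ne' hq2.ne', Real.log_prod (fun p _ => (hz p).ne')]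
      ring
    have e2 := Api.pair_E S O i ν' (fun _ x => -Real.log (q x))
    have e3 : ν'.E (fun a => (S.St i a).E fun st => Real.log (N ρ ψ q K (S.X st.2 - S.X st.1))) ≤
        Real.log (2 * S.K) + ∑ p ∈ K, bad p := by
      have : ν'.E (fun a => (S.St i a).E fun st => Real.log (N ρ ψ q K (S.X st.2 - S.X st.1))) =
          ν''.E (fun a => (S.G i a).E fun st => Real.log (N ρ ψ q K (S.X st.2 - S.X st.1))) := by
        simp only [hν, Sys.St_eq, Ex.bind_E, Ex.map_E]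
      rw [this]
      refine (Ex.mono _ fun a => log_N_le ap1 S h0 h1 hq K i a hKp).trans (le_of_eq ?_)
      rw [Ex.E_add, Ex.E_const, Ex.E_sum]
    have e4 : ν'.E (fun a => (S.St i a).E fun st => ((O.L st.1).prod (O.L st.2)).E
        fun x => -Real.log (q x.1 * q x.2 * (∏ p ∈ K, Z ψ p x (ρ p (S.X st.2 - S.X st.1))) /
          N ρ ψ q K (S.X st.2 - S.X st.1))) =
        ν'.E (fun a => (S.St i a).E fun st => ((O.L st.1).prod (O.L st.2)).E
          fun x => -Real.log (q x.1) + -Real.log (q x.2)) - ∑ p ∈ K, zz S ρ ψ i ν' p +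
        ν'.E (fun a => (S.St i a).E fun st => Real.log (N ρ ψ q K (S.X st.2 - S.X st.1))) := by
      unfold zz
      rw [← Ex.E_sum, ← Ex.E_sub, ← Ex.E_add]
      congr 1
      funext a
      rw [← Ex.E_sum, ← Ex.E_sub, ← Ex.E_add]
      congr 1
      funext st
      simp only [e1]
      rw [Ex.E_add, Ex.E_sub, Ex.E_sum, Ex.E_const]
    refine le_trans (le_of_eq e4) ?_
    rw [e2]
    have hp : (0 : ℝ) < P.card := by exact_mod_cast hne.card_pos
    rw [sum_sub_distrib, sum_sub_distrib] at hKw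
    have hk0 : (0 : ℝ) ≤ k := Nat.cast_nonneg k
    have h5 : (k : ℝ) * ζ - k * (3 * S.r (i + 1)) / P.card ≤
        ∑ p ∈ K, zz S ρ ψ i ν' p - ∑ p ∈ K, bad p := by
      rw [← sub_nonneg]
      have h6 : (k : ℝ) * (ζ * P.card - 3 * S.r (i + 1)) ≤
          k * (∑ p ∈ P, zz S ρ ψ i ν' p - ∑ p ∈ P, bad p) :=
        mul_le_mul_of_nonneg_left (by linarith [not_le.1 hz]) hk0
      have e5 : ∑ p ∈ K, zz S ρ ψ i ν' p - ∑ p ∈ K, bad p -
          ((k : ℝ) * ζ - k * (3 * S.r (i + 1)) / P.card) =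
          (P.card * (∑ p ∈ K, zz S ρ ψ i ν' p - ∑ p ∈ K, bad p) -
            k * (ζ * P.card - 3 * S.r (i + 1))) / P.card := by
        field_simp
      rw [e5]
      exact div_nonneg (by linarith) hp.le
    linarith

end Crest.Agent.R2
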