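import Crest.Agent.R2.Defs

/-! Row 2: a Chebyshev lower bound for the primes `≡ 1 (mod 4)`. -/

set_option autoImplicit false

namespace Crest.Agent.R2

open Finset

namespace PR

open ArithmeticFunction Chebyshev

/-- The character mod 4, real valued. -/
noncomputable def chi (n : ℕ) : ℝ := ((ZMod.χ₄ (n : ZMod 4) : ℤ) : ℝ)

theorem chi_mul (a b : ℕ) : chi (a * b) = chi a * chi b := by
  rw [chi, chi, chi, Nat.cast_mul, map_mul, Int.cast_mul]

theorem chi_eq (n : ℕ) : chi n = if n % 2 = 0 then 0 else if n % 4 = 1 then 1 else -1 := by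
  rw [chi, ZMod.χ₄_nat_eq_if_mod_four]
  split_ifs <;> simp

theorem chi_zero : chi 0 = 0 := by simp [chi_eq]

theorem sum_chi (m : ℕ) :
    ∑ k ∈ Ioc 0 m, chi k = if m % 4 = 1 ∨ m % 4 = 2 then 1 else 0 := by
  induction m with
  | zero => simp
  | succ m ih =>
    rw [sum_Ioc_succ_top (Nat.zero_le m), ih, chi_eq]
    split_ifs <;> first | (exfalso; omega) | norm_num

theorem sum_chi_log (m : ℕ) :
    (if m % 4 = 1 ∨ m % 4 = 2 then 0 else -Real.log m) ≤ ∑ k ∈ Ioc 0 m, chi k * Real.log k := by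
  induction m with
  | zero => simp
  | succ m ih =>
    rw [sum_Ioc_succ_top (Nat.zero_le m), chi_eq]
    have hl : Real.log m ≤ Real.log ((m + 1 : ℕ) : ℝ) := by
      rcases Nat.eq_zero_or_pos m with rfl | hm
      · simp
      · exact Real.log_le_log (by exact_mod_cast hm) (by push_cast; linarith)
    split_ifs at ih ⊢ <;> first | (exfalso; omega) | linarith

theorem sum_chi_log' (m : ℕ) : -Real.log m ≤ ∑ k ∈ Ioc 0 m, chi k * Real.log k := by
  have h := sum_chi_log m
  have h0 : 0 ≤ Real.log m := Real.log_natCast_nonneg m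
  split_ifs at h <;> linarith

theorem key_identity (N : ℕ) :
    ∑ n ∈ Ioc 0 N, chi n * Real.log n =
      ∑ d ∈ Ioc 0 N, chi d * vonMangoldt d * ∑ k ∈ Ioc 0 (N / d), chi k := by
  let f : ArithmeticFunction ℝ := ⟨fun d => chi d * vonMangoldt d, by simp⟩
  let g : ArithmeticFunction ℝ := ⟨chi, chi_zero⟩
  have h := sum_Ioc_mul_eq_sum_sum f g N
  refine Eq.trans (sum_congr rfl (fun n _ => ?_)) h
  rw [mul_apply, ← vonMangoldt_sum, mul_sum,
    Nat.sum_divisorsAntidiagonal (fun a b => f a * g b)]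
  refine sum_congr rfl (fun d hd => ?_)
  have hd' : d * (n / d) = n := Nat.mul_div_cancel' (Nat.dvd_of_mem_divisors hd)
  change _ = chi d * vonMangoldt d * chi (n / d)
  conv_lhs => rw [← hd', chi_mul]
  ring

theorem pointwise (N d : ℕ) (hN : 6 ≤ N) (hd : d ∈ Ioc 0 N) :
    chi d * vonMangoldt d * ∑ k ∈ Ioc 0 (N / d), chi k ≤
      2 * (if d.Prime ∧ d % 4 = 1 then Real.log d else 0) +
      2 * (vonMangoldt d - if d.Prime then Real.log d else 0) -
      ((if d.Prime then Real.log d else 0) -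
        (if d.Prime ∧ d ≤ N / 3 then Real.log d else 0)) := by
  obtain ⟨hd0, hdN⟩ := mem_Ioc.1 hd
  have hΛ : 0 ≤ vonMangoldt d := vonMangoldt_nonneg
  rw [sum_chi, chi_eq]
  by_cases hp : d.Prime
  · rw [vonMangoldt_apply_prime hp] at hΛ ⊢
    by_cases h3 : d ≤ N / 3
    · simp only [hp, h3, true_and, if_true]
      split_ifs <;> first | (exfalso; omega) | linarith
    · have hodd : d % 2 = 1 := by
        rcases hp.eq_two_or_odd with h | h
        · omega
        · exact h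
      have h1 : 1 ≤ N / d := (Nat.le_div_iff_mul_le hd0).2 (by omega)
      have h2 : N / d < 3 := (Nat.div_lt_iff_lt_mul hd0).2 (by omega)
      simp only [hp, h3, true_and, if_true, if_false]
      split_ifs <;> first | (exfalso; omega) | linarith
  · simp only [hp, false_and, if_false]
    split_ifs <;> linarith

theorem theta41 (N : ℕ) (hN : 6 ≤ N) :
    theta N - theta ((N / 3 : ℕ) : ℝ) - 2 * (psi N - theta N) - Real.log N ≤
      2 * ∑ d ∈ (Ioc 0 N).filter (fun d => d.Prime ∧ d % 4 = 1), Real.log d := by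
  have h1 := sum_chi_log' N
  rw [key_identity] at h1
  have h2 := sum_le_sum (fun d hd => pointwise N d hN hd)
  rw [sum_sub_distrib, sum_add_distrib, sum_sub_distrib, ← mul_sum, ← mul_sum, sum_sub_distrib,
    ← sum_filter, ← sum_filter, ← sum_filter] at h2
  have e1 : theta N = ∑ d ∈ (Ioc 0 N).filter Nat.Prime, Real.log d := by
    rw [theta, Nat.floor_natCast]
  have e2 : psi N = ∑ d ∈ Ioc 0 N, vonMangoldt d := by
    rw [psi, Nat.floor_natCast]
  have e3 : theta ((N / 3 : ℕ) : ℝ) =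
      ∑ d ∈ (Ioc 0 N).filter (fun d => d.Prime ∧ d ≤ N / 3), Real.log d := by
    rw [theta, Nat.floor_natCast]
    refine sum_congr ?_ (fun _ _ => rfl)
    ext d
    simp only [mem_filter, mem_Ioc]
    constructor
    · rintro ⟨⟨a, b⟩, c⟩
      exact ⟨⟨a, by omega⟩, c, b⟩
    · rintro ⟨⟨a, _⟩, c, b⟩
      exact ⟨⟨a, b⟩, c⟩
  rw [e1, e2, e3]
  linarith

theorem theta41_ge (N : ℕ) (hN : 2 ^ 40 ≤ N) :
    (N : ℝ) / 20 ≤ ∑ d ∈ (Ioc 0 N).filter (fun d => d.Prime ∧ d % 4 = 1), Real.log d := by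
  have hNr : (2 : ℝ) ^ 40 ≤ N := by exact_mod_cast hN
  have h1 := theta41 N (by omega)
  have h2 := theta_ge N
  have h3 := psi_sub_theta_le (x := N) (by linarith)
  have h4 := theta_le_log4_mul_x (x := ((N / 3 : ℕ) : ℝ)) (Nat.cast_nonneg _)
  have h5 : ((N / 3 : ℕ) : ℝ) ≤ N / 3 := Nat.cast_div_le
  have hl2 := Real.log_two_gt_d9
  have hl4 : Real.log 4 = 2 * Real.log 2 := by
    rw [show (4 : ℝ) = 2 ^ 2 by norm_num, Real.log_pow]; norm_num
  have h6 : theta ((N / 3 : ℕ) : ℝ) ≤ 2 * Real.log 2 * (N / 3) := by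
    rw [hl4] at h4
    exact h4.trans (mul_le_mul_of_nonneg_left h5 (by linarith))
  set s := √(√(N : ℝ)) with hs
  have hs2 : √(N : ℝ) = s ^ 2 := (Real.sq_sqrt (Real.sqrt_nonneg _)).symm
  have hs4 : (N : ℝ) = s ^ 4 := by
    rw [show s ^ 4 = (s ^ 2) ^ 2 by ring, ← hs2, Real.sq_sqrt (Nat.cast_nonneg _)]
  have hs0 : 0 ≤ s := Real.sqrt_nonneg _
  have hs1 : 1024 ≤ s := by
    by_contra hlt
    push Not at hlt
    have := pow_lt_pow_left₀ hlt hs0 (n := 4) (by norm_num)
    rw [← hs4] at this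
    norm_num at hNr this
    linarith
  have hlog : Real.log N ≤ 4 * s := by
    rw [hs4, Real.log_pow]
    have := Real.log_le_sub_one_of_pos (x := s) (by linarith)
    push_cast
    linarith
  have hlog1 : Real.log ((N : ℝ) + 1) ≤ 1 + 4 * s := by
    have h7 : Real.log ((N : ℝ) + 1) ≤ Real.log (2 * N) :=
      Real.log_le_log (by linarith) (by linarith)
    rw [Real.log_mul (by norm_num) (by linarith)] at h7
    have := Real.log_two_lt_d9
    linarith
  have h8 : √(N : ℝ) * Real.log N ≤ 4 * s ^ 3 := by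
    rw [hs2]
    have := mul_le_mul_of_nonneg_left hlog (sq_nonneg s)
    nlinarith
  have h9 : 1024 * s ^ 3 ≤ N := by
    rw [hs4]
    have := mul_le_mul_of_nonneg_right hs1 (pow_nonneg hs0 3)
    nlinarith
  have h10 : s ≤ s ^ 3 := by
    have := pow_le_pow_right₀ (show (1 : ℝ) ≤ s by linarith) (show 1 ≤ 3 by norm_num)
    simpa using this
  have h11 : 0.69 * (N : ℝ) ≤ N * Real.log 2 := by nlinarith
  nlinarith

theorem card_ge (N : ℕ) (hN : 2 ^ 40 ≤ N) (A B : ℕ) (hA : 20 * A ≤ N) (hB : Real.log N ≤ B) :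
    ∃ P : Finset Pr, (∀ p ∈ P, p.1 % 4 = 1 ∧ p.1 ≤ N) ∧ A ≤ B * P.card := by
  have h1 := theta41_ge N hN
  set S := (Ioc 0 N).filter (fun d => d.Prime ∧ d % 4 = 1) with hS
  refine ⟨S.subtype Nat.Prime, ?_, ?_⟩
  · intro p hp
    have h := mem_subtype.1 hp
    obtain ⟨h2, _, h3⟩ := mem_filter.1 h
    exact ⟨h3, (mem_Ioc.1 h2).2⟩
  · have hc : (S.subtype Nat.Prime).card = S.card := by
      rw [card_subtype, filter_true_of_mem (fun d hd => (mem_filter.1 hd).2.1)]
    have h2 : ∑ d ∈ S, Real.log d ≤ S.card • (B : ℝ) := by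
      refine sum_le_card_nsmul _ _ _ (fun d hd => le_trans ?_ hB)
      obtain ⟨h3, h4⟩ := mem_Ioc.1 (mem_filter.1 hd).1
      exact Real.log_le_log (by exact_mod_cast h3) (by exact_mod_cast h4)
    have h3 : (A : ℝ) ≤ (N : ℝ) / 20 := by
      have : (20 : ℝ) * A ≤ N := by exact_mod_cast hA
      linarith
    have h4 : (A : ℝ) ≤ (B : ℝ) * S.card := by
      rw [nsmul_eq_mul, mul_comm] at h2
      exact h3.trans (h1.trans h2)
    have h5 : A ≤ B * S.card := by exact_mod_cast h4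
    exact h5.trans (le_of_eq (congrArg (B * ·) hc.symm))

end PR

open PR

theorem primes : PrimesStmt := by
  refine ⟨40, fun ℓ => card_ge _ (Nat.pow_le_pow_right (by norm_num) (by omega)) _ _ ?_ ?_⟩
  · rw [pow_add, mul_comm]
    exact Nat.mul_le_mul_left _ (by norm_num)
  · rw [Nat.cast_pow, Real.log_pow]
    have := Real.log_two_lt_d9
    have h0 : (0 : ℝ) ≤ ((ℓ + 40 : ℕ) : ℝ) := Nat.cast_nonneg _
    have h1 : Real.log ((2 : ℕ) : ℝ) ≤ 1 := by
      push_cast
      linarith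
    exact mul_le_of_le_one_right h0 h1

end Crest.Agent.R2
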