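import Crest.Agent.R2.Defs

set_option autoImplicit false

namespace Crest.Agent.R2

open Finset Filter

namespace RD

theorem exists_iota (p : Pr) : ∃ ι : ZMod p.1, p.1 % 4 = 1 → ι * ι = -1 := by
  by_cases h : p.1 % 4 = 1
  · obtain ⟨y, hy⟩ := (ZMod.exists_sq_eq_neg_one_iff (p := p.1)).2 (by omega)
    exact ⟨y, fun _ => hy.symm⟩
  · exact ⟨0, fun h' => absurd h' h⟩

/-- coordinates of a Gaussian integer -/
def co (z : GaussianInt) : V := (z.re, z.im)

theorem co_inj : Function.Injective co := fun z w h => by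
  simp only [co, Prod.mk.injEq] at h
  exact Zsqrtd.ext h.1 h.2

theorem exists_res : ∃ ρ : Res,
    (∀ p : Pr, p.1 % 4 = 1 → ∀ z, ρ p z = 0 → (p.1 : ℤ) ∣ nrm z) ∧
    ∀ p : Pr, p.1 % 4 = 1 → ∀ z : GaussianInt, Irreducible z → ρ p (co z) = 0 →
      co z ∈ box p.1 := by
  choose ι hι using exists_iota
  refine ⟨fun p =>
    { toFun := fun z => (z.1 : ZMod p.1) + z.2 * ι p
      map_zero' := by simp
      map_add' := fun z w => by simp only [Prod.fst_add, Prod.snd_add]; push_cast; ring }, ?_, ?_⟩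
  · intro p hp z hz
    change (z.1 : ZMod p.1) + z.2 * ι p = 0 at hz
    rw [← ZMod.intCast_zmod_eq_zero_iff_dvd, nrm]
    push_cast
    have := hι p hp
    linear_combination ((z.1 : ZMod p.1) - z.2 * ι p) * hz + (z.2 : ZMod p.1) ^ 2 * this
  · intro p hp z hz h0
    change (z.re : ZMod p.1) + z.im * ι p = 0 at h0
    let φ : GaussianInt →+* ZMod p.1 := Zsqrtd.lift ⟨ι p, by rw [hι p hp]; simp⟩
    have hφ : φ z = 0 := h0
    have hmax := PrincipalIdealRing.isMaximal_of_irreducible hz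
    have hker : Ideal.span {z} = RingHom.ker φ :=
      hmax.eq_of_le (RingHom.ker_ne_top φ) (by
        rw [Ideal.span_le, Set.singleton_subset_iff]; exact hφ)
    have hp' : (p.1 : GaussianInt) ∈ Ideal.span {z} := by
      rw [hker, RingHom.mem_ker]; simp
    obtain ⟨w, hw⟩ := Ideal.mem_span_singleton.1 hp'
    have hn := congrArg Zsqrtd.norm hw
    rw [Zsqrtd.norm_mul, Zsqrtd.norm_natCast] at hn
    have hp0 : (0 : ℤ) < p.1 := by exact_mod_cast p.2.pos
    have hle : z.norm ≤ (p.1 : ℤ) * p.1 := Int.le_of_dvd (by positivity) ⟨_, hn⟩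
    rw [Zsqrtd.norm_def] at hle
    rw [mem_box]
    simp only [co]
    constructor
    · exact abs_le_of_sq_le_sq' (by nlinarith [mul_self_nonneg z.im]) hp0.le |> abs_le.2
    · exact abs_le_of_sq_le_sq' (by nlinarith [mul_self_nonneg z.re]) hp0.le |> abs_le.2

theorem box_mono {a b : ℕ} (h : a ≤ b) {z : V} (hz : z ∈ box a) : z ∈ box b := by
  rw [mem_box] at hz ⊢
  omega

theorem adj_box {D : ℝ} {z w : GaussianInt}
    (h : (Crest.NumberTheoryR.gaussianPrimeGraph D).Adj z w) : co w - co z ∈ box ⌈D⌉₊ := by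
  have h1 : ‖GaussianInt.toComplex (z - w)‖ ≤ (⌈D⌉₊ : ℝ) := h.2.2.2.trans (Nat.le_ceil D)
  have h2 := (Complex.abs_re_le_norm _).trans h1
  have h3 := (Complex.abs_im_le_norm _).trans h1
  rw [← GaussianInt.intCast_re] at h2
  rw [← GaussianInt.intCast_im] at h3
  have h2' : |(z - w).re| ≤ (⌈D⌉₊ : ℤ) := by exact_mod_cast h2
  have h3' : |(z - w).im| ≤ (⌈D⌉₊ : ℤ) := by exact_mod_cast h3
  rw [mem_box]
  simp only [co, Prod.fst_sub, Prod.snd_sub, Zsqrtd.re_sub, Zsqrtd.im_sub, abs_le] at h2' h3' ⊢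
  omega

theorem add_box {a b : ℕ} {z w : V} (hz : z ∈ box a) (hw : w ∈ box b) : z + w ∈ box (a + b) := by
  rw [mem_box] at hz hw ⊢
  simp only [Prod.fst_add, Prod.snd_add, abs_le] at hz hw ⊢
  omega

theorem walk_box {D : ℝ} {z w : GaussianInt}
    (q : (Crest.NumberTheoryR.gaussianPrimeGraph D).Walk z w) :
    co w - co z ∈ box (⌈D⌉₊ * q.length) := by
  induction q with
  | nil => simp [mem_box]
  | cons h q ih =>
    have := add_box ih (adj_box h)
    rw [sub_add_sub_cancel] at this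
    rw [SimpleGraph.Walk.length_cons, mul_add, mul_one]
    exact this

theorem exists_path {D : ℝ} (h : ∀ B : ℕ,
    ∃ c : (Crest.NumberTheoryR.gaussianPrimeGraph D).ConnectedComponent,
      ¬ (c.supp.Finite ∧ c.supp.ncard ≤ B)) (L : ℕ) :
    ∃ Y : ℕ → GaussianInt, (∀ i ≤ L, ∀ j ≤ L, Y i = Y j → i = j) ∧
      ∀ i ≤ L, (Crest.NumberTheoryR.gaussianPrimeGraph D).Adj (Y i) (Y (i + 1)) := by
  obtain ⟨c, hc⟩ := h (box (⌈D⌉₊ * L)).card
  obtain ⟨z, rfl⟩ := c.exists_rep
  have hex : ∃ w, (Crest.NumberTheoryR.gaussianPrimeGraph D).Reachable z w ∧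
      co w - co z ∉ box (⌈D⌉₊ * L) := by
    by_contra hcon
    push Not at hcon
    apply hc
    have hm : ∀ w ∈ ((Crest.NumberTheoryR.gaussianPrimeGraph D).connectedComponentMk z).supp,
        co w - co z ∈ (box (⌈D⌉₊ * L) : Set V) := fun w hw =>
      hcon w (SimpleGraph.ConnectedComponent.exact hw).symm
    have hinj : Function.Injective (fun w => co w - co z) := fun a b hab =>
      co_inj (sub_left_injective hab)
    refine ⟨Set.Finite.of_injOn hm hinj.injOn (finite_toSet _), ?_⟩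
    have := Set.ncard_le_ncard_of_injOn _ hm hinj.injOn (finite_toSet _)
    rwa [Set.ncard_coe_finset] at this
  obtain ⟨w, hw, hw'⟩ := hex
  obtain ⟨q, hq, -⟩ := hw.exists_path_of_dist
  have hL : L < q.length := by
    by_contra hc
    exact hw' (box_mono (Nat.mul_le_mul_left _ (not_lt.1 hc)) (walk_box q))
  refine ⟨q.getVert, fun i hi j hj e => ?_, fun i hi => q.adj_getVert_succ (by omega)⟩
  exact hq.getVert_injOn (show i ≤ q.length by omega) (show j ≤ q.length by omega) e

theorem exists_far {D : ℝ} (h : ∀ B : ℕ,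
    ∃ c : (Crest.NumberTheoryR.gaussianPrimeGraph D).ConnectedComponent,
      ¬ (c.supp.Finite ∧ c.supp.ncard ≤ B)) (k : ℕ) :
    ∃ Y : ℕ → GaussianInt, (∀ i ≤ k, ∀ j ≤ k, Y i = Y j → i = j) ∧
      (∀ i ≤ k, (Crest.NumberTheoryR.gaussianPrimeGraph D).Adj (Y i) (Y (i + 1))) ∧
      ∀ i ≤ k, co (Y i) ∉ box k := by
  obtain ⟨Y, h1, h2⟩ := exists_path h (((box k).card + 1) * (k + 1))
  have hb : ∀ m < (box k).card + 1, ∀ i ≤ k, m * (k + 1) + i ≤ ((box k).card + 1) * (k + 1) := by
    intro m hm i hi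
    nlinarith
  have hex : ∃ m < (box k).card + 1, ∀ i ≤ k, co (Y (m * (k + 1) + i)) ∉ box k := by
    by_contra hc
    push Not at hc
    choose! ν hν hν' using hc
    have : (range ((box k).card + 1)).card ≤ (box k).card := by
      refine card_le_card_of_injOn (fun m => co (Y (m * (k + 1) + ν m)))
        (fun m hm => hν' m (mem_range.1 hm)) fun m hm m' hm' e => ?_
      have a := mem_range.1 hm
      have a' := mem_range.1 hm'
      have e2 := h1 _ (hb m a _ (hν m a)) _ (hb m' a' _ (hν m' a')) (co_inj e)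
      have b := hν m a
      have b' := hν m' a'
      rcases lt_trichotomy m m' with c | c | c
      · nlinarith
      · exact c
      · nlinarith
    rw [card_range] at this
    omega
  obtain ⟨m, hm, hm'⟩ := hex
  refine ⟨fun i => Y (m * (k + 1) + i), fun i hi j hj e => ?_, fun i hi => ?_, hm'⟩
  · have := h1 _ (hb m hm i hi) _ (hb m hm j hj) e
    omega
  · exact h2 _ (hb m hm i hi)

theorem ev_const {α : Type} (U : Ultrafilter ℕ) (f : ℕ → α) {s : Set α} (hs : s.Finite)
    (h : ∀ᶠ k in (U : Filter ℕ), f k ∈ s) : ∃ a, ∀ᶠ k in (U : Filter ℕ), f k = a := by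
  obtain ⟨a, -, ha⟩ := Ultrafilter.eq_pure_of_finite_mem (f := U.map f) hs h
  refine ⟨a, ?_⟩
  have : ({a} : Set α) ∈ U.map f := by rw [ha]; simp
  exact this

end RD

open RD in
theorem red : RedStmt := by
  intro hM D
  by_contra hc
  push Not at hc
  have hc' : ∀ B : ℕ, ∃ c : (Crest.NumberTheoryR.gaussianPrimeGraph D).ConnectedComponent,
      ¬ (c.supp.Finite ∧ c.supp.ncard ≤ B) := fun B => by
    obtain ⟨c, h⟩ := hc B
    exact ⟨c, fun h' => absurd (h h'.1) (not_lt.2 h'.2)⟩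
  choose Y h1 h2 h3 using exists_far hc'
  obtain ⟨ρ, hρ1, hρ2⟩ := exists_res
  let U : Ultrafilter ℕ := hyperfilter ℕ
  have hU : ∀ n, ∀ᶠ k in (U : Filter ℕ), n ≤ k := fun n =>
    Nat.hyperfilter_le_atTop (eventually_ge_atTop n)
  have hb : ∀ k n, n ≤ k → co (Y k n) - co (Y k 0) ∈ box (⌈D⌉₊ * n) := by
    intro k n
    induction n with
    | zero => intro _; simp [mem_box]
    | succ n ih =>
      intro hn
      have := add_box (adj_box (h2 k n (by omega))) (ih (by omega))
      rw [sub_add_sub_cancel] at this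
      rw [mul_add, mul_one, add_comm (_ * _)]
      exact this
  have hX := fun n => ev_const U (fun k => co (Y k n) - co (Y k 0))
    (finite_toSet (box (⌈D⌉₊ * n))) ((hU n).mono fun k hk => hb k n hk)
  choose X hX using hX
  have hcc := fun p : Pr => ev_const U (fun k => -ρ p (co (Y k 0))) Set.finite_univ
    (Eventually.of_forall fun _ => Set.mem_univ _)
  choose c hcc using hcc
  have hW : Walk ⌈D⌉₊ X := by
    constructor
    · intro i j e
      obtain ⟨k, a1, a2, a3, a4⟩ := ((hX i).and ((hX j).and ((hU i).and (hU j)))).exists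
      rw [← a1, ← a2] at e
      exact h1 k i a3 j a4 (co_inj (sub_left_injective e))
    · intro n
      obtain ⟨k, a1, a2, a3⟩ := ((hX n).and ((hX (n + 1)).and (hU n))).exists
      rw [← a1, ← a2, sub_sub_sub_cancel_right]
      exact adj_box (h2 k n a3)
  obtain ⟨p, hp, n, hn⟩ := hM _ X hW ρ hρ1 c
  obtain ⟨k, a1, a2, a3, a4⟩ := ((hX n).and ((hcc p).and ((hU n).and (hU p.1)))).exists
  rw [← a1, ← a2, map_sub, sub_eq_add_neg, add_eq_right] at hn
  exact h3 k n a3 (box_mono a4 (hρ2 p hp _ (h2 k n a3).2.1 hn))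

end Crest.Agent.R2
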