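import Crest.Agent.R2.Sys

/-!
Row 2 (Gaussian moat), second wave: statements about the multi-scale system `Sys`.
Each `…Stmt : Prop` carries its full proof in the docstring. `Ex` has no Fubini: only linearity
(`E_add`, `E_sum`, `E_mul_left`, …), monotonicity (`mono`, `AS.le`) and the Jensen lemmas.
-/

set_option autoImplicit false

namespace Crest.Agent.R2

open Finset

/-- **2-API (elementary facts on codes and scores).** -/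
structure CodeAPI : Prop where
  cost_unif : ∀ (O : Obj) (ν : Ex ℕ), O.Cost ν (Real.log O.S.card)
  cost_mono : ∀ (O : Obj) (ν : Ex ℕ) (h h' : ℝ), h ≤ h' → O.Cost ν h → O.Cost ν h'
  cost_nonneg : ∀ (O : Obj) (ν : Ex ℕ) (h : ℝ), O.Cost ν h → 0 ≤ h
  cost2_nonneg : ∀ (S : Sys) (O : Obj) (i : ℕ) (ν' : Ex ℕ) (h : ℝ), S.Cost2 O i ν' h → 0 ≤ h
  gain_zero : ∀ (S : Sys) (O : Obj) (i : ℕ) (ν' : Ex ℕ), S.Gain O i ν' 0
  gain_mono : ∀ (S : Sys) (O : Obj) (i : ℕ) (ν' : Ex ℕ) (g g' : ℝ), g' ≤ g →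
    S.Gain O i ν' g → S.Gain O i ν' g'
  cost_merge : ∀ (S : Sys) (O : Obj) (i b : ℕ) (ν' : Ex ℕ) (h : ℝ), S.Cost2 O i ν' h →
    (S.merge O i b).Cost ν' (b * h + 30 * S.r (i + 1))
  score_mono : ∀ (S : Sys) (ρ : Res) (P : Finset Pr) (O : Obj) (ν : Ex ℕ) (e e' : ℝ), e' ≤ e →
    S.Score ρ P O ν e → S.Score ρ P O ν e'
  score_le : ∀ (S : Sys) (ρ : Res) (P : Finset Pr) (O : Obj) (ν : Ex ℕ) (e : ℝ) (L : ℕ),
    P.Nonempty → (∀ p ∈ P, p.1 ≤ 2 ^ L) → S.Score ρ P O ν e → e ≤ L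
  score_pass : ∀ (S : Sys) (ρ : Res) (P : Finset Pr) (O : Obj) (i b : ℕ) (ν' : Ex ℕ) (e : ℝ),
    1 ≤ b → S.Score ρ P O (ν'.bind (S.child i)) e → S.Score ρ P (S.merge O i b) ν' e
  set_score : ∀ (S : Sys) (ρ : Res) (P : Finset Pr) (O : Obj) (ν : Ex ℕ)
    (U : (p : Pr) → O.Δ → Finset (ZMod p.1)) (π ε θ : ℝ), 0 < θ → θ ≤ 1 →
    π * P.card ≤ ∑ p ∈ P, ν.E (fun a => (O.L a).E fun x =>
      if ρ p (S.X a) ∈ U p x then 1 else 0) →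
    ∑ p ∈ P, ν.E (fun a => (O.L a).E fun x => ((U p x).card : ℝ) / p.1) ≤ ε * P.card →
    S.Score ρ P O ν ((π - ε / θ) * Real.log (1 / θ) - Real.log 2)

/-- **2-MERGE (one level: the score doubles or the code gains; uses `AP1Stmt`).**
Proof. Let `ψ` witness the score, `Z p x₁ x₂ w = (∑ c, ψ p x₁ c * ψ p x₂ (c + w)) / p > 0`;
`∑ w, Z p x₁ x₂ w = (∑ ψ p x₁)(∑ ψ p x₂) / p ≤ p`. Write `d = X t - X s`, `𝔼` for
`ν'.E (a ↦ (St i a).E (st ↦ ((O.L s).prod (O.L t)).E …))`, `z p = 𝔼 log (Z p x₁ x₂ (ρ p d))`.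
*Case `∑ p ∈ P, z p ≤ ζ |P|`.* For `x' = (δ, d, w)` with `w ⟨0, _⟩ = (x₁, x₂)` put
`ψ' p x' c = ψ p x₁ (c + ρ δ) * ψ p x₂ (c + ρ δ + ρ d) / Z p x₁ x₂ (ρ d)`; its sum over `c` is `p`
(reindex `c + ρ δ`). At `c = ρ (X a)`, `δ = X s - X a`: `log ψ' = log ψ p x₁ (ρ (X s)) +
log ψ p x₂ (ρ (X t)) - log Z`; use `merge_E`, `Ex.pow_E_coord`, `child_E`: the new total is twice
the old one minus `∑ z p`.
*Other case.* `St_eq`: `St i a = unif.bind (u ↦ G i (a+u))`; let `ν''` be the law of `a' = a + u`,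
`w p = z p - ν''.E (a' ↦ if ρ p (v i a') = 0 then log p else 0)`. By `NormDiv.sum_log_le` (with
`nrm v ≤ 2^(3r)`, `r = S.r (i+1)`), `∑ w p ≥ ζ |P| - 3 r`. Pick `K ⊆ P`, `|K| = k`, with
`∑ K w ≥ (k / |P|) ∑ P w` (remove a minimal element repeatedly). Given a code `q` put
`N d = ∑ x ∈ S ×ˢ S, q x.1 * q x.2 * ∏ p ∈ K, Z p x.1 x.2 (ρ p d) > 0` (`O.S` is nonempty:
`(O.hS 0).exists`), `q₂ d x = q x.1 * q x.2 * (∏ p ∈ K, Z …) / N d`. For each `a'`: by `AP1Stmt`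
(`∏ K ≤ 2^(kL) ≤ 2^r`) and `(∑ q)² ≤ 1`, `∑ j < 2^r, N (y + j • v) ≤ 2^r M` with
`M = 2 ∏_{p ∈ K, ρ p v = 0} p`, so `(G i a').E (N d) ≤ K M` (`hG'`), and `Ex.E_log_le` gives
`(G i a').E (log (N d)) ≤ log (2 K) + ∑_{p ∈ K, ρ p v = 0} log p`. Add up:
`𝔼 (-log q₂) = 2 h₀ - ∑ K z + 𝔼 log N ≤ 2 h - ∑ K w + log (2K)`. -/
def MergeStmt : Prop :=
  ∀ (S : Sys) (ρ : Res) (P : Finset Pr), NormDiv ρ P → ∀ L k : ℕ, (∀ p ∈ P, p.1 ≤ 2 ^ L) →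
    P.Nonempty → k ≤ P.card → ∀ (O : Obj) (i b : ℕ) (ν' : Ex ℕ) (e ζ : ℝ), 1 ≤ b →
    k * L ≤ S.r (i + 1) → S.Score ρ P O (ν'.bind (S.child i)) e →
    S.Score ρ P (S.merge O i b) ν' (2 * e - ζ) ∨
      S.Gain O i ν' (k * ζ - Real.log (2 * S.K) - k * (3 * S.r (i + 1)) / P.card)

/-- **2-BLOCK (sixteen levels; uses `CodeAPI`, `MergeStmt`).**
Proof. Suppose no level gains. With `L = 1601 t`, `r = S.r (i+1)`, `k = r / L`, `ζ = t / 20`: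
`L ≤ r` (as `r ≥ 2^(40 t)`), so `k ≥ r / (2L)`; `k ≤ |P|` and `3 r / |P| ≤ t / 40` from
`120 r ≤ t |P|` (`r_mono`); `log (2K) ≤ j0 + 1`, so the gain of `MergeStmt` is
`≥ k t / 40 - (j0 + 1) ≥ r / 128080 - (j0 + 1) ≥ r / 2^18` (`lin_le_r`). Hence the first alternative
holds at each level and by induction the score at level `i₁ + m` is `t/20 + 2^m t/20`; at `m = 16`
this exceeds `1601 t`, contradicting `score_le`. -/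
def BlockStmt : Prop :=
  ∀ (S : Sys) (ρ : Res) (P : Finset Pr), NormDiv ρ P → ∀ t i₁ : ℕ, S.j0 ≤ t → t ≤ S.j0 + i₁ →
    (∀ p ∈ P, p.1 ≤ 2 ^ (1601 * t)) → 120 * S.r (i₁ + 16) ≤ t * P.card →
    ∀ (O : ℕ → Obj) (bs : ℕ → ℕ) (ν : ℕ → Ex ℕ),
    (∀ i, i₁ ≤ i → i < i₁ + 16 → 1 ≤ bs i ∧ O (i + 1) = S.merge (O i) i (bs i) ∧
      ν i = (ν (i + 1)).bind (S.child i)) →
    S.Score ρ P (O i₁) (ν i₁) (t / 10) →
    ∃ i, i₁ ≤ i ∧ i < i₁ + 16 ∧ S.Gain (O i) i (ν (i + 1)) (S.r (i + 1) / 2 ^ 18)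

/-- **2-F (energy halving; uses `AP2Stmt`).**
Proof. Let `en i a` be the left side at level `i`, `m = |P|`. Trivially `en i a ≤ s m`
(`Ex.sq_E_le`, `E_sum`, reindex `c`). Let `g p x = (∑ c, f p c * f p (c + x)) / (s p)`:
`∑ x, g p x = 0`, `|g p x| ≤ 1` (`2|ab| ≤ a² + b²`), and `Γ z = ∑ p ∈ P, g p (ρ p z)`.
Step, for `2t ≤ j0 + i < 4t`: with `A, B` the `mu i`-means at the children `s', t'`,
`(mu (i+1) a).E F = (St i a).E ((A + B)/2)` (`mu_succ`, `child_E`), so by `sq_E_le`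
`en (i+1) a ≤ (St i a).E (en i s' / 4 + en i t' / 4 + (s/2) (mu i s').E (u ↦ (mu i t').E (w ↦
Γ (X w - X u))))` (linearity and reindexing `c`). For each `a'` bound the mean of `Γ (X w - X u)`
under `(G i a').bind …` by `τ = m / 4^t` with `Ex.E_le_of_moment`, `q = r / (4L)`, `r = S.r (i+1)`,
`L = 1601 t`: a.s. `X w - X u = d + δ` with `d = X t' - X s'`, `δ ∈ box (2 * rad i)` (`mu_box`), so
`Γ(X w - X u)^(2q) ≤ ∑ δ ∈ box (2 rad i), Γ (d + δ)^(2q)`; by `hG'` (for `Φ z = Γ (z + δ)^(2q)`) and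
`AP2Stmt` (`W = √m ≥ 2^(200 t)`, `β = 3r` by `NormDiv.card_le`, `n = 2^r`) the moment is at most
`2^(15 r') K (2 (Wq + 1 + 3r))^(2q)`, `r' = S.r i` (`card_box_rad_le`). Now
`2^(15 r') K ≤ 2^(16 r') ≤ (2^t)^(2q)` (`q ≥ r / (8L)`, `r = 2^40 r'`) and
`2^t · 2 (Wq + 1 + 3r) ≤ 2^t · 10 W r ≤ 2^(161 t + 4) W ≤ W² / 4^t` (`r ≤ 2^(160 t)`).
So `sup en (i+1) ≤ sup en i / 2 + s τ / 2`; iterate `2t` times from `j0 + i = 2t`. -/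
def FStmt : Prop :=
  ∀ (S : Sys) (ρ : Res) (P : Finset Pr), NormDiv ρ P → ∀ t i : ℕ, S.j0 ≤ t → S.j0 + i = 4 * t →
    (∀ p ∈ P, p.1 ≤ 2 ^ (1601 * t)) → 2 ^ (400 * t) ≤ P.card →
    ∀ (f : (p : Pr) → ZMod p.1 → ℝ) (s : ℝ), 0 < s → (∀ p ∈ P, ∑ c, f p c = 0) →
    (∀ p ∈ P, ∑ c, f p c ^ 2 ≤ s * p.1) → ∀ a : ℕ,
    ∑ p ∈ P, (∑ c, ((S.mu i a).E fun u => f p (ρ p (S.X u) + c)) ^ 2) / p.1 ≤
      2 * s * P.card / 4 ^ t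

/-- The classes that a random leaf of level `i` below `a` hits with probability `< 1 / (2p)`. -/
noncomputable def Sys.rare (S : Sys) {p : Pr} (ρ : V →+ ZMod p.1) (i a : ℕ) : Finset (ZMod p.1) :=
  univ.filter fun c => ((S.mu i a).E fun u => if ρ (S.X u) = c then 1 else 0) < 1 / (2 * p.1)

/-- **2-B (few rare classes; uses `CodeAPI`, `BlockStmt`, `FStmt`).**
Proof. `B p = rare`, `b p = |B p|`, `P₁ = {p ∈ P | p ≤ 2^t b p}`. If `2^t |P₁| ≤ |P|` the sum is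
`≤ |P₁| + |P| / 2^t`. Otherwise `|P₁| ≥ 2^(400 t)`; derive a contradiction. For `p ∈ P₁` let
`φ p c = (p / b p) 1[c ∈ B p] - 1 ≥ -1`: `∑ φ = 0`, `∑ φ² ≤ 2^t p`, and
`(mu i a).E (φ p (ρ (X u))) ≤ -1/2`. Let `j0 + iF = 4t`, `ν` from `exists_chain i a`, `n = 4^t`,
base object `O₀`: `Δ = Fin n → V`, `S = piFinset (fun _ => box (rad iF))`,
`L s = ((mu iF s).map (fun u => X u - X s)).pow n` (`mu_box`, `AS_pow`),
`emp p x c = (∑ l, φ p (c + ρ (x l))) / n ≥ -1`, `U p x = {c | emp p x c ≤ -1/8}`.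
(π) `1[emp ≤ -1/8] ≥ (8/7)(-emp - 1/8)`, and `(ν iF).E (s ↦ (L s).E (emp p x (ρ (X s)))) =
(mu i a).E (φ p (ρ (X u)))` (`pow_E_sum`, `Chain.bind_mu`), so `π = 3/7`.
(ε) `|U| ≤ 64 ∑ c, emp²`; `pow_E_sq_sum` gives `(L s).E emp² ≤ E φ² / n + (E φ)²`; summing over `c`
(reindex by `c - ρ (X s)`) and `p ∈ P₁` with `FStmt` (`s = 2^t`): `ε = 192 / 2^t`.
`set_score` with `θ = 2^12 / 2^t`: score `≥ (t - 12) log 2 / 3 - log 2 ≥ t / 10` (`t ≥ 100`).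
Let `O' 0 = O₀`, `O' (k+1) = merge (O' k) (iF + k) 1`, `O j = O' (j - iF)`. `score_pass` carries the
score up to level `i₁ = i - 16`. Costs (`cost_unif`, `log_card_box_rad_le`, `gain_zero`,
`cost_merge`): `H k = 15 · 2^k 4^t r iF + 60 r (iF + k) ≤ 75 r (iF + k)` for `k ≥ t` (`r_add`).
`BlockStmt` (for `P₁`) gives a level `j` with `Cost2 (150 r j - 2^22 r j)`, negative: contradiction
with `cost2_nonneg`. -/
def BStmt : Prop :=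
  ∀ (S : Sys) (ρ : Res) (P : Finset Pr), NormDiv ρ P → ∀ t i : ℕ, S.j0 ≤ t → S.j0 + i = 6 * t →
    (∀ p ∈ P, p.1 ≤ 2 ^ (1601 * t)) → 2 ^ (401 * t) ≤ P.card → ∀ a : ℕ,
    ∑ p ∈ P, ((S.rare (ρ p) i a).card : ℝ) / p.1 ≤ 2 * P.card / 2 ^ t

/-- Expected number of leaves in the class `c` minus the probability that `c` is hit. -/
noncomputable def Sys.defi (S : Sys) {p : Pr} (ρ : V →+ ZMod p.1) (i a : ℕ) (c : ZMod p.1) : ℝ :=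
  S.nn i * ((S.mu i a).E fun u => if ρ (S.X u) = c then 1 else 0) - (1 - S.miss ρ i a c)

/-- **2-DEF (Bonferroni along the tree).**
Proof. Write `μ` for the class probability, `π = 1 - miss ∈ [0,1]`, `n = nn i`.
(1) `0 ≤ defi` by induction: base: `1[hit] ≤ #hits`; step: with `x = π s`, `y = π t`,
`1 - ((1-x)(1-y))^b ≤ b (x + y)` (Bernoulli `one_add_mul_le_pow`), `nn_succ`, `mu_succ`, `child_E`.
(2) Atoms: `(mu i a).E 1[u = w] ≤ 4 / 2^(r i)` (base: swap the two finite sums; step: `St_eq`, given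
the shift `u` the leaf lies a.s. in `[a+u, a+u + 2 · 2^(5r)]` (`hG'`, `mu_range`), and at most
`2 · 2^(5r) + 1` of the `2^(6r)` shifts are compatible with `w`).
(3) Collisions: `∑ p ∈ P, ∑ c, μ c ^ 2 = (mu).E (u ↦ (mu).E (w ↦ #{p ∈ P | ρ p (X w - X u) = 0}))
≤ |P| · 4 / 2^(r i) + 15 r i` (`walk.inj`, `mu_range`, `Walk.sub_mem`, `rad_eq`,
`nrm_le_of_mem_rad`, `NormDiv.card_le`).
(4) Induction on `i`: `∑ p, ∑ c, defi ≤ nn i · |P| · 2 (i+1) / 4^t`. Base: `#hits - 1[hit] ≤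
#{(k,k') | k ≠ k', both hit}`, total `≤ n² · 15 r 0`. Step: `((1-x)(1-y))^b ≤ exp (-z) ≤ 1 - z + z²`
for `z = b (x+y)` (`exp (-z) ≤ 1/(1+z)`), `z² ≤ 2 b² n² (μ_s² + μ_t²)` by (1); so
`defi (i+1) ≤ St.E (b defi_s + b defi_t + 2 b² n² (μ_s² + μ_t²))`, and the increment per leaf is
`nn (i+1) (4 / 2^(r i) + 15 r i / |P|) ≤ 2 / 4^t` (`nn_le`, `t ≤ 2^j0`, `r_eq`).
Finally `2 (6t + 1) / 4^t ≤ 1 / (4 · 2^t)`. -/
def DefStmt : Prop :=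
  (∀ (S : Sys) (p : Pr) (ρ : V →+ ZMod p.1) (i a : ℕ) (c : ZMod p.1), 0 ≤ S.defi ρ i a c) ∧
  ∀ (S : Sys) (ρ : Res) (P : Finset Pr), NormDiv ρ P → ∀ t i : ℕ, S.j0 ≤ t → t ≤ 2 ^ S.j0 →
    S.j0 + i ≤ 6 * t → 2 ^ (1500 * t) ≤ P.card → ∀ a : ℕ,
    ∑ p ∈ P, ∑ c, S.defi (ρ p) i a c ≤ S.nn i * P.card / (4 * 2 ^ t)

/-- **2-COV (coverage; uses `BStmt`, `DefStmt`).**
Proof. Let `j0 + i₀ = 6t`, `ν` from `exists_chain i a`. Downward induction on `j ∈ [i₀, i]`: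
there is `N ≥ 1` with `N * nn j = nn i` and `miss i a c ≤ (ν j).E (s ↦ miss j s c ^ N)` for all
`p, c` (step: `Ex.pow_E_le`, then `(xy)^(bN) ≤ (x^(2bN) + y^(2bN)) / 2`, `child_E`, `nn_succ`).
At level `i₀`, `n = nn i₀`: pointwise
`miss ^ N ≤ 1 / 2^t + 1[c ∈ rare] + (4p / n) defi`: if `c ∉ rare` and `defi ≤ n / (4p)` then
`miss ≤ 1 - n/(4p) ≤ exp (-n/(4p))` and `miss ^ N ≤ exp (-nn i / (4p)) ≤ exp (-t) ≤ 1 / 2^t` since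
`nn i ≥ 4 · 2^(1600 t + γ) t` (`nn_eq`, `le_two_pow_clog`, `r_eq`); otherwise use `miss ≤ 1`.
Sum over `c`, divide by `p`, sum over `p` (`γ ≤ j0 ≤ t` gives `p ≤ 2^(1601 t)`). -/
def CovStmt : Prop :=
  ∀ (S : Sys) (ρ : Res) (P : Finset Pr), NormDiv ρ P → ∀ t i : ℕ, S.j0 ≤ t → t ≤ 2 ^ S.j0 →
    S.j0 + i + 17 = 40 * t → (∀ p ∈ P, p.1 ≤ 2 ^ (1600 * t + S.γ)) →
    2 ^ (1500 * t) ≤ P.card → ∀ a : ℕ,
    ∑ p ∈ P, (∑ c, S.miss (ρ p) i a c) / p.1 ≤ 4 * P.card / 2 ^ t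

end Crest.Agent.R2
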