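import Crest.Agent.R2.Defs

set_option autoImplicit false

namespace Crest.Agent.R2

open Finset

theorem strip_a (n : ℕ) (q : V) (hn : 1 ≤ n) (hq : q ∈ box (2 * n ^ 2)) :
    ∃ v : V, v ≠ 0 ∧ v ∈ box n ∧ |q.1 * v.2 - q.2 * v.1| ≤ 8 * n := by
  rw [mem_box] at hq
  obtain ⟨hq1, hq2⟩ := hq
  push_cast at hq1 hq2
  have hn' : (1 : ℤ) ≤ n := by exact_mod_cast hn
  let s : Finset V := Icc (0 : ℤ) n ×ˢ Icc (0 : ℤ) n
  let f : V → ℤ := fun w => (q.1 * w.2 - q.2 * w.1 + 4 * n ^ 3) / (8 * n + 1)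
  have hcard : (Ico (0 : ℤ) (n ^ 2)).card < s.card := by
    simp only [s, card_product, Int.card_Icc, Int.card_Ico]
    have e1 : ((n : ℤ) ^ 2 - 0).toNat = n ^ 2 := by
      rw [sub_zero]; exact_mod_cast Int.toNat_natCast (n ^ 2)
    have e2 : ((n : ℤ) + 1 - 0).toNat = n + 1 := by omega
    rw [e1, e2]; nlinarith
  have hmap : ∀ w ∈ s, f w ∈ Ico (0 : ℤ) (n ^ 2) := by
    intro w hw
    simp only [s, mem_product, mem_Icc] at hw
    obtain ⟨⟨a1, a2⟩, b1, b2⟩ := hw
    have c1 : |q.1 * w.2| ≤ 2 * n ^ 2 * n := by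
      rw [abs_mul, abs_of_nonneg b1]
      exact mul_le_mul hq1 b2 b1 (by positivity)
    have c2 : |q.2 * w.1| ≤ 2 * n ^ 2 * n := by
      rw [abs_mul, abs_of_nonneg a1]
      exact mul_le_mul hq2 a2 a1 (by positivity)
    rw [abs_le] at c1 c2
    rw [mem_Ico]
    constructor
    · exact Int.ediv_nonneg (by nlinarith) (by positivity)
    · exact Int.ediv_lt_of_lt_mul (by positivity) (by nlinarith)
  obtain ⟨w, hw, w', hw', hne, hf⟩ := exists_ne_map_eq_of_card_lt_of_maps_to hcard hmap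
  simp only [s, mem_product, mem_Icc] at hw hw'
  refine ⟨w - w', sub_ne_zero.2 hne, ?_, ?_⟩
  · rw [mem_box]
    simp only [Prod.fst_sub, Prod.snd_sub, abs_le]
    omega
  · simp only [Prod.fst_sub, Prod.snd_sub, f] at hf ⊢
    have h8 : (0 : ℤ) < 8 * n + 1 := by positivity
    have a1 := Int.mul_ediv_add_emod (q.1 * w.2 - q.2 * w.1 + 4 * n ^ 3) (8 * n + 1)
    have a2 := Int.mul_ediv_add_emod (q.1 * w'.2 - q.2 * w'.1 + 4 * n ^ 3) (8 * n + 1)
    have a3 := Int.emod_nonneg (q.1 * w.2 - q.2 * w.1 + 4 * n ^ 3) h8.ne'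
    have a4 := Int.emod_nonneg (q.1 * w'.2 - q.2 * w'.1 + 4 * n ^ 3) h8.ne'
    have a5 := Int.emod_lt_of_pos (q.1 * w.2 - q.2 * w.1 + 4 * n ^ 3) h8
    have a6 := Int.emod_lt_of_pos (q.1 * w'.2 - q.2 * w'.1 + 4 * n ^ 3) h8
    rw [hf] at a1
    rw [abs_le]
    constructor <;> nlinarith

/-- the solutions `y` of `|a y - b| ≤ c R`, `R ≤ |a|`, lie in an interval of length `2c` -/
theorem strip_line (R c : ℕ) (a b : ℤ) (hR : 1 ≤ R) (ha : (R : ℤ) ≤ |a|) (s : Finset ℤ)
    (hs : ∀ y ∈ s, |a * y - b| ≤ c * R) : s.card ≤ 2 * c + 1 := by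
  rcases s.eq_empty_or_nonempty with rfl | hne
  · simp
  have hsub : s ⊆ Icc (s.min' hne) (s.min' hne + 2 * c) := by
    intro y hy
    rw [mem_Icc]
    have h0 := s.min'_le y hy
    refine ⟨h0, ?_⟩
    have h1 := hs y hy
    have h2 := hs _ (s.min'_mem hne)
    have h3 : |a * (y - s.min' hne)| ≤ 2 * c * R := by
      rw [abs_le] at h1 h2 ⊢
      constructor <;> nlinarith
    rw [abs_mul, abs_of_nonneg (sub_nonneg.2 h0)] at h3
    have hR' : (1 : ℤ) ≤ R := by exact_mod_cast hR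
    by_contra hc
    push Not at hc
    nlinarith
  refine (card_le_card hsub).trans ?_
  rw [Int.card_Icc]
  omega

theorem strip_b (R T c : ℕ) (q : V) (hR : 1 ≤ R) (hq : q ∉ box (R - 1)) :
    ((box T).filter (fun x => |q.1 * x.2 - q.2 * x.1| ≤ c * R)).card ≤
      (2 * T + 1) * (2 * c + 1) := by
  have hI : (Icc (-(T : ℤ)) T).card = 2 * T + 1 := by
    rw [Int.card_Icc]; omega
  rw [mem_box, not_and_or, not_le, not_le] at hq
  have hR' : ((R - 1 : ℕ) : ℤ) = R - 1 := by omega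
  rw [hR'] at hq
  rcases hq with hq | hq
  · rw [← hI, mul_comm (Finset.card _)]
    refine card_le_mul_card_image_of_maps_to (f := (Prod.fst : V → ℤ)) (fun x hx => ?_) _
      fun b _ => ?_
    · exact (mem_product.1 (mem_filter.1 hx).1).1
    · rw [← card_image_of_injOn (f := (Prod.snd : V → ℤ))]
      · refine strip_line R c q.1 (q.2 * b) hR (by omega) _ fun y hy => ?_
        obtain ⟨x, hx, rfl⟩ := mem_image.1 hy
        rw [mem_filter, mem_filter] at hx
        rw [← hx.2]; exact hx.1.2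
      · intro x hx y hy h
        exact Prod.ext ((mem_filter.1 hx).2.trans (mem_filter.1 hy).2.symm) h
  · rw [← hI, mul_comm (Finset.card _)]
    refine card_le_mul_card_image_of_maps_to (f := (Prod.snd : V → ℤ)) (fun x hx => ?_) _
      fun b _ => ?_
    · exact (mem_product.1 (mem_filter.1 hx).1).2
    · rw [← card_image_of_injOn (f := (Prod.fst : V → ℤ))]
      · refine strip_line R c q.2 (q.1 * b) hR (by omega) _ fun y hy => ?_
        obtain ⟨x, hx, rfl⟩ := mem_image.1 hy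
        rw [mem_filter, mem_filter] at hx
        rw [← hx.2, abs_sub_comm]; exact hx.1.2
      · intro x hx y hy h
        exact Prod.ext h ((mem_filter.1 hx).2.trans (mem_filter.1 hy).2.symm)

theorem strip : StripStmt := ⟨strip_a, strip_b⟩

end Crest.Agent.R2
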