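import Crest.Agent.R2.Defs

/-!
Row 2 (Gaussian moat): the multi-scale system (kernels, leaf laws, objects, codes, scores) and
its elementary API.
-/

set_option autoImplicit false

namespace Crest.Agent.R2

open Finset

theorem box_mono {A B : ℕ} (h : A ≤ B) : box A ⊆ box B := by
  intro z hz
  rw [mem_box] at *
  have : (A : ℤ) ≤ B := by exact_mod_cast h
  constructor <;> linarith [hz.1, hz.2]

theorem add_mem_box {A B : ℕ} {z w : V} (hz : z ∈ box A) (hw : w ∈ box B) :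
    z + w ∈ box (A + B) := by
  rw [mem_box] at *
  push_cast
  exact ⟨(abs_add_le _ _).trans (add_le_add hz.1 hw.1), (abs_add_le _ _).trans (add_le_add hz.2 hw.2)⟩

theorem neg_mem_box {A : ℕ} {z : V} (hz : z ∈ box A) : -z ∈ box A := by
  rw [mem_box] at *
  simpa using hz

theorem sub_mem_box {A B : ℕ} {z w : V} (hz : z ∈ box A) (hw : w ∈ box B) :
    z - w ∈ box (A + B) := by
  rw [sub_eq_add_neg]; exact add_mem_box hz (neg_mem_box hw)

theorem nrm_le_of_mem_box {B : ℕ} {z : V} (hz : z ∈ box B) : nrm z ≤ 2 * (B : ℤ) ^ 2 := by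
  rw [mem_box] at hz
  have h1 : z.1 ^ 2 ≤ (B : ℤ) ^ 2 := by rw [← sq_abs]; exact pow_le_pow_left₀ (abs_nonneg _) hz.1 2
  have h2 : z.2 ^ 2 ≤ (B : ℤ) ^ 2 := by rw [← sq_abs]; exact pow_le_pow_left₀ (abs_nonneg _) hz.2 2
  unfold nrm; linarith

theorem nrm_pos {z : V} (hz : z ≠ 0) : 0 < nrm z := by
  unfold nrm
  by_contra h
  apply hz
  have h1 : z.1 = 0 := by nlinarith [sq_nonneg z.1, sq_nonneg z.2]
  have h2 : z.2 = 0 := by nlinarith [sq_nonneg z.1, sq_nonneg z.2]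
  exact Prod.ext h1 h2

theorem Walk.add_sub_mem {D : ℕ} {X : ℕ → V} (h : Walk D X) (a k : ℕ) :
    X (a + k) - X a ∈ box (D * k) := by
  induction k with
  | zero => simp [mem_box]
  | succ k ih =>
    have := add_mem_box ih (h.step (a + k))
    rw [show X (a + k) - X a + (X (a + k + 1) - X (a + k)) = X (a + (k + 1)) - X a by
      rw [← add_assoc]; abel] at this
    rw [mul_add, mul_one]; exact this

/-- Two times in a window of length `T` give points at distance at most `D T`. -/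
theorem Walk.sub_mem {D : ℕ} {X : ℕ → V} (h : Walk D X) {a T s t : ℕ} (hs : a ≤ s)
    (hs' : s ≤ a + T) (ht : a ≤ t) (ht' : t ≤ a + T) : X t - X s ∈ box (D * T) := by
  rcases le_total s t with hst | hst
  · obtain ⟨k, rfl⟩ := Nat.exists_eq_add_of_le hst
    exact box_mono (Nat.mul_le_mul_left _ (by omega)) (h.add_sub_mem s k)
  · obtain ⟨k, rfl⟩ := Nat.exists_eq_add_of_le hst
    have := neg_mem_box (h.add_sub_mem t k)
    rw [neg_sub] at this
    exact box_mono (Nat.mul_le_mul_left _ (by omega)) this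

/-- The product of the primes of `P` killing `z ≠ 0` is at most `nrm z`. -/
theorem NormDiv.prod_le {ρ : Res} {P : Finset Pr} (h : NormDiv ρ P) {z : V} (hz : z ≠ 0) :
    ((∏ p ∈ P.filter (fun p => ρ p z = 0), p.1 : ℕ) : ℤ) ≤ nrm z := by
  refine Int.le_of_dvd (nrm_pos hz) ?_
  push_cast
  refine Finset.prod_dvd_of_coprime ?_ ?_
  · intro p _ q _ hpq
    have : Nat.Coprime p.1 q.1 := (Nat.coprime_primes p.2 q.2).2 (fun e => hpq (Subtype.ext e))
    exact Nat.isCoprime_iff_coprime.2 this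
  · intro p hp
    rw [mem_filter] at hp
    exact h p hp.1 z hp.2

theorem NormDiv.sum_log_le {ρ : Res} {P : Finset Pr} (h : NormDiv ρ P) {z : V} (hz : z ≠ 0)
    {k : ℕ} (hk : nrm z ≤ 2 ^ k) :
    ∑ p ∈ P.filter (fun p => ρ p z = 0), Real.log p.1 ≤ k := by
  have h1 := (h.prod_le hz).trans hk
  have h2 : ∏ p ∈ P.filter (fun p => ρ p z = 0), (p.1 : ℝ) ≤ 2 ^ k := by
    have : (((∏ p ∈ P.filter (fun p => ρ p z = 0), p.1 : ℕ) : ℤ) : ℝ) ≤ ((2 ^ k : ℤ) : ℝ) := by
      exact_mod_cast h1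
    simpa using this
  rw [← Real.log_prod (fun p _ => by have := p.2.pos; positivity)]
  have h3 : 0 < ∏ p ∈ P.filter (fun p => ρ p z = 0), (p.1 : ℝ) :=
    prod_pos fun p _ => by have := p.2.pos; positivity
  have h4 := Real.log_le_log h3 h2
  rw [Real.log_pow] at h4
  have h5 : Real.log 2 ≤ 1 := by linarith [Real.log_two_lt_d9]
  have : (k : ℝ) * Real.log 2 ≤ k := by nlinarith [Nat.cast_nonneg (α := ℝ) k]
  linarith

theorem NormDiv.card_le {ρ : Res} {P : Finset Pr} (h : NormDiv ρ P) {z : V} (hz : z ≠ 0)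
    {k : ℕ} (hk : nrm z ≤ 2 ^ k) : (P.filter (fun p => ρ p z = 0)).card ≤ k := by
  have h1 := (h.prod_le hz).trans hk
  have h2 : 2 ^ (P.filter (fun p => ρ p z = 0)).card ≤
      ∏ p ∈ P.filter (fun p => ρ p z = 0), p.1 :=
    Finset.pow_card_le_prod _ _ _ (fun p _ => p.2.two_le)
  have h3 : ∏ p ∈ P.filter (fun p => ρ p z = 0), p.1 ≤ 2 ^ k := by exact_mod_cast h1
  exact (Nat.pow_le_pow_iff_right (by norm_num)).1 (h2.trans h3)

theorem NormDiv.mono {ρ : Res} {P Q : Finset Pr} (h : NormDiv ρ P) (hQ : Q ⊆ P) : NormDiv ρ Q :=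
  fun p hp => h p (hQ hp)

/-- A walk together with the kernels of `GStmt` at the scales `2^(40 (j0 + i))`. -/
structure Sys where
  D : ℕ
  X : ℕ → V
  walk : Walk D X
  K : ℝ
  j0 : ℕ
  γ : ℕ
  G : ℕ → ℕ → Ex (ℕ × ℕ)
  v : ℕ → ℕ → V
  hj0 : 100 ≤ j0
  hD : D ≤ 2 ^ j0
  hK1 : 1 ≤ K
  hK : K ≤ 2 ^ j0
  hγ : γ ≤ j0
  hG : ∀ i a, GProp X K (2 ^ (40 * (j0 + (i + 1)))) a (G i a) (v i a)

namespace Sys

variable (S : Sys)

/-- The scale of level `i`. -/
@[irreducible] def r (i : ℕ) : ℕ := 2 ^ (40 * (S.j0 + i))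

/-- The number of leaves of the main object of level `i`. -/
@[irreducible] def nn (i : ℕ) : ℕ := 2 ^ (682 + S.γ + Nat.clog 2 (S.j0 + i) + 40 * (S.j0 + i))

/-- The number of pairs of copies in the step from level `i` to level `i + 1`. -/
@[irreducible] def b (i : ℕ) : ℕ := 2 ^ (39 + (Nat.clog 2 (S.j0 + (i + 1)) - Nat.clog 2 (S.j0 + i)))

/-- The step from level `i + 1` (anchor `a`) to a pair of anchors of level `i`. -/
@[irreducible] noncomputable def St (i a : ℕ) : Ex (ℕ × ℕ) :=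
  (Ex.unif (2 ^ (6 * S.r (i + 1)))).bind fun u => S.G i (a + u)

/-- A random child anchor. -/
noncomputable def child (i a : ℕ) : Ex ℕ := (S.St i a).bind fun st => Ex.coin st.1 st.2

/-- The law of the time of a random leaf of level `i` below the anchor `a`. -/
noncomputable def mu : ℕ → ℕ → Ex ℕ
  | 0, a => (Ex.unif (2 ^ S.r 0)).bind fun u => (Ex.unif (S.nn 0)).map fun k => a + u + k
  | i + 1, a => (S.child i a).bind (mu i)

open Classical in
/-- The probability that the main object of level `i` at anchor `a` misses the class `c`. -/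
noncomputable def miss {p : Pr} (ρ : V →+ ZMod p.1) : ℕ → ℕ → ZMod p.1 → ℝ
  | 0, a, c => (Ex.unif (2 ^ S.r 0)).E fun u =>
      if ∀ k < S.nn 0, ρ (S.X (a + u + k)) ≠ c then 1 else 0
  | i + 1, a, c => (S.St i a).E fun st => (miss ρ i st.1 c * miss ρ i st.2 c) ^ S.b i

/-- `ν i` is the law of the level-`i` descendant anchor, for `i ≤ J`. -/
def Chain (ν : ℕ → Ex ℕ) (J : ℕ) : Prop := ∀ i < J, ν i = (ν (i + 1)).bind (S.child i)

theorem hG' (i a : ℕ) : GProp S.X S.K (S.r (i + 1)) a (S.G i a) (S.v i a) := by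
  unfold r; exact S.hG i a

theorem r_eq (i : ℕ) : S.r i = 2 ^ (40 * (S.j0 + i)) := by unfold r; rfl

theorem St_eq (i a : ℕ) :
    S.St i a = (Ex.unif (2 ^ (6 * S.r (i + 1)))).bind fun u => S.G i (a + u) := by
  unfold St; rfl

theorem r_succ (i : ℕ) : S.r (i + 1) = 2 ^ 40 * S.r i := by
  unfold r; rw [← pow_add]; congr 1; ring

theorem r_add (i k : ℕ) : S.r (i + k) = 2 ^ (40 * k) * S.r i := by
  unfold r; rw [← pow_add]; congr 1; ring

theorem r_mono {i j : ℕ} (h : i ≤ j) : S.r i ≤ S.r j := by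
  unfold r; exact Nat.pow_le_pow_right (by norm_num) (by omega)

theorem r_pos (i : ℕ) : 0 < S.r i := by unfold r; positivity

/-- `r i` dwarfs every linear function of `j0 + i`. -/
theorem lin_le_r (i : ℕ) : 2 ^ 30 * (S.j0 + i) ≤ S.r i := by
  unfold r
  have h1 : S.j0 + i ≤ 2 ^ (S.j0 + i) := Nat.lt_two_pow_self.le
  have h2 := S.hj0
  calc 2 ^ 30 * (S.j0 + i) ≤ 2 ^ 30 * 2 ^ (S.j0 + i) := Nat.mul_le_mul_left _ h1
    _ = 2 ^ (30 + (S.j0 + i)) := by rw [← pow_add]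
    _ ≤ _ := Nat.pow_le_pow_right (by norm_num) (by omega)

theorem nn_pos (i : ℕ) : 0 < S.nn i := by unfold nn; positivity

theorem b_pos (i : ℕ) : 1 ≤ S.b i := by unfold b; exact Nat.one_le_two_pow

theorem nn_succ (i : ℕ) : S.nn (i + 1) = 2 * S.b i * S.nn i := by
  unfold nn b
  have : Nat.clog 2 (S.j0 + i) ≤ Nat.clog 2 (S.j0 + (i + 1)) := Nat.clog_mono_right _ (by omega)
  rw [← pow_succ', ← pow_add]; congr 1; omega

theorem nn_eq (i : ℕ) : S.nn i = 2 ^ (682 + S.γ) * 2 ^ Nat.clog 2 (S.j0 + i) * S.r i := by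
  unfold nn r; rw [← pow_add, ← pow_add]

theorem le_two_pow_clog (i : ℕ) : S.j0 + i ≤ 2 ^ Nat.clog 2 (S.j0 + i) :=
  Nat.le_pow_clog (by norm_num) _

theorem two_pow_clog_le (i : ℕ) : 2 ^ Nat.clog 2 (S.j0 + i) ≤ 2 * (S.j0 + i) := by
  have h0 := S.hj0
  have h1 : 1 < S.j0 + i := by omega
  have h2 := Nat.pow_pred_clog_lt_self (b := 2) (by norm_num) h1
  have h3 : 0 < Nat.clog 2 (S.j0 + i) := Nat.clog_pos (by norm_num) h1
  obtain ⟨k, hk⟩ : ∃ k, Nat.clog 2 (S.j0 + i) = k + 1 := ⟨_, (Nat.succ_pred_eq_of_pos h3).symm⟩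
  rw [hk] at h2 ⊢
  simp only [Nat.pred_succ] at h2
  rw [pow_succ]; omega

theorem nn_le (i : ℕ) : S.nn i ≤ 2 ^ (50 * (S.j0 + i)) := by
  have h0 := S.hj0
  have h1 := S.hγ
  have h2 : Nat.clog 2 (S.j0 + i) ≤ S.j0 + i :=
    (Nat.clog_le_iff_le_pow (by norm_num)).2 Nat.lt_two_pow_self.le
  unfold nn
  exact Nat.pow_le_pow_right (by norm_num) (by omega)

theorem nn_zero_le : S.nn 0 ≤ 2 ^ S.r 0 := by
  refine (S.nn_le 0).trans (Nat.pow_le_pow_right (by norm_num) ?_)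
  have := S.lin_le_r 0; omega

theorem St_range (i a : ℕ) : (S.St i a).AS (fun st =>
    a ≤ st.1 ∧ st.1 ≤ a + 2 ^ (6 * S.r (i + 1) + 1) ∧
    a ≤ st.2 ∧ st.2 ≤ a + 2 ^ (6 * S.r (i + 1) + 1)) := by
  rw [St_eq]
  refine Ex.AS_bind (Ex.AS_unif (by positivity)) fun u hu => ((S.hG' i (a + u)).2.2.1.mono ?_)
  rintro st ⟨h1, h2, h3, h4⟩
  have : 2 ^ (5 * S.r (i + 1)) ≤ 2 ^ (6 * S.r (i + 1)) :=
    Nat.pow_le_pow_right (by norm_num) (by omega)
  rw [pow_succ]
  omega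

theorem child_range (i a : ℕ) :
    (S.child i a).AS (fun s => a ≤ s ∧ s ≤ a + 2 ^ (6 * S.r (i + 1) + 1)) :=
  Ex.AS_bind (S.St_range i a) fun _ h => Ex.AS_coin ⟨h.1, h.2.1⟩ ⟨h.2.2.1, h.2.2.2⟩

theorem mu_range (i a : ℕ) : (S.mu i a).AS (fun u => a ≤ u ∧ u ≤ a + 2 ^ (7 * S.r i)) := by
  induction i generalizing a with
  | zero =>
    refine Ex.AS_bind (Ex.AS_unif (by positivity)) fun u hu =>
      Ex.AS_map ((Ex.AS_unif (S.nn_pos 0).ne').mono fun k hk => ?_)
    have h1 := S.nn_zero_le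
    have h2 : 2 ^ (S.r 0 + 1) ≤ 2 ^ (7 * S.r 0) :=
      Nat.pow_le_pow_right (by norm_num) (by have := S.r_pos 0; omega)
    rw [pow_succ] at h2
    omega
  | succ i ih =>
    refine Ex.AS_bind (S.child_range i a) fun s hs => (ih s).mono fun u hu => ?_
    have h0 := S.r_succ i
    have h1 := S.r_pos i
    have h2 : 2 ^ (7 * S.r i) ≤ 2 ^ (6 * S.r (i + 1) + 1) :=
      Nat.pow_le_pow_right (by norm_num) (by omega)
    have h3 : 2 ^ (6 * S.r (i + 1) + 1 + 1) ≤ 2 ^ (7 * S.r (i + 1)) :=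
      Nat.pow_le_pow_right (by norm_num) (by omega)
    rw [pow_succ] at h3
    omega

/-- The radius of the box holding displacements at level `i`. -/
@[irreducible] def rad (i : ℕ) : ℕ := S.D * 2 ^ (7 * S.r i)

theorem rad_eq (i : ℕ) : S.rad i = S.D * 2 ^ (7 * S.r i) := by unfold rad; rfl

theorem rad_le (i : ℕ) : S.rad i ≤ 2 ^ (7 * S.r i + S.j0) := by
  unfold rad; rw [pow_add, mul_comm]; exact Nat.mul_le_mul_left _ S.hD

theorem card_box_rad_le (i : ℕ) : (box (2 * S.rad i)).card ≤ 2 ^ (15 * S.r i) := by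
  rw [card_box]
  have h1 := S.rad_le i
  have h2 := S.lin_le_r i
  have h0 := S.hj0
  have h3 : 2 * (2 * S.rad i) + 1 ≤ 2 ^ (7 * S.r i + S.j0 + 3) := by
    have : 1 ≤ 2 ^ (7 * S.r i + S.j0) := Nat.one_le_two_pow
    rw [pow_add 2 _ 3]; omega
  calc _ ≤ (2 ^ (7 * S.r i + S.j0 + 3)) ^ 2 := Nat.pow_le_pow_left h3 2
    _ = 2 ^ ((7 * S.r i + S.j0 + 3) * 2) := by rw [← pow_mul]
    _ ≤ _ := Nat.pow_le_pow_right (by norm_num) (by omega)

theorem log_card_box_rad_le (i : ℕ) : Real.log (box (S.rad i)).card ≤ 15 * S.r i := by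
  have h1 : (box (S.rad i)).card ≤ 2 ^ (15 * S.r i) :=
    (card_le_card (box_mono (by omega))).trans (S.card_box_rad_le i)
  have h2 : (0 : ℝ) < (box (S.rad i)).card := by rw [card_box]; positivity
  have h3 : ((box (S.rad i)).card : ℝ) ≤ 2 ^ (15 * S.r i) := by exact_mod_cast h1
  have h4 := Real.log_le_log h2 h3
  rw [Real.log_pow] at h4
  have h5 : Real.log 2 ≤ 1 := by linarith [Real.log_two_lt_d9]
  push_cast at h4
  nlinarith [Nat.cast_nonneg (α := ℝ) (S.r i)]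

theorem nrm_le_of_mem_rad {i : ℕ} {z : V} (hz : z ∈ box (S.rad i)) : nrm z ≤ 2 ^ (15 * S.r i) := by
  have h1 := nrm_le_of_mem_box hz
  have h2 := S.rad_le i
  have h3 := S.lin_le_r i
  have h0 := S.hj0
  have h4 : 2 * S.rad i ^ 2 ≤ 2 ^ (15 * S.r i) := by
    calc 2 * S.rad i ^ 2 ≤ 2 * (2 ^ (7 * S.r i + S.j0)) ^ 2 :=
          Nat.mul_le_mul_left _ (Nat.pow_le_pow_left h2 2)
      _ = 2 ^ ((7 * S.r i + S.j0) * 2 + 1) := by rw [← pow_mul, ← pow_succ']
      _ ≤ _ := Nat.pow_le_pow_right (by norm_num) (by omega)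
  exact h1.trans (by exact_mod_cast h4)

theorem St_box (i a : ℕ) : (S.St i a).AS (fun st =>
    S.X st.1 - S.X a ∈ box (S.rad (i + 1)) ∧ S.X st.2 - S.X st.1 ∈ box (S.rad (i + 1))) := by
  refine (S.St_range i a).mono ?_
  rintro st ⟨h1, h2, h3, h4⟩
  have h5 : 2 ^ (6 * S.r (i + 1) + 1) ≤ 2 ^ (7 * S.r (i + 1)) :=
    Nat.pow_le_pow_right (by norm_num) (by have := S.r_pos (i + 1); omega)
  unfold rad
  exact ⟨S.walk.sub_mem le_rfl (Nat.le_add_right _ _) h1 (by omega),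
    S.walk.sub_mem h1 (by omega) h3 (by omega)⟩

theorem mu_box (i a : ℕ) : (S.mu i a).AS (fun u => S.X u - S.X a ∈ box (S.rad i)) := by
  unfold rad
  exact (S.mu_range i a).mono fun _ h => S.walk.sub_mem le_rfl (Nat.le_add_right _ _) h.1 h.2

theorem child_E (i a : ℕ) (f : ℕ → ℝ) :
    (S.child i a).E f = (S.St i a).E (fun st => (f st.1 + f st.2) / 2) := rfl

theorem mu_zero (a : ℕ) : S.mu 0 a =
    (Ex.unif (2 ^ S.r 0)).bind fun u => (Ex.unif (S.nn 0)).map fun k => a + u + k := rfl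

open Classical in
theorem miss_zero {p : Pr} (ρ : V →+ ZMod p.1) (a : ℕ) (c : ZMod p.1) : S.miss ρ 0 a c =
    (Ex.unif (2 ^ S.r 0)).E fun u => if ∀ k < S.nn 0, ρ (S.X (a + u + k)) ≠ c then 1 else 0 := rfl

theorem miss_succ {p : Pr} (ρ : V →+ ZMod p.1) (i a : ℕ) (c : ZMod p.1) : S.miss ρ (i + 1) a c =
    (S.St i a).E fun st => (S.miss ρ i st.1 c * S.miss ρ i st.2 c) ^ S.b i := rfl

theorem mu_succ (i a : ℕ) : S.mu (i + 1) a = (S.child i a).bind (S.mu i) := rfl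

theorem exists_chain (J a : ℕ) : ∃ ν : ℕ → Ex ℕ, ν J = Ex.pure a ∧ S.Chain ν J := by
  suffices h : ∀ k ≤ J, ∃ ν : ℕ → Ex ℕ, ν J = Ex.pure a ∧
      ∀ i < J, J - k ≤ i → ν i = (ν (i + 1)).bind (S.child i) by
    obtain ⟨ν, h1, h2⟩ := h J le_rfl
    exact ⟨ν, h1, fun i hi => h2 i hi (by omega)⟩
  intro k hk
  induction k with
  | zero => exact ⟨fun _ => Ex.pure a, rfl, fun i hi h => by omega⟩
  | succ k ih =>
    obtain ⟨ν, h1, h2⟩ := ih (by omega)
    refine ⟨Function.update ν (J - (k + 1)) ((ν (J - k)).bind (S.child (J - (k + 1)))), ?_, ?_⟩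
    · rw [Function.update_of_ne (by omega), h1]
    · intro i hi h
      by_cases e : i = J - (k + 1)
      · subst e
        rw [Function.update_self, Function.update_of_ne (by omega),
          show J - (k + 1) + 1 = J - k by omega]
      · rw [Function.update_of_ne e, Function.update_of_ne (by omega)]
        exact h2 i hi (by omega)

variable {S} in
/-- Along a chain the law of a random leaf does not change. -/
theorem Chain.bind_mu {ν : ℕ → Ex ℕ} {J : ℕ} (h : S.Chain ν J) {i : ℕ} (hi : i ≤ J) :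
    (ν i).bind (S.mu i) = (ν J).bind (S.mu J) := by
  obtain ⟨k, rfl⟩ := Nat.exists_eq_add_of_le hi
  induction k with
  | zero => rfl
  | succ k ih =>
    rw [ih (fun j hj => h j (by omega)) (by omega), h (i + k) (by omega)]
    rfl

theorem miss_nonneg {p : Pr} (ρ : V →+ ZMod p.1) (i a : ℕ) (c : ZMod p.1) :
    0 ≤ S.miss ρ i a c := by
  induction i generalizing a with
  | zero => exact Ex.pos _ _ fun u => by split_ifs <;> norm_num
  | succ i ih => exact Ex.pos _ _ fun st => pow_nonneg (mul_nonneg (ih _) (ih _)) _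

theorem miss_le_one {p : Pr} (ρ : V →+ ZMod p.1) (i a : ℕ) (c : ZMod p.1) :
    S.miss ρ i a c ≤ 1 := by
  induction i generalizing a with
  | zero => exact Ex.le_const _ fun u => by split_ifs <;> norm_num
  | succ i ih =>
    exact Ex.le_const _ fun st => pow_le_one₀ (mul_nonneg (S.miss_nonneg _ _ _ _)
      (S.miss_nonneg _ _ _ _)) (mul_le_one₀ (ih _) (S.miss_nonneg _ _ _ _) (ih _))

end Sys

/-- A random datum attached to each anchor, with values in the finite set `S`. -/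
structure Obj where
  Δ : Type
  S : Finset Δ
  L : ℕ → Ex Δ
  hS : ∀ a, (L a).AS (fun x => x ∈ S)

/-- `q` is a code (a positive sub-probability weight) on the data of `O`. -/
def Obj.Code (O : Obj) (q : O.Δ → ℝ) : Prop := (∀ x, 0 < q x) ∧ ∑ x ∈ O.S, q x ≤ 1

/-- The data of `O` can be coded with expected length `≤ h` when the anchor has law `ν`. -/
def Obj.Cost (O : Obj) (ν : Ex ℕ) (h : ℝ) : Prop :=
  ∃ q, O.Code q ∧ ν.E (fun a => (O.L a).E fun x => -Real.log (q x)) ≤ h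

namespace Sys

variable (S : Sys)

/-- The object of level `i + 1`: the displacements to the two children and `b` independent pairs
of copies of `O` at the children. -/
noncomputable def merge (O : Obj) (i b : ℕ) : Obj where
  Δ := V × V × (Fin b → O.Δ × O.Δ)
  S := box (S.rad (i + 1)) ×ˢ box (S.rad (i + 1)) ×ˢ Fintype.piFinset (fun _ => O.S ×ˢ O.S)
  L a := (S.St i a).bind fun st => (((O.L st.1).prod (O.L st.2)).pow b).map
    fun w => (S.X st.1 - S.X a, S.X st.2 - S.X st.1, w)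
  hS a := Ex.AS_bind (S.St_box i a) fun st h =>
    Ex.AS_map ((Ex.AS_pow (Ex.AS_prod (O.hS st.1) (O.hS st.2)) b).mono fun w hw => by
      simp only [mem_product, Fintype.mem_piFinset]
      exact ⟨h.1, h.2, hw⟩)

theorem merge_E (O : Obj) (i b a : ℕ) (f : (S.merge O i b).Δ → ℝ) :
    ((S.merge O i b).L a).E f = (S.St i a).E fun st => (((O.L st.1).prod (O.L st.2)).pow b).E
      fun w => f (S.X st.1 - S.X a, S.X st.2 - S.X st.1, w) := rfl

/-- A pair of copies at the two children can be coded, given their displacement, with expected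
length `≤ h` when the parent anchor (level `i + 1`) has law `ν'`. -/
def Cost2 (O : Obj) (i : ℕ) (ν' : Ex ℕ) (h : ℝ) : Prop :=
  ∃ q₂ : V → O.Δ × O.Δ → ℝ, (∀ d x, 0 < q₂ d x) ∧ (∀ d, ∑ x ∈ O.S ×ˢ O.S, q₂ d x ≤ 1) ∧
    ν'.E (fun a => (S.St i a).E fun st => ((O.L st.1).prod (O.L st.2)).E
      fun x => -Real.log (q₂ (S.X st.2 - S.X st.1) x)) ≤ h

/-- Coding the pair given the displacement saves `g`. -/
def Gain (O : Obj) (i : ℕ) (ν' : Ex ℕ) (g : ℝ) : Prop :=
  ∀ h, O.Cost (ν'.bind (S.child i)) h → S.Cost2 O i ν' (2 * h - g)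

/-- The data of `O` carry on average `e` nats of information on the residue of the anchor point. -/
def Score (ρ : Res) (P : Finset Pr) (O : Obj) (ν : Ex ℕ) (e : ℝ) : Prop :=
  ∃ ψ : (p : Pr) → O.Δ → ZMod p.1 → ℝ, (∀ p x c, 0 < ψ p x c) ∧ (∀ p x, ∑ c, ψ p x c ≤ p.1) ∧
    e * P.card ≤ ∑ p ∈ P, ν.E (fun a => (O.L a).E fun x => Real.log (ψ p x (ρ p (S.X a))))

end Sys

end Crest.Agent.R2
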